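import Vale.Agent.P098.Six.S21.Root

/-!
# P098, six dimensions: checked pieces of the tree
-/

namespace Vale.Agent.P098.Six.S21

/-- A piece of the tree. -/
noncomputable def tree46 : Tree LeafX :=
  .s3
    (.s3
    (.s2
    (.leaf (.box ⟨188, 2, -2048, 8, 56, 245, 418793, 0, 0, 0, 0, 0, 0⟩ ⟨0, 0, 0, 0, 0, 0, 500892, 0, 0, 0, 0, 0, 0⟩ ⟨0, 0, 0, 0, 0, 0, 500892, 0, 0, 0, 0, 0, 0⟩ ⟨0, 0, 0, 0, 0, 0, 623027, 0, 0, 0, 0, 0, 0⟩ ⟨0, 0, 0, 0, 0, 0, 623027, 0, 0, 0, 0, 0, 0⟩ ⟨324, 2, -3695, 6, 52, 443, 823931, 0, 0, 0, 0, 0, 0⟩))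
    (.leaf (.box ⟨178, 2, -2048, 7, 52, 239, 422558, 0, 0, 0, 0, 0, 0⟩ ⟨0, 0, 0, 0, 0, 0, 505479, 0, 0, 0, 0, 0, 0⟩ ⟨0, 0, 0, 0, 0, 0, 505479, 0, 0, 0, 0, 0, 0⟩ ⟨0, 0, 0, 0, 0, 0, 628889, 0, 0, 0, 0, 0, 0⟩ ⟨0, 0, 0, 0, 0, 0, 628889, 0, 0, 0, 0, 0, 0⟩ ⟨322, 1, -3663, 6, 48, 429, 832022, 0, 0, 0, 0, 0, 0⟩)))
    (.leaf (.box ⟨194, 3, -2048, 11, 55, 241, 441366, 0, 0, 0, 0, 0, 0⟩ ⟨0, 0, 0, 0, 0, 0, 524858, 0, 0, 0, 0, 0, 0⟩ ⟨0, 0, 0, 0, 0, 0, 524858, 0, 0, 0, 0, 0, 0⟩ ⟨0, 0, 0, 0, 0, 0, 647306, 0, 0, 0, 0, 0, 0⟩ ⟨0, 0, 0, 0, 0, 0, 647306, 0, 0, 0, 0, 0, 0⟩ ⟨290, 2, -2864, 6, 38, 339, 844272, 0, 0, 0, 0, 0, 0⟩)))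
    (.s1
    (.leaf (.box ⟨166, 2, -2066, 6, 49, 240, 472955, 0, 0, 0, 0, 0, 0⟩ ⟨0, 0, 0, 0, 0, 0, 558729, 0, 0, 0, 0, 0, 0⟩ ⟨0, 0, 0, 0, 0, 0, 558729, 0, 0, 0, 0, 0, 0⟩ ⟨0, 0, 0, 0, 0, 0, 682506, 0, 0, 0, 0, 0, 0⟩ ⟨0, 0, 0, 0, 0, 0, 682506, 0, 0, 0, 0, 0, 0⟩ ⟨286, 2, -3676, 6, 47, 427, 876731, 0, 0, 0, 0, 0, 0⟩))
    (.s2
    (.leaf (.box ⟨167, 2, -2449, 6, 61, 300, 465825, 0, 0, 0, 0, 0, 0⟩ ⟨0, 0, 0, 0, 0, 0, 550407, 0, 0, 0, 0, 0, 0⟩ ⟨0, 0, 0, 0, 0, 0, 550407, 0, 0, 0, 0, 0, 0⟩ ⟨0, 0, 0, 0, 0, 0, 672520, 0, 0, 0, 0, 0, 0⟩ ⟨0, 0, 0, 0, 0, 0, 672520, 0, 0, 0, 0, 0, 0⟩ ⟨290, 2, -4362, 6, 59, 536, 864263, 0, 0, 0, 0, 0, 0⟩))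
    (.leaf (.box ⟨165, 1, -2448, 6, 57, 292, 470399, 0, 0, 0, 0, 0, 0⟩ ⟨0, 0, 0, 0, 0, 0, 555888, 0, 0, 0, 0, 0, 0⟩ ⟨0, 0, 0, 0, 0, 0, 555888, 0, 0, 0, 0, 0, 0⟩ ⟨0, 0, 0, 0, 0, 0, 679349, 0, 0, 0, 0, 0, 0⟩ ⟨0, 0, 0, 0, 0, 0, 679349, 0, 0, 0, 0, 0, 0⟩ ⟨337, 1, -5118, 6, 64, 613, 873309, 0, 0, 0, 0, 0, 0⟩))))

/-- A piece of the tree. -/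
noncomputable def tree47 : Tree LeafX :=
  .s1
    (.s3
    (.s0
    (.leaf (.box ⟨434, 0, -2048, 20, 75, 234, 201289, 0, 0, 0, 0, 0, 0⟩ ⟨0, 0, 0, 0, 0, 0, 251318, 0, 0, 0, 0, 0, 0⟩ ⟨0, 0, 0, 0, 0, 0, 251318, 0, 0, 0, 0, 0, 0⟩ ⟨0, 0, 0, 0, 0, 0, 334438, 0, 0, 0, 0, 0, 0⟩ ⟨0, 0, 0, 0, 0, 0, 334438, 0, 0, 0, 0, 0, 0⟩ ⟨453, 0, -2048, 9, 31, 242, 499713, 0, 0, 0, 0, 0, 0⟩))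
    (.s3
    (.s2
    (.leaf (.box ⟨271, 2, -2048, 15, 89, 250, 217191, 0, 0, 0, 0, 0, 0⟩ ⟨0, 0, 0, 0, 0, 0, 271039, 0, 0, 0, 0, 0, 0⟩ ⟨0, 0, 0, 0, 0, 0, 271039, 0, 0, 0, 0, 0, 0⟩ ⟨0, 0, 0, 0, 0, 0, 360389, 0, 0, 0, 0, 0, 0⟩ ⟨0, 0, 0, 0, 0, 0, 360389, 0, 0, 0, 0, 0, 0⟩ ⟨286, 1, -2048, 7, 37, 258, 537620, 0, 0, 0, 0, 0, 0⟩))
    (.leaf (.box ⟨237, 0, -2048, 14, 74, 232, 216663, 0, 0, 0, 0, 0, 0⟩ ⟨0, 0, 0, 0, 0, 0, 270442, 0, 0, 0, 0, 0, 0⟩ ⟨0, 0, 0, 0, 0, 0, 270442, 0, 0, 0, 0, 0, 0⟩ ⟨0, 0, 0, 0, 0, 0, 359731, 0, 0, 0, 0, 0, 0⟩ ⟨0, 0, 0, 0, 0, 0, 359731, 0, 0, 0, 0, 0, 0⟩ ⟨249, 0, -2177, 6, 33, 253, 537042, 0, 0, 0, 0, 0, 0⟩)))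
    (.leaf (.box ⟨402, 1, -2048, 17, 72, 237, 248748, 0, 0, 0, 0, 0, 0⟩ ⟨0, 0, 0, 0, 0, 0, 307379, 0, 0, 0, 0, 0, 0⟩ ⟨0, 0, 0, 0, 0, 0, 307379, 0, 0, 0, 0, 0, 0⟩ ⟨0, 0, 0, 0, 0, 0, 402171, 0, 0, 0, 0, 0, 0⟩ ⟨0, 0, 0, 0, 0, 0, 402171, 0, 0, 0, 0, 0, 0⟩ ⟨358, 1, -2048, 8, 32, 250, 581497, 0, 0, 0, 0, 0, 0⟩))))
    (.s0
    (.leaf (.box ⟨505, 0, -2048, 17, 58, 242, 271891, 0, 0, 0, 0, 0, 0⟩ ⟨0, 0, 0, 0, 0, 0, 331640, 0, 0, 0, 0, 0, 0⟩ ⟨0, 0, 0, 0, 0, 0, 331640, 0, 0, 0, 0, 0, 0⟩ ⟨0, 0, 0, 0, 0, 0, 425043, 0, 0, 0, 0, 0, 0⟩ ⟨0, 0, 0, 0, 0, 0, 425043, 0, 0, 0, 0, 0, 0⟩ ⟨522, 0, -2048, 9, 27, 248, 591685, 0, 0, 0, 0, 0, 0⟩))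
    (.s3
    (.leaf (.box ⟨417, 1, -2048, 16, 61, 241, 291951, 0, 0, 0, 0, 0, 0⟩ ⟨0, 0, 0, 0, 0, 0, 356008, 0, 0, 0, 0, 0, 0⟩ ⟨0, 0, 0, 0, 0, 0, 356008, 0, 0, 0, 0, 0, 0⟩ ⟨0, 0, 0, 0, 0, 0, 456075, 0, 0, 0, 0, 0, 0⟩ ⟨0, 0, 0, 0, 0, 0, 456075, 0, 0, 0, 0, 0, 0⟩ ⟨390, 1, -2048, 8, 30, 253, 634388, 0, 0, 0, 0, 0, 0⟩))
    (.leaf (.box ⟨439, 1, -2048, 13, 52, 245, 353169, 0, 0, 0, 0, 0, 0⟩ ⟨0, 0, 0, 0, 0, 0, 422769, 0, 0, 0, 0, 0, 0⟩ ⟨0, 0, 0, 0, 0, 0, 422769, 0, 0, 0, 0, 0, 0⟩ ⟨0, 0, 0, 0, 0, 0, 526533, 0, 0, 0, 0, 0, 0⟩ ⟨0, 0, 0, 0, 0, 0, 526533, 0, 0, 0, 0, 0, 0⟩ ⟨400, 1, -2048, 7, 28, 256, 697801, 0, 0, 0, 0, 0, 0⟩)))))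
    (.s3
    (.leaf (.box ⟨632, -2, -2048, 30, 85, 264, 201036, 0, 0, 0, 0, 0, 0⟩ ⟨0, 0, 0, 0, 0, 0, 251030, 0, 0, 0, 0, 0, 0⟩ ⟨0, 0, 0, 0, 0, 0, 251030, 0, 0, 0, 0, 0, 0⟩ ⟨0, 0, 0, 0, 0, 0, 334117, 0, 0, 0, 0, 0, 0⟩ ⟨0, 0, 0, 0, 0, 0, 334117, 0, 0, 0, 0, 0, 0⟩ ⟨625, -1, -2048, 14, 37, 284, 499418, 0, 0, 0, 0, 0, 0⟩))
    (.leaf (.box ⟨717, -2, -2048, 31, 78, 281, 271745, 0, 0, 0, 0, 0, 0⟩ ⟨0, 0, 0, 0, 0, 0, 331483, 0, 0, 0, 0, 0, 0⟩ ⟨0, 0, 0, 0, 0, 0, 331483, 0, 0, 0, 0, 0, 0⟩ ⟨0, 0, 0, 0, 0, 0, 424885, 0, 0, 0, 0, 0, 0⟩ ⟨0, 0, 0, 0, 0, 0, 424885, 0, 0, 0, 0, 0, 0⟩ ⟨702, -1, -2048, 13, 32, 294, 591571, 0, 0, 0, 0, 0, 0⟩)))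

/-- A piece of the tree. -/
noncomputable def tree48 : Tree LeafX :=
  .s0
    (.s3
    (.s2
    (.s2
    (.leaf (.box ⟨197, 2, -2048, 10, 97, 263, 232971, 0, 0, 0, 0, 0, 0⟩ ⟨0, 0, 0, 0, 0, 0, 290550, 0, 0, 0, 0, 0, 0⟩ ⟨0, 0, 0, 0, 0, 0, 290550, 0, 0, 0, 0, 0, 0⟩ ⟨0, 0, 0, 0, 0, 0, 385934, 0, 0, 0, 0, 0, 0⟩ ⟨0, 0, 0, 0, 0, 0, 385934, 0, 0, 0, 0, 0, 0⟩ ⟨268, 1, -2735, 6, 54, 360, 574550, 0, 0, 0, 0, 0, 0⟩))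
    (.leaf (.box ⟨185, 1, -2048, 10, 88, 252, 232991, 0, 0, 0, 0, 0, 0⟩ ⟨0, 0, 0, 0, 0, 0, 290610, 0, 0, 0, 0, 0, 0⟩ ⟨0, 0, 0, 0, 0, 0, 290610, 0, 0, 0, 0, 0, 0⟩ ⟨0, 0, 0, 0, 0, 0, 386090, 0, 0, 0, 0, 0, 0⟩ ⟨0, 0, 0, 0, 0, 0, 386090, 0, 0, 0, 0, 0, 0⟩ ⟨280, 1, -3108, 6, 56, 392, 575009, 0, 0, 0, 0, 0, 0⟩)))
    (.leaf (.box ⟨194, 1, -2048, 11, 78, 241, 233413, 0, 0, 0, 0, 0, 0⟩ ⟨0, 0, 0, 0, 0, 0, 291208, 0, 0, 0, 0, 0, 0⟩ ⟨0, 0, 0, 0, 0, 0, 291208, 0, 0, 0, 0, 0, 0⟩ ⟨0, 0, 0, 0, 0, 0, 387043, 0, 0, 0, 0, 0, 0⟩ ⟨0, 0, 0, 0, 0, 0, 387043, 0, 0, 0, 0, 0, 0⟩ ⟨239, 0, -2445, 6, 39, 293, 576895, 0, 0, 0, 0, 0, 0⟩)))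
    (.s2
    (.s2
    (.leaf (.box ⟨209, 2, -2048, 9, 87, 267, 266758, 0, 0, 0, 0, 0, 0⟩ ⟨0, 0, 0, 0, 0, 0, 329402, 0, 0, 0, 0, 0, 0⟩ ⟨0, 0, 0, 0, 0, 0, 329402, 0, 0, 0, 0, 0, 0⟩ ⟨0, 0, 0, 0, 0, 0, 430496, 0, 0, 0, 0, 0, 0⟩ ⟨0, 0, 0, 0, 0, 0, 430496, 0, 0, 0, 0, 0, 0⟩ ⟨301, 1, -2884, 6, 54, 384, 621119, 0, 0, 0, 0, 0, 0⟩))
    (.leaf (.box ⟨188, 1, -2048, 9, 79, 256, 266884, 0, 0, 0, 0, 0, 0⟩ ⟨0, 0, 0, 0, 0, 0, 329613, 0, 0, 0, 0, 0, 0⟩ ⟨0, 0, 0, 0, 0, 0, 329613, 0, 0, 0, 0, 0, 0⟩ ⟨0, 0, 0, 0, 0, 0, 430890, 0, 0, 0, 0, 0, 0⟩ ⟨0, 0, 0, 0, 0, 0, 430890, 0, 0, 0, 0, 0, 0⟩ ⟨311, 1, -3351, 6, 57, 427, 622009, 0, 0, 0, 0, 0, 0⟩)))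
    (.leaf (.box ⟨205, 1, -2048, 10, 69, 243, 267628, 0, 0, 0, 0, 0, 0⟩ ⟨0, 0, 0, 0, 0, 0, 330600, 0, 0, 0, 0, 0, 0⟩ ⟨0, 0, 0, 0, 0, 0, 330600, 0, 0, 0, 0, 0, 0⟩ ⟨0, 0, 0, 0, 0, 0, 432324, 0, 0, 0, 0, 0, 0⟩ ⟨0, 0, 0, 0, 0, 0, 432324, 0, 0, 0, 0, 0, 0⟩ ⟨273, 0, -2630, 6, 39, 318, 624471, 0, 0, 0, 0, 0, 0⟩))))
    (.s3
    (.s1
    (.s2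
    (.s3
    (.leaf (.box ⟨153, 2, -2048, 10, 93, 256, 244977, 0, 0, 0, 0, 0, 0⟩ ⟨0, 0, 0, 0, 0, 0, 305354, 0, 0, 0, 0, 0, 0⟩ ⟨0, 0, 0, 0, 0, 0, 305354, 0, 0, 0, 0, 0, 0⟩ ⟨0, 0, 0, 0, 0, 0, 405225, 0, 0, 0, 0, 0, 0⟩ ⟨0, 0, 0, 0, 0, 0, 405225, 0, 0, 0, 0, 0, 0⟩ ⟨211, 1, -2701, 6, 51, 344, 602177, 0, 0, 0, 0, 0, 0⟩))
    (.leaf (.box ⟨157, 2, -2048, 10, 88, 258, 261311, 0, 0, 0, 0, 0, 0⟩ ⟨0, 0, 0, 0, 0, 0, 324219, 0, 0, 0, 0, 0, 0⟩ ⟨0, 0, 0, 0, 0, 0, 324219, 0, 0, 0, 0, 0, 0⟩ ⟨0, 0, 0, 0, 0, 0, 427018, 0, 0, 0, 0, 0, 0⟩ ⟨0, 0, 0, 0, 0, 0, 427018, 0, 0, 0, 0, 0, 0⟩ ⟨224, 1, -2889, 6, 53, 370, 625272, 0, 0, 0, 0, 0, 0⟩)))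
    (.s3
    (.leaf (.box ⟨133, 1, -2048, 9, 79, 241, 245659, 0, 0, 0, 0, 0, 0⟩ ⟨0, 0, 0, 0, 0, 0, 306330, 0, 0, 0, 0, 0, 0⟩ ⟨0, 0, 0, 0, 0, 0, 306330, 0, 0, 0, 0, 0, 0⟩ ⟨0, 0, 0, 0, 0, 0, 406797, 0, 0, 0, 0, 0, 0⟩ ⟨0, 0, 0, 0, 0, 0, 406797, 0, 0, 0, 0, 0, 0⟩ ⟨221, 1, -3493, 6, 56, 418, 605326, 0, 0, 0, 0, 0, 0⟩))
    (.leaf (.box ⟨131, 1, -2048, 8, 75, 242, 262197, 0, 0, 0, 0, 0, 0⟩ ⟨0, 0, 0, 0, 0, 0, 325454, 0, 0, 0, 0, 0, 0⟩ ⟨0, 0, 0, 0, 0, 0, 325454, 0, 0, 0, 0, 0, 0⟩ ⟨0, 0, 0, 0, 0, 0, 428937, 0, 0, 0, 0, 0, 0⟩ ⟨0, 0, 0, 0, 0, 0, 428937, 0, 0, 0, 0, 0, 0⟩ ⟨221, 1, -3447, 6, 54, 414, 628907, 0, 0, 0, 0, 0, 0⟩))))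
    (.s2
    (.leaf (.box ⟨174, 2, -2048, 11, 97, 270, 241336, 0, 0, 0, 0, 0, 0⟩ ⟨0, 0, 0, 0, 0, 0, 300874, 0, 0, 0, 0, 0, 0⟩ ⟨0, 0, 0, 0, 0, 0, 300874, 0, 0, 0, 0, 0, 0⟩ ⟨0, 0, 0, 0, 0, 0, 399407, 0, 0, 0, 0, 0, 0⟩ ⟨0, 0, 0, 0, 0, 0, 399407, 0, 0, 0, 0, 0, 0⟩ ⟨225, 1, -2611, 6, 52, 352, 593903, 0, 0, 0, 0, 0, 0⟩))
    (.leaf (.box ⟨140, 1, -2048, 9, 81, 253, 242815, 0, 0, 0, 0, 0, 0⟩ ⟨0, 0, 0, 0, 0, 0, 302891, 0, 0, 0, 0, 0, 0⟩ ⟨0, 0, 0, 0, 0, 0, 302891, 0, 0, 0, 0, 0, 0⟩ ⟨0, 0, 0, 0, 0, 0, 402466, 0, 0, 0, 0, 0, 0⟩ ⟨0, 0, 0, 0, 0, 0, 402466, 0, 0, 0, 0, 0, 0⟩ ⟨223, 0, -3157, 6, 52, 397, 599575, 0, 0, 0, 0, 0, 0⟩))))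
    (.s1
    (.s3
    (.s2
    (.leaf (.box ⟨160, 2, -2048, 9, 83, 259, 280014, 0, 0, 0, 0, 0, 0⟩ ⟨0, 0, 0, 0, 0, 0, 345601, 0, 0, 0, 0, 0, 0⟩ ⟨0, 0, 0, 0, 0, 0, 345601, 0, 0, 0, 0, 0, 0⟩ ⟨0, 0, 0, 0, 0, 0, 451311, 0, 0, 0, 0, 0, 0⟩ ⟨0, 0, 0, 0, 0, 0, 451311, 0, 0, 0, 0, 0, 0⟩ ⟨238, 1, -3010, 6, 54, 387, 650182, 0, 0, 0, 0, 0, 0⟩))
    (.leaf (.box ⟨134, 1, -2048, 8, 71, 243, 281172, 0, 0, 0, 0, 0, 0⟩ ⟨0, 0, 0, 0, 0, 0, 347179, 0, 0, 0, 0, 0, 0⟩ ⟨0, 0, 0, 0, 0, 0, 347179, 0, 0, 0, 0, 0, 0⟩ ⟨0, 0, 0, 0, 0, 0, 453682, 0, 0, 0, 0, 0, 0⟩ ⟨0, 0, 0, 0, 0, 0, 453682, 0, 0, 0, 0, 0, 0⟩ ⟨246, 1, -3795, 6, 57, 457, 654444, 0, 0, 0, 0, 0, 0⟩)))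
    (.s2
    (.leaf (.box ⟨167, 2, -2048, 9, 78, 261, 301667, 0, 0, 0, 0, 0, 0⟩ ⟨0, 0, 0, 0, 0, 0, 370079, 0, 0, 0, 0, 0, 0⟩ ⟨0, 0, 0, 0, 0, 0, 370079, 0, 0, 0, 0, 0, 0⟩ ⟨0, 0, 0, 0, 0, 0, 478619, 0, 0, 0, 0, 0, 0⟩ ⟨0, 0, 0, 0, 0, 0, 478619, 0, 0, 0, 0, 0, 0⟩ ⟨242, 1, -3024, 6, 52, 391, 677248, 0, 0, 0, 0, 0, 0⟩))
    (.leaf (.box ⟨138, 1, -2048, 7, 66, 244, 303166, 0, 0, 0, 0, 0, 0⟩ ⟨0, 0, 0, 0, 0, 0, 372075, 0, 0, 0, 0, 0, 0⟩ ⟨0, 0, 0, 0, 0, 0, 372075, 0, 0, 0, 0, 0, 0⟩ ⟨0, 0, 0, 0, 0, 0, 481522, 0, 0, 0, 0, 0, 0⟩ ⟨0, 0, 0, 0, 0, 0, 481522, 0, 0, 0, 0, 0, 0⟩ ⟨248, 1, -3739, 6, 54, 452, 682191, 0, 0, 0, 0, 0, 0⟩))))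
    (.s2
    (.leaf (.box ⟨189, 2, -2048, 10, 87, 274, 275918, 0, 0, 0, 0, 0, 0⟩ ⟨0, 0, 0, 0, 0, 0, 340633, 0, 0, 0, 0, 0, 0⟩ ⟨0, 0, 0, 0, 0, 0, 340633, 0, 0, 0, 0, 0, 0⟩ ⟨0, 0, 0, 0, 0, 0, 445006, 0, 0, 0, 0, 0, 0⟩ ⟨0, 0, 0, 0, 0, 0, 445006, 0, 0, 0, 0, 0, 0⟩ ⟨245, 1, -2730, 6, 51, 372, 641596, 0, 0, 0, 0, 0, 0⟩))
    (.leaf (.box ⟨146, 1, -2048, 9, 72, 256, 278236, 0, 0, 0, 0, 0, 0⟩ ⟨0, 0, 0, 0, 0, 0, 343660, 0, 0, 0, 0, 0, 0⟩ ⟨0, 0, 0, 0, 0, 0, 343660, 0, 0, 0, 0, 0, 0⟩ ⟨0, 0, 0, 0, 0, 0, 449307, 0, 0, 0, 0, 0, 0⟩ ⟨0, 0, 0, 0, 0, 0, 449307, 0, 0, 0, 0, 0, 0⟩ ⟨241, 0, -3375, 6, 52, 428, 648744, 0, 0, 0, 0, 0, 0⟩)))))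

/-- A piece of the tree. -/
noncomputable def tree49 : Tree LeafX :=
  .s3
    (.s2
    (.leaf (.box ⟨278, 1, -2048, 17, 103, 291, 230353, 0, 0, 0, 0, 0, 0⟩ ⟨0, 0, 0, 0, 0, 0, 287365, 0, 0, 0, 0, 0, 0⟩ ⟨0, 0, 0, 0, 0, 0, 287365, 0, 0, 0, 0, 0, 0⟩ ⟨0, 0, 0, 0, 0, 0, 381878, 0, 0, 0, 0, 0, 0⟩ ⟨0, 0, 0, 0, 0, 0, 381878, 0, 0, 0, 0, 0, 0⟩ ⟨296, 1, -2048, 7, 43, 300, 569028, 0, 0, 0, 0, 0, 0⟩))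
    (.leaf (.box ⟨235, -1, -2048, 14, 85, 270, 231797, 0, 0, 0, 0, 0, 0⟩ ⟨0, 0, 0, 0, 0, 0, 289313, 0, 0, 0, 0, 0, 0⟩ ⟨0, 0, 0, 0, 0, 0, 289313, 0, 0, 0, 0, 0, 0⟩ ⟨0, 0, 0, 0, 0, 0, 384790, 0, 0, 0, 0, 0, 0⟩ ⟨0, 0, 0, 0, 0, 0, 384790, 0, 0, 0, 0, 0, 0⟩ ⟨239, 0, -2111, 6, 36, 285, 574326, 0, 0, 0, 0, 0, 0⟩)))
    (.leaf (.box ⟨428, 0, -2048, 20, 81, 275, 264026, 0, 0, 0, 0, 0, 0⟩ ⟨0, 0, 0, 0, 0, 0, 326120, 0, 0, 0, 0, 0, 0⟩ ⟨0, 0, 0, 0, 0, 0, 326120, 0, 0, 0, 0, 0, 0⟩ ⟨0, 0, 0, 0, 0, 0, 426402, 0, 0, 0, 0, 0, 0⟩ ⟨0, 0, 0, 0, 0, 0, 426402, 0, 0, 0, 0, 0, 0⟩ ⟨390, 0, -2048, 9, 37, 292, 615740, 0, 0, 0, 0, 0, 0⟩))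

/-- A piece of the tree. -/
noncomputable def tree50 : Tree LeafX :=
  .s3
    (.s0
    (.s1
    (.s3
    (.leaf (.box ⟨142, 2, -2048, 10, 96, 262, 255207, 0, 0, 0, 0, 0, 0⟩ ⟨0, 0, 0, 0, 0, 0, 317943, 0, 0, 0, 0, 0, 0⟩ ⟨0, 0, 0, 0, 0, 0, 317943, 0, 0, 0, 0, 0, 0⟩ ⟨0, 0, 0, 0, 0, 0, 421575, 0, 0, 0, 0, 0, 0⟩ ⟨0, 0, 0, 0, 0, 0, 421575, 0, 0, 0, 0, 0, 0⟩ ⟨201, 2, -2769, 6, 54, 360, 625431, 0, 0, 0, 0, 0, 0⟩))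
    (.leaf (.box ⟨143, 2, -2048, 10, 93, 263, 263340, 0, 0, 0, 0, 0, 0⟩ ⟨0, 0, 0, 0, 0, 0, 327349, 0, 0, 0, 0, 0, 0⟩ ⟨0, 0, 0, 0, 0, 0, 327349, 0, 0, 0, 0, 0, 0⟩ ⟨0, 0, 0, 0, 0, 0, 432467, 0, 0, 0, 0, 0, 0⟩ ⟨0, 0, 0, 0, 0, 0, 432467, 0, 0, 0, 0, 0, 0⟩ ⟨213, 2, -2971, 6, 57, 387, 637027, 0, 0, 0, 0, 0, 0⟩)))
    (.leaf (.box ⟨156, 2, -2048, 11, 99, 275, 250912, 0, 0, 0, 0, 0, 0⟩ ⟨0, 0, 0, 0, 0, 0, 312703, 0, 0, 0, 0, 0, 0⟩ ⟨0, 0, 0, 0, 0, 0, 312703, 0, 0, 0, 0, 0, 0⟩ ⟨0, 0, 0, 0, 0, 0, 414872, 0, 0, 0, 0, 0, 0⟩ ⟨0, 0, 0, 0, 0, 0, 414872, 0, 0, 0, 0, 0, 0⟩ ⟨201, 1, -2639, 6, 53, 361, 616200, 0, 0, 0, 0, 0, 0⟩)))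
    (.s1
    (.s3
    (.s2
    (.leaf (.box ⟨109, 2, -2048, 8, 102, 273, 265994, 0, 0, 0, 0, 0, 0⟩ ⟨0, 0, 0, 0, 0, 0, 331263, 0, 0, 0, 0, 0, 0⟩ ⟨0, 0, 0, 0, 0, 0, 331263, 0, 0, 0, 0, 0, 0⟩ ⟨0, 0, 0, 0, 0, 0, 438978, 0, 0, 0, 0, 0, 0⟩ ⟨0, 0, 0, 0, 0, 0, 438978, 0, 0, 0, 0, 0, 0⟩ ⟨197, 2, -3797, 6, 79, 512, 650494, 0, 0, 0, 0, 0, 0⟩))
    (.leaf (.box ⟨104, 2, -2048, 7, 94, 265, 266891, 0, 0, 0, 0, 0, 0⟩ ⟨0, 0, 0, 0, 0, 0, 332509, 0, 0, 0, 0, 0, 0⟩ ⟨0, 0, 0, 0, 0, 0, 332509, 0, 0, 0, 0, 0, 0⟩ ⟨0, 0, 0, 0, 0, 0, 440911, 0, 0, 0, 0, 0, 0⟩ ⟨0, 0, 0, 0, 0, 0, 440911, 0, 0, 0, 0, 0, 0⟩ ⟨219, 2, -4323, 6, 82, 565, 654183, 0, 0, 0, 0, 0, 0⟩)))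
    (.s2
    (.leaf (.box ⟨109, 2, -2048, 7, 100, 274, 274360, 0, 0, 0, 0, 0, 0⟩ ⟨0, 0, 0, 0, 0, 0, 340937, 0, 0, 0, 0, 0, 0⟩ ⟨0, 0, 0, 0, 0, 0, 340937, 0, 0, 0, 0, 0, 0⟩ ⟨0, 0, 0, 0, 0, 0, 450176, 0, 0, 0, 0, 0, 0⟩ ⟨0, 0, 0, 0, 0, 0, 450176, 0, 0, 0, 0, 0, 0⟩ ⟨237, 2, -4352, 6, 89, 588, 662424, 0, 0, 0, 0, 0, 0⟩))
    (.leaf (.box ⟨101, 2, -2048, 7, 92, 265, 275376, 0, 0, 0, 0, 0, 0⟩ ⟨0, 0, 0, 0, 0, 0, 342328, 0, 0, 0, 0, 0, 0⟩ ⟨0, 0, 0, 0, 0, 0, 342328, 0, 0, 0, 0, 0, 0⟩ ⟨0, 0, 0, 0, 0, 0, 452292, 0, 0, 0, 0, 0, 0⟩ ⟨0, 0, 0, 0, 0, 0, 452292, 0, 0, 0, 0, 0, 0⟩ ⟨218, 2, -4190, 6, 79, 549, 666334, 0, 0, 0, 0, 0, 0⟩))))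
    (.s3
    (.leaf (.box ⟨146, 2, -2048, 11, 101, 280, 261410, 0, 0, 0, 0, 0, 0⟩ ⟨0, 0, 0, 0, 0, 0, 325672, 0, 0, 0, 0, 0, 0⟩ ⟨0, 0, 0, 0, 0, 0, 325672, 0, 0, 0, 0, 0, 0⟩ ⟨0, 0, 0, 0, 0, 0, 431825, 0, 0, 0, 0, 0, 0⟩ ⟨0, 0, 0, 0, 0, 0, 431825, 0, 0, 0, 0, 0, 0⟩ ⟨191, 1, -2678, 6, 55, 373, 640644, 0, 0, 0, 0, 0, 0⟩))
    (.leaf (.box ⟨146, 2, -2048, 10, 99, 281, 269714, 0, 0, 0, 0, 0, 0⟩ ⟨0, 0, 0, 0, 0, 0, 335280, 0, 0, 0, 0, 0, 0⟩ ⟨0, 0, 0, 0, 0, 0, 335280, 0, 0, 0, 0, 0, 0⟩ ⟨0, 0, 0, 0, 0, 0, 442961, 0, 0, 0, 0, 0, 0⟩ ⟨0, 0, 0, 0, 0, 0, 442961, 0, 0, 0, 0, 0, 0⟩ ⟨202, 1, -2803, 6, 57, 391, 652534, 0, 0, 0, 0, 0, 0⟩)))))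
    (.s0
    (.s1
    (.s2
    (.leaf (.box ⟨118, 2, -2048, 7, 95, 268, 271630, 0, 0, 0, 0, 0, 0⟩ ⟨0, 0, 0, 0, 0, 0, 336887, 0, 0, 0, 0, 0, 0⟩ ⟨0, 0, 0, 0, 0, 0, 336887, 0, 0, 0, 0, 0, 0⟩ ⟨0, 0, 0, 0, 0, 0, 443412, 0, 0, 0, 0, 0, 0⟩ ⟨0, 0, 0, 0, 0, 0, 443412, 0, 0, 0, 0, 0, 0⟩ ⟨214, 2, -3768, 6, 75, 501, 648456, 0, 0, 0, 0, 0, 0⟩))
    (.leaf (.box ⟨111, 2, -2048, 7, 87, 259, 272205, 0, 0, 0, 0, 0, 0⟩ ⟨0, 0, 0, 0, 0, 0, 337707, 0, 0, 0, 0, 0, 0⟩ ⟨0, 0, 0, 0, 0, 0, 337707, 0, 0, 0, 0, 0, 0⟩ ⟨0, 0, 0, 0, 0, 0, 444720, 0, 0, 0, 0, 0, 0⟩ ⟨0, 0, 0, 0, 0, 0, 444720, 0, 0, 0, 0, 0, 0⟩ ⟨245, 1, -4557, 6, 83, 585, 651015, 0, 0, 0, 0, 0, 0⟩)))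
    (.leaf (.box ⟨162, 2, -2048, 10, 94, 276, 267534, 0, 0, 0, 0, 0, 0⟩ ⟨0, 0, 0, 0, 0, 0, 331903, 0, 0, 0, 0, 0, 0⟩ ⟨0, 0, 0, 0, 0, 0, 331903, 0, 0, 0, 0, 0, 0⟩ ⟨0, 0, 0, 0, 0, 0, 437060, 0, 0, 0, 0, 0, 0⟩ ⟨0, 0, 0, 0, 0, 0, 437060, 0, 0, 0, 0, 0, 0⟩ ⟨223, 1, -2831, 6, 56, 389, 639753, 0, 0, 0, 0, 0, 0⟩)))
    (.s3
    (.s0
    (.leaf (.box ⟨198, 3, -2048, 13, 96, 272, 278588, 0, 0, 0, 0, 0, 0⟩ ⟨0, 0, 0, 0, 0, 0, 345501, 0, 0, 0, 0, 0, 0⟩ ⟨0, 0, 0, 0, 0, 0, 345501, 0, 0, 0, 0, 0, 0⟩ ⟨0, 0, 0, 0, 0, 0, 454717, 0, 0, 0, 0, 0, 0⟩ ⟨0, 0, 0, 0, 0, 0, 454717, 0, 0, 0, 0, 0, 0⟩ ⟨252, 2, -2717, 6, 53, 369, 664897, 0, 0, 0, 0, 0, 0⟩))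
    (.leaf (.box ⟨182, 4, -2048, 15, 100, 277, 284386, 0, 0, 0, 0, 0, 0⟩ ⟨0, 0, 0, 0, 0, 0, 352639, 0, 0, 0, 0, 0, 0⟩ ⟨0, 0, 0, 0, 0, 0, 352639, 0, 0, 0, 0, 0, 0⟩ ⟨0, 0, 0, 0, 0, 0, 464000, 0, 0, 0, 0, 0, 0⟩ ⟨0, 0, 0, 0, 0, 0, 464000, 0, 0, 0, 0, 0, 0⟩ ⟨268, 2, -2949, 6, 58, 404, 678154, 0, 0, 0, 0, 0, 0⟩)))
    (.s0
    (.leaf (.box ⟨184, 3, -2048, 10, 91, 275, 288093, 0, 0, 0, 0, 0, 0⟩ ⟨0, 0, 0, 0, 0, 0, 356395, 0, 0, 0, 0, 0, 0⟩ ⟨0, 0, 0, 0, 0, 0, 356395, 0, 0, 0, 0, 0, 0⟩ ⟨0, 0, 0, 0, 0, 0, 467146, 0, 0, 0, 0, 0, 0⟩ ⟨0, 0, 0, 0, 0, 0, 467146, 0, 0, 0, 0, 0, 0⟩ ⟨257, 2, -2691, 6, 52, 366, 677763, 0, 0, 0, 0, 0, 0⟩))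
    (.leaf (.box ⟨181, 4, -2048, 14, 97, 278, 294049, 0, 0, 0, 0, 0, 0⟩ ⟨0, 0, 0, 0, 0, 0, 363711, 0, 0, 0, 0, 0, 0⟩ ⟨0, 0, 0, 0, 0, 0, 363711, 0, 0, 0, 0, 0, 0⟩ ⟨0, 0, 0, 0, 0, 0, 476625, 0, 0, 0, 0, 0, 0⟩ ⟨0, 0, 0, 0, 0, 0, 476625, 0, 0, 0, 0, 0, 0⟩ ⟨249, 2, -2742, 6, 53, 377, 691211, 0, 0, 0, 0, 0, 0⟩)))))

/-- A piece of the tree. -/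
noncomputable def tree51 : Tree LeafX :=
  .s0
    (.s0
    (.s3
    (.leaf (.box ⟨161, 1, -2048, 9, 82, 251, 253443, 0, 0, 0, 0, 0, 0⟩ ⟨0, 0, 0, 0, 0, 0, 316075, 0, 0, 0, 0, 0, 0⟩ ⟨0, 0, 0, 0, 0, 0, 316075, 0, 0, 0, 0, 0, 0⟩ ⟨0, 0, 0, 0, 0, 0, 419824, 0, 0, 0, 0, 0, 0⟩ ⟨0, 0, 0, 0, 0, 0, 419824, 0, 0, 0, 0, 0, 0⟩ ⟨260, 1, -3173, 6, 52, 396, 624960, 0, 0, 0, 0, 0, 0⟩))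
    (.leaf (.box ⟨166, 1, -2048, 9, 77, 252, 270564, 0, 0, 0, 0, 0, 0⟩ ⟨0, 0, 0, 0, 0, 0, 335878, 0, 0, 0, 0, 0, 0⟩ ⟨0, 0, 0, 0, 0, 0, 335878, 0, 0, 0, 0, 0, 0⟩ ⟨0, 0, 0, 0, 0, 0, 442758, 0, 0, 0, 0, 0, 0⟩ ⟨0, 0, 0, 0, 0, 0, 442758, 0, 0, 0, 0, 0, 0⟩ ⟨276, 1, -3321, 6, 53, 415, 649405, 0, 0, 0, 0, 0, 0⟩)))
    (.s3
    (.leaf (.box ⟨154, 1, -2048, 10, 83, 255, 259073, 0, 0, 0, 0, 0, 0⟩ ⟨0, 0, 0, 0, 0, 0, 323062, 0, 0, 0, 0, 0, 0⟩ ⟨0, 0, 0, 0, 0, 0, 323062, 0, 0, 0, 0, 0, 0⟩ ⟨0, 0, 0, 0, 0, 0, 429027, 0, 0, 0, 0, 0, 0⟩ ⟨0, 0, 0, 0, 0, 0, 429027, 0, 0, 0, 0, 0, 0⟩ ⟨246, 1, -3062, 6, 51, 386, 638434, 0, 0, 0, 0, 0, 0⟩))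
    (.leaf (.box ⟨158, 1, -2048, 10, 78, 256, 276522, 0, 0, 0, 0, 0, 0⟩ ⟨0, 0, 0, 0, 0, 0, 343239, 0, 0, 0, 0, 0, 0⟩ ⟨0, 0, 0, 0, 0, 0, 343239, 0, 0, 0, 0, 0, 0⟩ ⟨0, 0, 0, 0, 0, 0, 452387, 0, 0, 0, 0, 0, 0⟩ ⟨0, 0, 0, 0, 0, 0, 452387, 0, 0, 0, 0, 0, 0⟩ ⟨259, 1, -3192, 6, 52, 404, 663317, 0, 0, 0, 0, 0, 0⟩))))
    (.s3
    (.s3
    (.leaf (.box ⟨158, 2, -2048, 11, 85, 260, 265162, 0, 0, 0, 0, 0, 0⟩ ⟨0, 0, 0, 0, 0, 0, 330605, 0, 0, 0, 0, 0, 0⟩ ⟨0, 0, 0, 0, 0, 0, 330605, 0, 0, 0, 0, 0, 0⟩ ⟨0, 0, 0, 0, 0, 0, 438936, 0, 0, 0, 0, 0, 0⟩ ⟨0, 0, 0, 0, 0, 0, 438936, 0, 0, 0, 0, 0, 0⟩ ⟨217, 1, -2740, 6, 47, 352, 652862, 0, 0, 0, 0, 0, 0⟩))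
    (.leaf (.box ⟨162, 1, -2048, 10, 83, 260, 273768, 0, 0, 0, 0, 0, 0⟩ ⟨0, 0, 0, 0, 0, 0, 340578, 0, 0, 0, 0, 0, 0⟩ ⟨0, 0, 0, 0, 0, 0, 340578, 0, 0, 0, 0, 0, 0⟩ ⟨0, 0, 0, 0, 0, 0, 450523, 0, 0, 0, 0, 0, 0⟩ ⟨0, 0, 0, 0, 0, 0, 450523, 0, 0, 0, 0, 0, 0⟩ ⟨230, 1, -2849, 6, 48, 367, 665289, 0, 0, 0, 0, 0, 0⟩)))
    (.s3
    (.leaf (.box ⟨160, 2, -2048, 11, 80, 261, 282964, 0, 0, 0, 0, 0, 0⟩ ⟨0, 0, 0, 0, 0, 0, 351186, 0, 0, 0, 0, 0, 0⟩ ⟨0, 0, 0, 0, 0, 0, 351186, 0, 0, 0, 0, 0, 0⟩ ⟨0, 0, 0, 0, 0, 0, 462753, 0, 0, 0, 0, 0, 0⟩ ⟨0, 0, 0, 0, 0, 0, 462753, 0, 0, 0, 0, 0, 0⟩ ⟨232, 1, -2775, 6, 46, 358, 678211, 0, 0, 0, 0, 0, 0⟩))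
    (.leaf (.box ⟨165, 1, -2048, 10, 78, 262, 292813, 0, 0, 0, 0, 0, 0⟩ ⟨0, 0, 0, 0, 0, 0, 362490, 0, 0, 0, 0, 0, 0⟩ ⟨0, 0, 0, 0, 0, 0, 362490, 0, 0, 0, 0, 0, 0⟩ ⟨0, 0, 0, 0, 0, 0, 475681, 0, 0, 0, 0, 0, 0⟩ ⟨0, 0, 0, 0, 0, 0, 475681, 0, 0, 0, 0, 0, 0⟩ ⟨227, 1, -2765, 6, 45, 357, 691658, 0, 0, 0, 0, 0, 0⟩))))

/-- A piece of the tree. -/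
noncomputable def tree52 : Tree LeafX :=
  .s2
    (.s1
    (.s0
    (.leaf (.box ⟨230, 2, -2048, 11, 101, 282, 247660, 0, 0, 0, 0, 0, 0⟩ ⟨0, 0, 0, 0, 0, 0, 308771, 0, 0, 0, 0, 0, 0⟩ ⟨0, 0, 0, 0, 0, 0, 308771, 0, 0, 0, 0, 0, 0⟩ ⟨0, 0, 0, 0, 0, 0, 409918, 0, 0, 0, 0, 0, 0⟩ ⟨0, 0, 0, 0, 0, 0, 409918, 0, 0, 0, 0, 0, 0⟩ ⟨221, 1, -2507, 6, 53, 363, 609617, 0, 0, 0, 0, 0, 0⟩))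
    (.s3
    (.leaf (.box ⟨160, 2, -2048, 11, 105, 294, 257775, 0, 0, 0, 0, 0, 0⟩ ⟨0, 0, 0, 0, 0, 0, 321273, 0, 0, 0, 0, 0, 0⟩ ⟨0, 0, 0, 0, 0, 0, 321273, 0, 0, 0, 0, 0, 0⟩ ⟨0, 0, 0, 0, 0, 0, 426277, 0, 0, 0, 0, 0, 0⟩ ⟨0, 0, 0, 0, 0, 0, 426277, 0, 0, 0, 0, 0, 0⟩ ⟨214, 1, -2703, 6, 58, 396, 633244, 0, 0, 0, 0, 0, 0⟩))
    (.leaf (.box ⟨160, 2, -2048, 11, 100, 297, 274876, 0, 0, 0, 0, 0, 0⟩ ⟨0, 0, 0, 0, 0, 0, 341028, 0, 0, 0, 0, 0, 0⟩ ⟨0, 0, 0, 0, 0, 0, 341028, 0, 0, 0, 0, 0, 0⟩ ⟨0, 0, 0, 0, 0, 0, 449110, 0, 0, 0, 0, 0, 0⟩ ⟨0, 0, 0, 0, 0, 0, 449110, 0, 0, 0, 0, 0, 0⟩ ⟨204, 1, -2453, 6, 51, 362, 657489, 0, 0, 0, 0, 0, 0⟩))))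
    (.s2
    (.leaf (.box ⟨167, 2, -2048, 12, 117, 316, 246144, 0, 0, 0, 0, 0, 0⟩ ⟨0, 0, 0, 0, 0, 0, 306963, 0, 0, 0, 0, 0, 0⟩ ⟨0, 0, 0, 0, 0, 0, 306963, 0, 0, 0, 0, 0, 0⟩ ⟨0, 0, 0, 0, 0, 0, 407701, 0, 0, 0, 0, 0, 0⟩ ⟨0, 0, 0, 0, 0, 0, 407701, 0, 0, 0, 0, 0, 0⟩ ⟨191, 1, -2398, 6, 57, 380, 606854, 0, 0, 0, 0, 0, 0⟩))
    (.leaf (.box ⟨171, 1, -2048, 10, 103, 298, 248223, 0, 0, 0, 0, 0, 0⟩ ⟨0, 0, 0, 0, 0, 0, 309670, 0, 0, 0, 0, 0, 0⟩ ⟨0, 0, 0, 0, 0, 0, 309670, 0, 0, 0, 0, 0, 0⟩ ⟨0, 0, 0, 0, 0, 0, 411546, 0, 0, 0, 0, 0, 0⟩ ⟨0, 0, 0, 0, 0, 0, 411546, 0, 0, 0, 0, 0, 0⟩ ⟨194, 0, -2624, 6, 56, 397, 613318, 0, 0, 0, 0, 0, 0⟩))))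
    (.s0
    (.leaf (.box ⟨194, 0, -2048, 11, 87, 278, 250951, 0, 0, 0, 0, 0, 0⟩ ⟨0, 0, 0, 0, 0, 0, 313148, 0, 0, 0, 0, 0, 0⟩ ⟨0, 0, 0, 0, 0, 0, 313148, 0, 0, 0, 0, 0, 0⟩ ⟨0, 0, 0, 0, 0, 0, 416332, 0, 0, 0, 0, 0, 0⟩ ⟨0, 0, 0, 0, 0, 0, 416332, 0, 0, 0, 0, 0, 0⟩ ⟨253, 0, -2631, 6, 46, 365, 620933, 0, 0, 0, 0, 0, 0⟩))
    (.s3
    (.leaf (.box ⟨185, 0, -2048, 11, 89, 283, 261963, 0, 0, 0, 0, 0, 0⟩ ⟨0, 0, 0, 0, 0, 0, 326840, 0, 0, 0, 0, 0, 0⟩ ⟨0, 0, 0, 0, 0, 0, 326840, 0, 0, 0, 0, 0, 0⟩ ⟨0, 0, 0, 0, 0, 0, 434427, 0, 0, 0, 0, 0, 0⟩ ⟨0, 0, 0, 0, 0, 0, 434427, 0, 0, 0, 0, 0, 0⟩ ⟨237, 0, -2638, 6, 47, 372, 647602, 0, 0, 0, 0, 0, 0⟩))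
    (.leaf (.box ⟨179, 0, -2048, 10, 84, 285, 279922, 0, 0, 0, 0, 0, 0⟩ ⟨0, 0, 0, 0, 0, 0, 347618, 0, 0, 0, 0, 0, 0⟩ ⟨0, 0, 0, 0, 0, 0, 347618, 0, 0, 0, 0, 0, 0⟩ ⟨0, 0, 0, 0, 0, 0, 458499, 0, 0, 0, 0, 0, 0⟩ ⟨0, 0, 0, 0, 0, 0, 458499, 0, 0, 0, 0, 0, 0⟩ ⟨233, 0, -2585, 6, 45, 366, 673247, 0, 0, 0, 0, 0, 0⟩))))

/-- A piece of the tree. -/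
noncomputable def tree53 : Tree LeafX :=
  .s2
    (.s3
    (.s0
    (.s1
    (.s2
    (.leaf (.box ⟨117, 2, -2048, 7, 90, 270, 290831, 0, 0, 0, 0, 0, 0⟩ ⟨0, 0, 0, 0, 0, 0, 358834, 0, 0, 0, 0, 0, 0⟩ ⟨0, 0, 0, 0, 0, 0, 358834, 0, 0, 0, 0, 0, 0⟩ ⟨0, 0, 0, 0, 0, 0, 468342, 0, 0, 0, 0, 0, 0⟩ ⟨0, 0, 0, 0, 0, 0, 468342, 0, 0, 0, 0, 0, 0⟩ ⟨229, 2, -3870, 6, 75, 517, 674045, 0, 0, 0, 0, 0, 0⟩))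
    (.leaf (.box ⟨118, 2, -2048, 7, 82, 261, 291623, 0, 0, 0, 0, 0, 0⟩ ⟨0, 0, 0, 0, 0, 0, 359916, 0, 0, 0, 0, 0, 0⟩ ⟨0, 0, 0, 0, 0, 0, 359916, 0, 0, 0, 0, 0, 0⟩ ⟨0, 0, 0, 0, 0, 0, 469975, 0, 0, 0, 0, 0, 0⟩ ⟨0, 0, 0, 0, 0, 0, 469975, 0, 0, 0, 0, 0, 0⟩ ⟨256, 1, -4611, 6, 81, 594, 676993, 0, 0, 0, 0, 0, 0⟩)))
    (.leaf (.box ⟨170, 2, -2048, 10, 89, 278, 286605, 0, 0, 0, 0, 0, 0⟩ ⟨0, 0, 0, 0, 0, 0, 353715, 0, 0, 0, 0, 0, 0⟩ ⟨0, 0, 0, 0, 0, 0, 353715, 0, 0, 0, 0, 0, 0⟩ ⟨0, 0, 0, 0, 0, 0, 461861, 0, 0, 0, 0, 0, 0⟩ ⟨0, 0, 0, 0, 0, 0, 461861, 0, 0, 0, 0, 0, 0⟩ ⟨236, 1, -2964, 6, 57, 410, 665260, 0, 0, 0, 0, 0, 0⟩)))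
    (.s3
    (.s0
    (.leaf (.box ⟨185, 2, -2048, 10, 89, 276, 298298, 0, 0, 0, 0, 0, 0⟩ ⟨0, 0, 0, 0, 0, 0, 368029, 0, 0, 0, 0, 0, 0⟩ ⟨0, 0, 0, 0, 0, 0, 368029, 0, 0, 0, 0, 0, 0⟩ ⟨0, 0, 0, 0, 0, 0, 480306, 0, 0, 0, 0, 0, 0⟩ ⟨0, 0, 0, 0, 0, 0, 480306, 0, 0, 0, 0, 0, 0⟩ ⟨287, 2, -3009, 6, 57, 410, 691163, 0, 0, 0, 0, 0, 0⟩))
    (.leaf (.box ⟨188, 4, -2048, 15, 95, 279, 304424, 0, 0, 0, 0, 0, 0⟩ ⟨0, 0, 0, 0, 0, 0, 375535, 0, 0, 0, 0, 0, 0⟩ ⟨0, 0, 0, 0, 0, 0, 375535, 0, 0, 0, 0, 0, 0⟩ ⟨0, 0, 0, 0, 0, 0, 489993, 0, 0, 0, 0, 0, 0⟩ ⟨0, 0, 0, 0, 0, 0, 489993, 0, 0, 0, 0, 0, 0⟩ ⟨287, 2, -3091, 6, 59, 425, 704809, 0, 0, 0, 0, 0, 0⟩)))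
    (.s0
    (.leaf (.box ⟨199, 2, -2048, 10, 86, 276, 309283, 0, 0, 0, 0, 0, 0⟩ ⟨0, 0, 0, 0, 0, 0, 380482, 0, 0, 0, 0, 0, 0⟩ ⟨0, 0, 0, 0, 0, 0, 380482, 0, 0, 0, 0, 0, 0⟩ ⟨0, 0, 0, 0, 0, 0, 494264, 0, 0, 0, 0, 0, 0⟩ ⟨0, 0, 0, 0, 0, 0, 494264, 0, 0, 0, 0, 0, 0⟩ ⟨288, 2, -2992, 6, 56, 409, 705130, 0, 0, 0, 0, 0, 0⟩))
    (.leaf (.box ⟨180, 3, -2048, 10, 87, 280, 315592, 0, 0, 0, 0, 0, 0⟩ ⟨0, 0, 0, 0, 0, 0, 388192, 0, 0, 0, 0, 0, 0⟩ ⟨0, 0, 0, 0, 0, 0, 388192, 0, 0, 0, 0, 0, 0⟩ ⟨0, 0, 0, 0, 0, 0, 504172, 0, 0, 0, 0, 0, 0⟩ ⟨0, 0, 0, 0, 0, 0, 504172, 0, 0, 0, 0, 0, 0⟩ ⟨268, 2, -2885, 6, 54, 398, 718984, 0, 0, 0, 0, 0, 0⟩)))))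
    (.s0
    (.s1
    (.leaf (.box ⟨153, 2, -2048, 8, 81, 267, 313087, 0, 0, 0, 0, 0, 0⟩ ⟨0, 0, 0, 0, 0, 0, 383985, 0, 0, 0, 0, 0, 0⟩ ⟨0, 0, 0, 0, 0, 0, 383985, 0, 0, 0, 0, 0, 0⟩ ⟨0, 0, 0, 0, 0, 0, 496392, 0, 0, 0, 0, 0, 0⟩ ⟨0, 0, 0, 0, 0, 0, 496392, 0, 0, 0, 0, 0, 0⟩ ⟨229, 2, -3064, 6, 55, 404, 701850, 0, 0, 0, 0, 0, 0⟩))
    (.leaf (.box ⟨168, 2, -2048, 9, 84, 280, 308710, 0, 0, 0, 0, 0, 0⟩ ⟨0, 0, 0, 0, 0, 0, 378711, 0, 0, 0, 0, 0, 0⟩ ⟨0, 0, 0, 0, 0, 0, 378711, 0, 0, 0, 0, 0, 0⟩ ⟨0, 0, 0, 0, 0, 0, 489765, 0, 0, 0, 0, 0, 0⟩ ⟨0, 0, 0, 0, 0, 0, 489765, 0, 0, 0, 0, 0, 0⟩ ⟨257, 1, -3171, 6, 59, 441, 692975, 0, 0, 0, 0, 0, 0⟩)))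
    (.s3
    (.s0
    (.leaf (.box ⟨200, 2, -2048, 10, 83, 277, 321143, 0, 0, 0, 0, 0, 0⟩ ⟨0, 0, 0, 0, 0, 0, 393845, 0, 0, 0, 0, 0, 0⟩ ⟨0, 0, 0, 0, 0, 0, 393845, 0, 0, 0, 0, 0, 0⟩ ⟨0, 0, 0, 0, 0, 0, 509096, 0, 0, 0, 0, 0, 0⟩ ⟨0, 0, 0, 0, 0, 0, 509096, 0, 0, 0, 0, 0, 0⟩ ⟨286, 2, -2899, 6, 53, 397, 719701, 0, 0, 0, 0, 0, 0⟩))
    (.leaf (.box ⟨189, 4, -2048, 14, 89, 280, 327649, 0, 0, 0, 0, 0, 0⟩ ⟨0, 0, 0, 0, 0, 0, 401773, 0, 0, 0, 0, 0, 0⟩ ⟨0, 0, 0, 0, 0, 0, 401773, 0, 0, 0, 0, 0, 0⟩ ⟨0, 0, 0, 0, 0, 0, 519239, 0, 0, 0, 0, 0, 0⟩ ⟨0, 0, 0, 0, 0, 0, 519239, 0, 0, 0, 0, 0, 0⟩ ⟨290, 2, -3064, 6, 57, 424, 733772, 0, 0, 0, 0, 0, 0⟩)))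
    (.s0
    (.leaf (.box ⟨195, 2, -2048, 9, 81, 278, 333916, 0, 0, 0, 0, 0, 0⟩ ⟨203, 2, -2048, 8, 66, 279, 411230, 0, 0, 0, 0, 0, 0⟩ ⟨203, 2, -2048, 8, 66, 279, 411230, 0, 0, 0, 0, 0, 0⟩ ⟨221, 2, -2161, 6, 54, 295, 529642, 0, 0, 0, 0, 0, 0⟩ ⟨221, 2, -2161, 6, 54, 295, 529642, 0, 0, 0, 0, 0, 0⟩ ⟨307, 2, -3111, 6, 56, 427, 734612, 0, 0, 0, 0, 0, 0⟩))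
    (.leaf (.box ⟨196, 3, -2048, 10, 81, 281, 340704, 0, 0, 0, 0, 0, 0⟩ ⟨0, 0, 0, 0, 0, 0, 416382, 0, 0, 0, 0, 0, 0⟩ ⟨0, 0, 0, 0, 0, 0, 416382, 0, 0, 0, 0, 0, 0⟩ ⟨0, 0, 0, 0, 0, 0, 535279, 0, 0, 0, 0, 0, 0⟩ ⟨0, 0, 0, 0, 0, 0, 535279, 0, 0, 0, 0, 0, 0⟩ ⟨265, 2, -2812, 6, 51, 390, 749214, 0, 0, 0, 0, 0, 0⟩))))))
    (.s0
    (.s3
    (.leaf (.box ⟨186, 2, -2048, 14, 79, 257, 290209, 0, 0, 0, 0, 0, 0⟩ ⟨0, 0, 0, 0, 0, 0, 358375, 0, 0, 0, 0, 0, 0⟩ ⟨0, 0, 0, 0, 0, 0, 358375, 0, 0, 0, 0, 0, 0⟩ ⟨0, 0, 0, 0, 0, 0, 468391, 0, 0, 0, 0, 0, 0⟩ ⟨0, 0, 0, 0, 0, 0, 468391, 0, 0, 0, 0, 0, 0⟩ ⟨257, 1, -2930, 6, 46, 370, 675878, 0, 0, 0, 0, 0, 0⟩))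
    (.leaf (.box ⟨179, 1, -2048, 10, 69, 257, 312978, 0, 0, 0, 0, 0, 0⟩ ⟨0, 0, 0, 0, 0, 0, 384154, 0, 0, 0, 0, 0, 0⟩ ⟨0, 0, 0, 0, 0, 0, 384154, 0, 0, 0, 0, 0, 0⟩ ⟨0, 0, 0, 0, 0, 0, 497230, 0, 0, 0, 0, 0, 0⟩ ⟨0, 0, 0, 0, 0, 0, 497230, 0, 0, 0, 0, 0, 0⟩ ⟨262, 1, -2965, 6, 45, 376, 704642, 0, 0, 0, 0, 0, 0⟩)))
    (.s3
    (.s2
    (.leaf (.box ⟨147, 1, -2048, 7, 79, 265, 303177, 0, 0, 0, 0, 0, 0⟩ ⟨0, 0, 0, 0, 0, 0, 374317, 0, 0, 0, 0, 0, 0⟩ ⟨0, 0, 0, 0, 0, 0, 374317, 0, 0, 0, 0, 0, 0⟩ ⟨0, 0, 0, 0, 0, 0, 489078, 0, 0, 0, 0, 0, 0⟩ ⟨0, 0, 0, 0, 0, 0, 489078, 0, 0, 0, 0, 0, 0⟩ ⟨257, 1, -3512, 6, 59, 460, 705321, 0, 0, 0, 0, 0, 0⟩))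
    (.leaf (.box ⟨140, 1, -2048, 7, 72, 259, 307281, 0, 0, 0, 0, 0, 0⟩ ⟨0, 0, 0, 0, 0, 0, 379487, 0, 0, 0, 0, 0, 0⟩ ⟨0, 0, 0, 0, 0, 0, 379487, 0, 0, 0, 0, 0, 0⟩ ⟨0, 0, 0, 0, 0, 0, 496051, 0, 0, 0, 0, 0, 0⟩ ⟨0, 0, 0, 0, 0, 0, 496051, 0, 0, 0, 0, 0, 0⟩ ⟨279, 1, -4009, 6, 61, 513, 715967, 0, 0, 0, 0, 0, 0⟩)))
    (.s2
    (.leaf (.box ⟨151, 1, -2048, 7, 74, 267, 326834, 0, 0, 0, 0, 0, 0⟩ ⟨0, 0, 0, 0, 0, 0, 401091, 0, 0, 0, 0, 0, 0⟩ ⟨0, 0, 0, 0, 0, 0, 401091, 0, 0, 0, 0, 0, 0⟩ ⟨0, 0, 0, 0, 0, 0, 519010, 0, 0, 0, 0, 0, 0⟩ ⟨0, 0, 0, 0, 0, 0, 519010, 0, 0, 0, 0, 0, 0⟩ ⟨281, 1, -3838, 6, 62, 504, 735135, 0, 0, 0, 0, 0, 0⟩))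
    (.leaf (.box ⟨147, 1, -2048, 7, 68, 261, 331446, 0, 0, 0, 0, 0, 0⟩ ⟨0, 0, 0, 0, 0, 0, 406852, 0, 0, 0, 0, 0, 0⟩ ⟨0, 0, 0, 0, 0, 0, 406852, 0, 0, 0, 0, 0, 0⟩ ⟨0, 0, 0, 0, 0, 0, 526671, 0, 0, 0, 0, 0, 0⟩ ⟨0, 0, 0, 0, 0, 0, 526671, 0, 0, 0, 0, 0, 0⟩ ⟨271, 1, -3827, 6, 57, 491, 746525, 0, 0, 0, 0, 0, 0⟩)))))

/-- A piece of the tree. -/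
noncomputable def tree54 : Tree LeafX :=
  .s2
    (.s1
    (.s3
    (.s2
    (.leaf (.box ⟨156, 2, -2048, 10, 100, 303, 283673, 0, 0, 0, 0, 0, 0⟩ ⟨0, 0, 0, 0, 0, 0, 350188, 0, 0, 0, 0, 0, 0⟩ ⟨0, 0, 0, 0, 0, 0, 350188, 0, 0, 0, 0, 0, 0⟩ ⟨0, 0, 0, 0, 0, 0, 457447, 0, 0, 0, 0, 0, 0⟩ ⟨0, 0, 0, 0, 0, 0, 457447, 0, 0, 0, 0, 0, 0⟩ ⟨206, 1, -2792, 6, 60, 421, 659422, 0, 0, 0, 0, 0, 0⟩))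
    (.leaf (.box ⟨143, 1, -2048, 9, 90, 290, 285631, 0, 0, 0, 0, 0, 0⟩ ⟨0, 0, 0, 0, 0, 0, 352722, 0, 0, 0, 0, 0, 0⟩ ⟨0, 0, 0, 0, 0, 0, 352722, 0, 0, 0, 0, 0, 0⟩ ⟨0, 0, 0, 0, 0, 0, 461005, 0, 0, 0, 0, 0, 0⟩ ⟨0, 0, 0, 0, 0, 0, 461005, 0, 0, 0, 0, 0, 0⟩ ⟨202, 1, -2856, 6, 55, 412, 665225, 0, 0, 0, 0, 0, 0⟩)))
    (.leaf (.box ⟨233, 2, -2048, 12, 87, 291, 305718, 0, 0, 0, 0, 0, 0⟩ ⟨0, 0, 0, 0, 0, 0, 375129, 0, 0, 0, 0, 0, 0⟩ ⟨0, 0, 0, 0, 0, 0, 375129, 0, 0, 0, 0, 0, 0⟩ ⟨0, 0, 0, 0, 0, 0, 485316, 0, 0, 0, 0, 0, 0⟩ ⟨0, 0, 0, 0, 0, 0, 485316, 0, 0, 0, 0, 0, 0⟩ ⟨206, 1, -2151, 6, 43, 319, 687154, 0, 0, 0, 0, 0, 0⟩)))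
    (.leaf (.box ⟨258, 1, -2048, 14, 97, 306, 281760, 0, 0, 0, 0, 0, 0⟩ ⟨0, 0, 0, 0, 0, 0, 347936, 0, 0, 0, 0, 0, 0⟩ ⟨0, 0, 0, 0, 0, 0, 347936, 0, 0, 0, 0, 0, 0⟩ ⟨0, 0, 0, 0, 0, 0, 454739, 0, 0, 0, 0, 0, 0⟩ ⟨0, 0, 0, 0, 0, 0, 454739, 0, 0, 0, 0, 0, 0⟩ ⟨210, 1, -2048, 6, 44, 322, 656150, 0, 0, 0, 0, 0, 0⟩)))
    (.s3
    (.leaf (.box ⟨219, 0, -2048, 12, 80, 284, 287975, 0, 0, 0, 0, 0, 0⟩ ⟨0, 0, 0, 0, 0, 0, 355771, 0, 0, 0, 0, 0, 0⟩ ⟨0, 0, 0, 0, 0, 0, 355771, 0, 0, 0, 0, 0, 0⟩ ⟨0, 0, 0, 0, 0, 0, 465316, 0, 0, 0, 0, 0, 0⟩ ⟨0, 0, 0, 0, 0, 0, 465316, 0, 0, 0, 0, 0, 0⟩ ⟨233, 0, -2214, 6, 38, 312, 672333, 0, 0, 0, 0, 0, 0⟩))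
    (.leaf (.box ⟨215, 0, -2048, 11, 75, 286, 310877, 0, 0, 0, 0, 0, 0⟩ ⟨0, 0, 0, 0, 0, 0, 381713, 0, 0, 0, 0, 0, 0⟩ ⟨0, 0, 0, 0, 0, 0, 381713, 0, 0, 0, 0, 0, 0⟩ ⟨0, 0, 0, 0, 0, 0, 494355, 0, 0, 0, 0, 0, 0⟩ ⟨0, 0, 0, 0, 0, 0, 494355, 0, 0, 0, 0, 0, 0⟩ ⟨252, 0, -2378, 6, 39, 337, 701309, 0, 0, 0, 0, 0, 0⟩)))

/-- A piece of the tree. -/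
noncomputable def tree55 : Tree LeafX :=
  .s0
    (.s1
    (.s0
    (.leaf (.box ⟨269, 2, -2048, 13, 67, 247, 315045, 0, 0, 0, 0, 0, 0⟩ ⟨0, 0, 0, 0, 0, 0, 383936, 0, 0, 0, 0, 0, 0⟩ ⟨0, 0, 0, 0, 0, 0, 383936, 0, 0, 0, 0, 0, 0⟩ ⟨0, 0, 0, 0, 0, 0, 491387, 0, 0, 0, 0, 0, 0⟩ ⟨0, 0, 0, 0, 0, 0, 491387, 0, 0, 0, 0, 0, 0⟩ ⟨280, 1, -2235, 6, 33, 275, 682356, 0, 0, 0, 0, 0, 0⟩))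
    (.s3
    (.leaf (.box ⟨243, 3, -2048, 15, 71, 252, 327013, 0, 0, 0, 0, 0, 0⟩ ⟨227, 2, -2048, 9, 55, 255, 401103, 0, 0, 0, 0, 0, 0⟩ ⟨227, 2, -2048, 9, 55, 255, 401103, 0, 0, 0, 0, 0, 0⟩ ⟨229, 1, -2048, 8, 43, 256, 514112, 0, 0, 0, 0, 0, 0⟩ ⟨229, 1, -2048, 8, 43, 256, 514112, 0, 0, 0, 0, 0, 0⟩ ⟨267, 1, -2326, 6, 36, 291, 706559, 0, 0, 0, 0, 0, 0⟩))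
    (.leaf (.box ⟨236, 2, -2048, 11, 62, 255, 357176, 0, 0, 0, 0, 0, 0⟩ ⟨0, 0, 0, 0, 0, 0, 431499, 0, 0, 0, 0, 0, 0⟩ ⟨0, 0, 0, 0, 0, 0, 431499, 0, 0, 0, 0, 0, 0⟩ ⟨0, 0, 0, 0, 0, 0, 544878, 0, 0, 0, 0, 0, 0⟩ ⟨0, 0, 0, 0, 0, 0, 544878, 0, 0, 0, 0, 0, 0⟩ ⟨268, 1, -2310, 6, 34, 291, 739076, 0, 0, 0, 0, 0, 0⟩))))
    (.s2
    (.leaf (.box ⟨214, 2, -2048, 11, 76, 276, 312103, 0, 0, 0, 0, 0, 0⟩ ⟨0, 0, 0, 0, 0, 0, 380356, 0, 0, 0, 0, 0, 0⟩ ⟨0, 0, 0, 0, 0, 0, 380356, 0, 0, 0, 0, 0, 0⟩ ⟨0, 0, 0, 0, 0, 0, 486814, 0, 0, 0, 0, 0, 0⟩ ⟨0, 0, 0, 0, 0, 0, 486814, 0, 0, 0, 0, 0, 0⟩ ⟨251, 1, -2394, 6, 42, 328, 676029, 0, 0, 0, 0, 0, 0⟩))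
    (.leaf (.box ⟨185, 1, -2048, 10, 63, 256, 313668, 0, 0, 0, 0, 0, 0⟩ ⟨0, 0, 0, 0, 0, 0, 382393, 0, 0, 0, 0, 0, 0⟩ ⟨0, 0, 0, 0, 0, 0, 382393, 0, 0, 0, 0, 0, 0⟩ ⟨0, 0, 0, 0, 0, 0, 489683, 0, 0, 0, 0, 0, 0⟩ ⟨0, 0, 0, 0, 0, 0, 489683, 0, 0, 0, 0, 0, 0⟩ ⟨249, 0, -2891, 6, 42, 367, 680657, 0, 0, 0, 0, 0, 0⟩))))
    (.s2
    (.s3
    (.s0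
    (.s3
    (.leaf (.box ⟨209, 2, -2048, 10, 77, 275, 335010, 0, 0, 0, 0, 0, 0⟩ ⟨0, 0, 0, 0, 0, 0, 408073, 0, 0, 0, 0, 0, 0⟩ ⟨0, 0, 0, 0, 0, 0, 408073, 0, 0, 0, 0, 0, 0⟩ ⟨0, 0, 0, 0, 0, 0, 521891, 0, 0, 0, 0, 0, 0⟩ ⟨0, 0, 0, 0, 0, 0, 521891, 0, 0, 0, 0, 0, 0⟩ ⟨265, 1, -2405, 6, 42, 326, 723761, 0, 0, 0, 0, 0, 0⟩))
    (.leaf (.box ⟨218, 2, -2048, 9, 74, 275, 349745, 0, 0, 0, 0, 0, 0⟩ ⟨0, 0, 0, 0, 0, 0, 424333, 0, 0, 0, 0, 0, 0⟩ ⟨0, 0, 0, 0, 0, 0, 424333, 0, 0, 0, 0, 0, 0⟩ ⟨0, 0, 0, 0, 0, 0, 539358, 0, 0, 0, 0, 0, 0⟩ ⟨0, 0, 0, 0, 0, 0, 539358, 0, 0, 0, 0, 0, 0⟩ ⟨300, 1, -2751, 6, 48, 374, 739934, 0, 0, 0, 0, 0, 0⟩)))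
    (.s1
    (.s3
    (.leaf (.box ⟨148, 2, -2048, 8, 77, 274, 353168, 0, 0, 0, 0, 0, 0⟩ ⟨0, 0, 0, 0, 0, 0, 429984, 0, 0, 0, 0, 0, 0⟩ ⟨0, 0, 0, 0, 0, 0, 429984, 0, 0, 0, 0, 0, 0⟩ ⟨0, 0, 0, 0, 0, 0, 549504, 0, 0, 0, 0, 0, 0⟩ ⟨0, 0, 0, 0, 0, 0, 549504, 0, 0, 0, 0, 0, 0⟩ ⟨254, 2, -3582, 6, 63, 483, 761047, 0, 0, 0, 0, 0, 0⟩))
    (.leaf (.box ⟨146, 2, -2048, 8, 74, 275, 368493, 0, 0, 0, 0, 0, 0⟩ ⟨0, 0, 0, 0, 0, 0, 446876, 0, 0, 0, 0, 0, 0⟩ ⟨0, 0, 0, 0, 0, 0, 446876, 0, 0, 0, 0, 0, 0⟩ ⟨0, 0, 0, 0, 0, 0, 567613, 0, 0, 0, 0, 0, 0⟩ ⟨0, 0, 0, 0, 0, 0, 567613, 0, 0, 0, 0, 0, 0⟩ ⟨226, 2, -3172, 6, 55, 429, 777745, 0, 0, 0, 0, 0, 0⟩)))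
    (.leaf (.box ⟨165, 2, -2048, 9, 80, 288, 347457, 0, 0, 0, 0, 0, 0⟩ ⟨0, 0, 0, 0, 0, 0, 423176, 0, 0, 0, 0, 0, 0⟩ ⟨0, 0, 0, 0, 0, 0, 423176, 0, 0, 0, 0, 0, 0⟩ ⟨0, 0, 0, 0, 0, 0, 541092, 0, 0, 0, 0, 0, 0⟩ ⟨0, 0, 0, 0, 0, 0, 541092, 0, 0, 0, 0, 0, 0⟩ ⟨241, 1, -3081, 6, 57, 438, 750104, 0, 0, 0, 0, 0, 0⟩))))
    (.s0
    (.s3
    (.leaf (.box ⟨220, 2, -2048, 9, 71, 276, 365874, 0, 0, 0, 0, 0, 0⟩ ⟨0, 0, 0, 0, 0, 0, 441984, 0, 0, 0, 0, 0, 0⟩ ⟨0, 0, 0, 0, 0, 0, 441984, 0, 0, 0, 0, 0, 0⟩ ⟨0, 0, 0, 0, 0, 0, 558075, 0, 0, 0, 0, 0, 0⟩ ⟨0, 0, 0, 0, 0, 0, 558075, 0, 0, 0, 0, 0, 0⟩ ⟨301, 1, -2731, 6, 47, 373, 756874, 0, 0, 0, 0, 0, 0⟩))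
    (.leaf (.box ⟨222, 2, -2048, 9, 68, 277, 383604, 0, 0, 0, 0, 0, 0⟩ ⟨0, 0, 0, 0, 0, 0, 461210, 0, 0, 0, 0, 0, 0⟩ ⟨0, 0, 0, 0, 0, 0, 461210, 0, 0, 0, 0, 0, 0⟩ ⟨0, 0, 0, 0, 0, 0, 578179, 0, 0, 0, 0, 0, 0⟩ ⟨0, 0, 0, 0, 0, 0, 578179, 0, 0, 0, 0, 0, 0⟩ ⟨307, 1, -2790, 6, 47, 382, 774636, 0, 0, 0, 0, 0, 0⟩)))
    (.s1
    (.s3
    (.leaf (.box ⟨148, 2, -2048, 7, 71, 275, 385267, 0, 0, 0, 0, 0, 0⟩ ⟨0, 0, 0, 0, 0, 0, 465211, 0, 0, 0, 0, 0, 0⟩ ⟨0, 0, 0, 0, 0, 0, 465211, 0, 0, 0, 0, 0, 0⟩ ⟨0, 0, 0, 0, 0, 0, 587017, 0, 0, 0, 0, 0, 0⟩ ⟨0, 0, 0, 0, 0, 0, 587017, 0, 0, 0, 0, 0, 0⟩ ⟨261, 2, -3581, 6, 61, 485, 795234, 0, 0, 0, 0, 0, 0⟩))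
    (.leaf (.box ⟨147, 2, -2048, 7, 68, 276, 403706, 0, 0, 0, 0, 0, 0⟩ ⟨0, 0, 0, 0, 0, 0, 485182, 0, 0, 0, 0, 0, 0⟩ ⟨0, 0, 0, 0, 0, 0, 485182, 0, 0, 0, 0, 0, 0⟩ ⟨0, 0, 0, 0, 0, 0, 607860, 0, 0, 0, 0, 0, 0⟩ ⟨0, 0, 0, 0, 0, 0, 607860, 0, 0, 0, 0, 0, 0⟩ ⟨261, 2, -3586, 6, 60, 487, 813571, 0, 0, 0, 0, 0, 0⟩)))
    (.leaf (.box ⟨162, 2, -2048, 8, 74, 290, 379273, 0, 0, 0, 0, 0, 0⟩ ⟨0, 0, 0, 0, 0, 0, 458119, 0, 0, 0, 0, 0, 0⟩ ⟨0, 0, 0, 0, 0, 0, 458119, 0, 0, 0, 0, 0, 0⟩ ⟨0, 0, 0, 0, 0, 0, 578349, 0, 0, 0, 0, 0, 0⟩ ⟨0, 0, 0, 0, 0, 0, 578349, 0, 0, 0, 0, 0, 0⟩ ⟨238, 1, -2880, 6, 51, 412, 784140, 0, 0, 0, 0, 0, 0⟩)))))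
    (.s3
    (.s0
    (.leaf (.box ⟨180, 1, -2048, 9, 64, 258, 339682, 0, 0, 0, 0, 0, 0⟩ ⟨0, 0, 0, 0, 0, 0, 413991, 0, 0, 0, 0, 0, 0⟩ ⟨0, 0, 0, 0, 0, 0, 413991, 0, 0, 0, 0, 0, 0⟩ ⟨0, 0, 0, 0, 0, 0, 529915, 0, 0, 0, 0, 0, 0⟩ ⟨0, 0, 0, 0, 0, 0, 529915, 0, 0, 0, 0, 0, 0⟩ ⟨278, 1, -3101, 6, 46, 395, 736008, 0, 0, 0, 0, 0, 0⟩))
    (.leaf (.box ⟨197, 2, -2048, 12, 71, 268, 354578, 0, 0, 0, 0, 0, 0⟩ ⟨0, 0, 0, 0, 0, 0, 432078, 0, 0, 0, 0, 0, 0⟩ ⟨0, 0, 0, 0, 0, 0, 432078, 0, 0, 0, 0, 0, 0⟩ ⟨0, 0, 0, 0, 0, 0, 552933, 0, 0, 0, 0, 0, 0⟩ ⟨0, 0, 0, 0, 0, 0, 552933, 0, 0, 0, 0, 0, 0⟩ ⟨255, 1, -2889, 6, 43, 376, 767646, 0, 0, 0, 0, 0, 0⟩)))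
    (.s0
    (.leaf (.box ⟨185, 1, -2048, 8, 60, 259, 371437, 0, 0, 0, 0, 0, 0⟩ ⟨0, 0, 0, 0, 0, 0, 448927, 0, 0, 0, 0, 0, 0⟩ ⟨0, 0, 0, 0, 0, 0, 448927, 0, 0, 0, 0, 0, 0⟩ ⟨0, 0, 0, 0, 0, 0, 567271, 0, 0, 0, 0, 0, 0⟩ ⟨0, 0, 0, 0, 0, 0, 567271, 0, 0, 0, 0, 0, 0⟩ ⟨291, 1, -3079, 6, 44, 393, 770347, 0, 0, 0, 0, 0, 0⟩))
    (.leaf (.box ⟨174, 1, -2048, 8, 61, 266, 387571, 0, 0, 0, 0, 0, 0⟩ ⟨0, 0, 0, 0, 0, 0, 468362, 0, 0, 0, 0, 0, 0⟩ ⟨0, 0, 0, 0, 0, 0, 468362, 0, 0, 0, 0, 0, 0⟩ ⟨0, 0, 0, 0, 0, 0, 591705, 0, 0, 0, 0, 0, 0⟩ ⟨0, 0, 0, 0, 0, 0, 591705, 0, 0, 0, 0, 0, 0⟩ ⟨289, 1, -3302, 6, 48, 432, 803238, 0, 0, 0, 0, 0, 0⟩)))))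

/-- A piece of the tree. -/
noncomputable def tree56 : Tree LeafX :=
  .s0
    (.leaf (.box ⟨446, 0, -2048, 18, 71, 282, 309324, 0, 0, 0, 0, 0, 0⟩ ⟨0, 0, 0, 0, 0, 0, 377054, 0, 0, 0, 0, 0, 0⟩ ⟨0, 0, 0, 0, 0, 0, 377054, 0, 0, 0, 0, 0, 0⟩ ⟨0, 0, 0, 0, 0, 0, 482758, 0, 0, 0, 0, 0, 0⟩ ⟨0, 0, 0, 0, 0, 0, 482758, 0, 0, 0, 0, 0, 0⟩ ⟨431, 0, -2048, 9, 35, 296, 670815, 0, 0, 0, 0, 0, 0⟩))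
    (.s1
    (.s0
    (.leaf (.box ⟨292, 1, -2048, 13, 74, 285, 331011, 0, 0, 0, 0, 0, 0⟩ ⟨0, 0, 0, 0, 0, 0, 403353, 0, 0, 0, 0, 0, 0⟩ ⟨0, 0, 0, 0, 0, 0, 403353, 0, 0, 0, 0, 0, 0⟩ ⟨0, 0, 0, 0, 0, 0, 516157, 0, 0, 0, 0, 0, 0⟩ ⟨0, 0, 0, 0, 0, 0, 516157, 0, 0, 0, 0, 0, 0⟩ ⟨279, 1, -2048, 7, 35, 293, 716552, 0, 0, 0, 0, 0, 0⟩))
    (.s1
    (.s2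
    (.leaf (.box ⟨152, 2, -2048, 9, 83, 301, 344637, 0, 0, 0, 0, 0, 0⟩ ⟨0, 0, 0, 0, 0, 0, 419851, 0, 0, 0, 0, 0, 0⟩ ⟨0, 0, 0, 0, 0, 0, 419851, 0, 0, 0, 0, 0, 0⟩ ⟨0, 0, 0, 0, 0, 0, 537057, 0, 0, 0, 0, 0, 0⟩ ⟨0, 0, 0, 0, 0, 0, 537057, 0, 0, 0, 0, 0, 0⟩ ⟨221, 1, -3051, 6, 58, 454, 745046, 0, 0, 0, 0, 0, 0⟩))
    (.leaf (.box ⟨122, 0, -2048, 7, 68, 281, 353017, 0, 0, 0, 0, 0, 0⟩ ⟨0, 0, 0, 0, 0, 0, 430259, 0, 0, 0, 0, 0, 0⟩ ⟨0, 0, 0, 0, 0, 0, 430259, 0, 0, 0, 0, 0, 0⟩ ⟨0, 0, 0, 0, 0, 0, 550771, 0, 0, 0, 0, 0, 0⟩ ⟨0, 0, 0, 0, 0, 0, 550771, 0, 0, 0, 0, 0, 0⟩ ⟨211, 0, -3806, 6, 59, 528, 765054, 0, 0, 0, 0, 0, 0⟩)))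
    (.s2
    (.leaf (.box ⟨161, 1, -2048, 9, 85, 309, 343173, 0, 0, 0, 0, 0, 0⟩ ⟨0, 0, 0, 0, 0, 0, 418109, 0, 0, 0, 0, 0, 0⟩ ⟨0, 0, 0, 0, 0, 0, 418109, 0, 0, 0, 0, 0, 0⟩ ⟨0, 0, 0, 0, 0, 0, 534913, 0, 0, 0, 0, 0, 0⟩ ⟨0, 0, 0, 0, 0, 0, 534913, 0, 0, 0, 0, 0, 0⟩ ⟨216, 1, -2817, 6, 55, 431, 742277, 0, 0, 0, 0, 0, 0⟩))
    (.leaf (.box ⟨124, 0, -2048, 7, 69, 288, 352376, 0, 0, 0, 0, 0, 0⟩ ⟨0, 0, 0, 0, 0, 0, 429526, 0, 0, 0, 0, 0, 0⟩ ⟨0, 0, 0, 0, 0, 0, 429526, 0, 0, 0, 0, 0, 0⟩ ⟨0, 0, 0, 0, 0, 0, 549928, 0, 0, 0, 0, 0, 0⟩ ⟨0, 0, 0, 0, 0, 0, 549928, 0, 0, 0, 0, 0, 0⟩ ⟨235, 0, -4089, 6, 64, 582, 764122, 0, 0, 0, 0, 0, 0⟩)))))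
    (.s2
    (.leaf (.box ⟨216, 1, -2048, 12, 88, 321, 329686, 0, 0, 0, 0, 0, 0⟩ ⟨0, 0, 0, 0, 0, 0, 401810, 0, 0, 0, 0, 0, 0⟩ ⟨0, 0, 0, 0, 0, 0, 401810, 0, 0, 0, 0, 0, 0⟩ ⟨0, 0, 0, 0, 0, 0, 514326, 0, 0, 0, 0, 0, 0⟩ ⟨0, 0, 0, 0, 0, 0, 514326, 0, 0, 0, 0, 0, 0⟩ ⟨216, 1, -2048, 6, 41, 327, 714364, 0, 0, 0, 0, 0, 0⟩))
    (.leaf (.box ⟨174, 0, -2048, 9, 71, 297, 337771, 0, 0, 0, 0, 0, 0⟩ ⟨0, 0, 0, 0, 0, 0, 411796, 0, 0, 0, 0, 0, 0⟩ ⟨0, 0, 0, 0, 0, 0, 411796, 0, 0, 0, 0, 0, 0⟩ ⟨0, 0, 0, 0, 0, 0, 527374, 0, 0, 0, 0, 0, 0⟩ ⟨0, 0, 0, 0, 0, 0, 527374, 0, 0, 0, 0, 0, 0⟩ ⟨232, 0, -2847, 6, 46, 418, 733142, 0, 0, 0, 0, 0, 0⟩))))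

/-- A piece of the tree. -/
noncomputable def tree57 : Tree LeafX :=
  .s0
    (.s1
    (.s3
    (.s2
    (.leaf (.box ⟨204, 2, -2048, 9, 62, 264, 380531, 0, 0, 0, 0, 0, 0⟩ ⟨0, 0, 0, 0, 0, 0, 455256, 0, 0, 0, 0, 0, 0⟩ ⟨0, 0, 0, 0, 0, 0, 455256, 0, 0, 0, 0, 0, 0⟩ ⟨0, 0, 0, 0, 0, 0, 566499, 0, 0, 0, 0, 0, 0⟩ ⟨0, 0, 0, 0, 0, 0, 566499, 0, 0, 0, 0, 0, 0⟩ ⟨255, 1, -2630, 6, 41, 342, 749687, 0, 0, 0, 0, 0, 0⟩))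
    (.leaf (.box ⟨171, 1, -2048, 7, 52, 245, 381706, 0, 0, 0, 0, 0, 0⟩ ⟨0, 0, 0, 0, 0, 0, 456762, 0, 0, 0, 0, 0, 0⟩ ⟨0, 0, 0, 0, 0, 0, 456762, 0, 0, 0, 0, 0, 0⟩ ⟨0, 0, 0, 0, 0, 0, 568559, 0, 0, 0, 0, 0, 0⟩ ⟨0, 0, 0, 0, 0, 0, 568559, 0, 0, 0, 0, 0, 0⟩ ⟨270, 1, -3252, 6, 42, 393, 752818, 0, 0, 0, 0, 0, 0⟩)))
    (.s2
    (.leaf (.box ⟨208, 2, -2048, 8, 57, 266, 424087, 0, 0, 0, 0, 0, 0⟩ ⟨0, 0, 0, 0, 0, 0, 501183, 0, 0, 0, 0, 0, 0⟩ ⟨0, 0, 0, 0, 0, 0, 501183, 0, 0, 0, 0, 0, 0⟩ ⟨0, 0, 0, 0, 0, 0, 612536, 0, 0, 0, 0, 0, 0⟩ ⟨0, 0, 0, 0, 0, 0, 612536, 0, 0, 0, 0, 0, 0⟩ ⟨272, 1, -2648, 6, 40, 347, 787504, 0, 0, 0, 0, 0, 0⟩))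
    (.leaf (.box ⟨178, 1, -2048, 7, 47, 247, 425746, 0, 0, 0, 0, 0, 0⟩ ⟨0, 0, 0, 0, 0, 0, 503245, 0, 0, 0, 0, 0, 0⟩ ⟨0, 0, 0, 0, 0, 0, 503245, 0, 0, 0, 0, 0, 0⟩ ⟨0, 0, 0, 0, 0, 0, 615236, 0, 0, 0, 0, 0, 0⟩ ⟨0, 0, 0, 0, 0, 0, 615236, 0, 0, 0, 0, 0, 0⟩ ⟨290, 1, -3368, 6, 42, 409, 791339, 0, 0, 0, 0, 0, 0⟩))))
    (.s2
    (.leaf (.box ⟨229, 2, -2048, 10, 65, 281, 376280, 0, 0, 0, 0, 0, 0⟩ ⟨0, 0, 0, 0, 0, 0, 450238, 0, 0, 0, 0, 0, 0⟩ ⟨0, 0, 0, 0, 0, 0, 450238, 0, 0, 0, 0, 0, 0⟩ ⟨0, 0, 0, 0, 0, 0, 560380, 0, 0, 0, 0, 0, 0⟩ ⟨0, 0, 0, 0, 0, 0, 560380, 0, 0, 0, 0, 0, 0⟩ ⟨250, 1, -2317, 6, 38, 322, 741863, 0, 0, 0, 0, 0, 0⟩))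
    (.leaf (.box ⟨180, 0, -2048, 8, 54, 259, 378945, 0, 0, 0, 0, 0, 0⟩ ⟨0, 0, 0, 0, 0, 0, 453538, 0, 0, 0, 0, 0, 0⟩ ⟨0, 0, 0, 0, 0, 0, 453538, 0, 0, 0, 0, 0, 0⟩ ⟨0, 0, 0, 0, 0, 0, 564692, 0, 0, 0, 0, 0, 0⟩ ⟨0, 0, 0, 0, 0, 0, 564692, 0, 0, 0, 0, 0, 0⟩ ⟨250, 0, -2908, 6, 39, 372, 748020, 0, 0, 0, 0, 0, 0⟩))))
    (.s3
    (.s2
    (.s0
    (.s2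
    (.leaf (.box ⟨190, 3, -2048, 10, 73, 285, 402733, 0, 0, 0, 0, 0, 0⟩ ⟨0, 0, 0, 0, 0, 0, 481724, 0, 0, 0, 0, 0, 0⟩ ⟨0, 0, 0, 0, 0, 0, 481724, 0, 0, 0, 0, 0, 0⟩ ⟨0, 0, 0, 0, 0, 0, 599260, 0, 0, 0, 0, 0, 0⟩ ⟨0, 0, 0, 0, 0, 0, 599260, 0, 0, 0, 0, 0, 0⟩ ⟨328, 2, -3444, 6, 60, 483, 792662, 0, 0, 0, 0, 0, 0⟩))
    (.leaf (.box ⟨178, 1, -2048, 7, 62, 273, 405699, 0, 0, 0, 0, 0, 0⟩ ⟨0, 0, 0, 0, 0, 0, 485367, 0, 0, 0, 0, 0, 0⟩ ⟨0, 0, 0, 0, 0, 0, 485367, 0, 0, 0, 0, 0, 0⟩ ⟨0, 0, 0, 0, 0, 0, 603968, 0, 0, 0, 0, 0, 0⟩ ⟨0, 0, 0, 0, 0, 0, 603968, 0, 0, 0, 0, 0, 0⟩ ⟨328, 1, -3756, 6, 59, 505, 799272, 0, 0, 0, 0, 0, 0⟩)))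
    (.s1
    (.s2
    (.leaf (.box ⟨150, 2, -2537, 6, 85, 350, 423353, 0, 0, 0, 0, 0, 0⟩ ⟨0, 0, 0, 0, 0, 0, 506214, 0, 0, 0, 0, 0, 0⟩ ⟨0, 0, 0, 0, 0, 0, 506214, 0, 0, 0, 0, 0, 0⟩ ⟨0, 0, 0, 0, 0, 0, 629405, 0, 0, 0, 0, 0, 0⟩ ⟨0, 0, 0, 0, 0, 0, 629405, 0, 0, 0, 0, 0, 0⟩ ⟨288, 2, -4933, 6, 85, 684, 831837, 0, 0, 0, 0, 0, 0⟩))
    (.leaf (.box ⟨142, 2, -2547, 6, 78, 339, 426623, 0, 0, 0, 0, 0, 0⟩ ⟨0, 0, 0, 0, 0, 0, 510228, 0, 0, 0, 0, 0, 0⟩ ⟨0, 0, 0, 0, 0, 0, 510228, 0, 0, 0, 0, 0, 0⟩ ⟨0, 0, 0, 0, 0, 0, 634587, 0, 0, 0, 0, 0, 0⟩ ⟨0, 0, 0, 0, 0, 0, 634587, 0, 0, 0, 0, 0, 0⟩ ⟨296, 2, -5373, 6, 84, 719, 839102, 0, 0, 0, 0, 0, 0⟩)))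
    (.leaf (.box ⟨166, 2, -2048, 7, 68, 292, 417735, 0, 0, 0, 0, 0, 0⟩ ⟨0, 0, 0, 0, 0, 0, 499591, 0, 0, 0, 0, 0, 0⟩ ⟨0, 0, 0, 0, 0, 0, 499591, 0, 0, 0, 0, 0, 0⟩ ⟨0, 0, 0, 0, 0, 0, 621344, 0, 0, 0, 0, 0, 0⟩ ⟨0, 0, 0, 0, 0, 0, 621344, 0, 0, 0, 0, 0, 0⟩ ⟨254, 1, -3078, 6, 53, 442, 821562, 0, 0, 0, 0, 0, 0⟩))))
    (.s0
    (.leaf (.box ⟨188, 1, -2048, 8, 54, 261, 409826, 0, 0, 0, 0, 0, 0⟩ ⟨0, 0, 0, 0, 0, 0, 490390, 0, 0, 0, 0, 0, 0⟩ ⟨0, 0, 0, 0, 0, 0, 490390, 0, 0, 0, 0, 0, 0⟩ ⟨0, 0, 0, 0, 0, 0, 610377, 0, 0, 0, 0, 0, 0⟩ ⟨0, 0, 0, 0, 0, 0, 610377, 0, 0, 0, 0, 0, 0⟩ ⟨324, 1, -3507, 6, 48, 450, 808101, 0, 0, 0, 0, 0, 0⟩))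
    (.leaf (.box ⟨178, 1, -2048, 7, 56, 267, 427456, 0, 0, 0, 0, 0, 0⟩ ⟨0, 0, 0, 0, 0, 0, 511425, 0, 0, 0, 0, 0, 0⟩ ⟨0, 0, 0, 0, 0, 0, 511425, 0, 0, 0, 0, 0, 0⟩ ⟨0, 0, 0, 0, 0, 0, 636446, 0, 0, 0, 0, 0, 0⟩ ⟨0, 0, 0, 0, 0, 0, 636446, 0, 0, 0, 0, 0, 0⟩ ⟨290, 1, -3308, 6, 46, 434, 842370, 0, 0, 0, 0, 0, 0⟩))))
    (.s2
    (.s1
    (.s0
    (.leaf (.box ⟨168, 2, -2048, 6, 58, 273, 453792, 0, 0, 0, 0, 0, 0⟩ ⟨0, 0, 0, 0, 0, 0, 536113, 0, 0, 0, 0, 0, 0⟩ ⟨0, 0, 0, 0, 0, 0, 536113, 0, 0, 0, 0, 0, 0⟩ ⟨0, 0, 0, 0, 0, 0, 654919, 0, 0, 0, 0, 0, 0⟩ ⟨0, 0, 0, 0, 0, 0, 654919, 0, 0, 0, 0, 0, 0⟩ ⟨284, 2, -3515, 6, 54, 472, 841373, 0, 0, 0, 0, 0, 0⟩))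
    (.s2
    (.leaf (.box ⟨157, 2, -2646, 6, 81, 367, 470852, 0, 0, 0, 0, 0, 0⟩ ⟨0, 0, 0, 0, 0, 0, 556181, 0, 0, 0, 0, 0, 0⟩ ⟨0, 0, 0, 0, 0, 0, 556181, 0, 0, 0, 0, 0, 0⟩ ⟨0, 0, 0, 0, 0, 0, 679282, 0, 0, 0, 0, 0, 0⟩ ⟨0, 0, 0, 0, 0, 0, 679282, 0, 0, 0, 0, 0, 0⟩ ⟨314, 2, -5250, 6, 87, 732, 872363, 0, 0, 0, 0, 0, 0⟩))
    (.leaf (.box ⟨159, 2, -2844, 6, 79, 380, 474851, 0, 0, 0, 0, 0, 0⟩ ⟨0, 0, 0, 0, 0, 0, 561008, 0, 0, 0, 0, 0, 0⟩ ⟨0, 0, 0, 0, 0, 0, 561008, 0, 0, 0, 0, 0, 0⟩ ⟨0, 0, 0, 0, 0, 0, 685358, 0, 0, 0, 0, 0, 0⟩ ⟨0, 0, 0, 0, 0, 0, 685358, 0, 0, 0, 0, 0, 0⟩ ⟨307, 2, -5486, 6, 82, 737, 880531, 0, 0, 0, 0, 0, 0⟩))))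
    (.leaf (.box ⟨197, 2, -2048, 8, 62, 290, 448497, 0, 0, 0, 0, 0, 0⟩ ⟨0, 0, 0, 0, 0, 0, 529939, 0, 0, 0, 0, 0, 0⟩ ⟨0, 0, 0, 0, 0, 0, 529939, 0, 0, 0, 0, 0, 0⟩ ⟨0, 0, 0, 0, 0, 0, 647521, 0, 0, 0, 0, 0, 0⟩ ⟨0, 0, 0, 0, 0, 0, 647521, 0, 0, 0, 0, 0, 0⟩ ⟨244, 1, -2566, 6, 43, 368, 832158, 0, 0, 0, 0, 0, 0⟩)))
    (.s3
    (.leaf (.box ⟨214, 1, -2048, 8, 51, 265, 457256, 0, 0, 0, 0, 0, 0⟩ ⟨0, 0, 0, 0, 0, 0, 540450, 0, 0, 0, 0, 0, 0⟩ ⟨0, 0, 0, 0, 0, 0, 540450, 0, 0, 0, 0, 0, 0⟩ ⟨0, 0, 0, 0, 0, 0, 660650, 0, 0, 0, 0, 0, 0⟩ ⟨0, 0, 0, 0, 0, 0, 660650, 0, 0, 0, 0, 0, 0⟩ ⟨306, 1, -2939, 6, 40, 382, 849607, 0, 0, 0, 0, 0, 0⟩))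
    (.leaf (.box ⟨218, 1, -2048, 8, 48, 266, 484600, 0, 0, 0, 0, 0, 0⟩ ⟨0, 0, 0, 0, 0, 0, 568526, 0, 0, 0, 0, 0, 0⟩ ⟨0, 0, 0, 0, 0, 0, 568526, 0, 0, 0, 0, 0, 0⟩ ⟨0, 0, 0, 0, 0, 0, 687609, 0, 0, 0, 0, 0, 0⟩ ⟨0, 0, 0, 0, 0, 0, 687609, 0, 0, 0, 0, 0, 0⟩ ⟨316, 1, -3002, 6, 40, 391, 869796, 0, 0, 0, 0, 0, 0⟩)))))

/-- A piece of the tree. -/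
noncomputable def tree58 : Tree LeafX :=
  .s0
    (.leaf (.box ⟨484, 0, -2048, 15, 61, 287, 373436, 0, 0, 0, 0, 0, 0⟩ ⟨0, 0, 0, 0, 0, 0, 446908, 0, 0, 0, 0, 0, 0⟩ ⟨0, 0, 0, 0, 0, 0, 446908, 0, 0, 0, 0, 0, 0⟩ ⟨0, 0, 0, 0, 0, 0, 556370, 0, 0, 0, 0, 0, 0⟩ ⟨0, 0, 0, 0, 0, 0, 556370, 0, 0, 0, 0, 0, 0⟩ ⟨450, 0, -2048, 9, 32, 300, 736847, 0, 0, 0, 0, 0, 0⟩))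
    (.s2
    (.s3
    (.leaf (.box ⟨272, 2, -2048, 11, 73, 316, 398099, 0, 0, 0, 0, 0, 0⟩ ⟨0, 0, 0, 0, 0, 0, 476335, 0, 0, 0, 0, 0, 0⟩ ⟨0, 0, 0, 0, 0, 0, 476335, 0, 0, 0, 0, 0, 0⟩ ⟨0, 0, 0, 0, 0, 0, 592842, 0, 0, 0, 0, 0, 0⟩ ⟨0, 0, 0, 0, 0, 0, 592842, 0, 0, 0, 0, 0, 0⟩ ⟨286, 1, -2059, 6, 38, 322, 784794, 0, 0, 0, 0, 0, 0⟩))
    (.leaf (.box ⟨276, 2, -2048, 11, 66, 319, 443879, 0, 0, 0, 0, 0, 0⟩ ⟨0, 0, 0, 0, 0, 0, 524633, 0, 0, 0, 0, 0, 0⟩ ⟨0, 0, 0, 0, 0, 0, 524633, 0, 0, 0, 0, 0, 0⟩ ⟨0, 0, 0, 0, 0, 0, 641303, 0, 0, 0, 0, 0, 0⟩ ⟨0, 0, 0, 0, 0, 0, 641303, 0, 0, 0, 0, 0, 0⟩ ⟨295, 1, -2068, 6, 37, 326, 824703, 0, 0, 0, 0, 0, 0⟩)))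
    (.leaf (.box ⟨231, 0, -2048, 13, 64, 293, 407971, 0, 0, 0, 0, 0, 0⟩ ⟨0, 0, 0, 0, 0, 0, 488280, 0, 0, 0, 0, 0, 0⟩ ⟨0, 0, 0, 0, 0, 0, 488280, 0, 0, 0, 0, 0, 0⟩ ⟨0, 0, 0, 0, 0, 0, 607955, 0, 0, 0, 0, 0, 0⟩ ⟨0, 0, 0, 0, 0, 0, 607955, 0, 0, 0, 0, 0, 0⟩ ⟨278, 0, -2482, 6, 37, 358, 805340, 0, 0, 0, 0, 0, 0⟩)))

/-- A piece of the tree. -/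
noncomputable def tree59 : Tree LeafX :=
  .s1
    (.s0
    (.leaf (.box ⟨606, -3, -2048, 29, 27, 155, 150948, 0, 0, 0, 0, 0, 0⟩ ⟨0, 0, 0, 0, 0, 0, 188393, 0, 0, 0, 0, 0, 0⟩ ⟨0, 0, 0, 0, 0, 0, 188393, 0, 0, 0, 0, 0, 0⟩ ⟨0, 0, 0, 0, 0, 0, 250542, 0, 0, 0, 0, 0, 0⟩ ⟨0, 0, 0, 0, 0, 0, 250542, 0, 0, 0, 0, 0, 0⟩ ⟨652, -1, -2048, 13, 11, 160, 373884, 0, 0, 0, 0, 0, 0⟩))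
    (.s0
    (.leaf (.box ⟨391, -1, -2048, 23, 39, 162, 171299, 0, 0, 0, 0, 0, 0⟩ ⟨0, 0, 0, 0, 0, 0, 213835, 0, 0, 0, 0, 0, 0⟩ ⟨0, 0, 0, 0, 0, 0, 213835, 0, 0, 0, 0, 0, 0⟩ ⟨0, 0, 0, 0, 0, 0, 284473, 0, 0, 0, 0, 0, 0⟩ ⟨0, 0, 0, 0, 0, 0, 284473, 0, 0, 0, 0, 0, 0⟩ ⟨424, -1, -2048, 10, 16, 166, 424800, 0, 0, 0, 0, 0, 0⟩))
    (.s3
    (.leaf (.box ⟨392, 0, -2048, 22, 45, 164, 185803, 0, 0, 0, 0, 0, 0⟩ ⟨0, 0, 0, 0, 0, 0, 231950, 0, 0, 0, 0, 0, 0⟩ ⟨0, 0, 0, 0, 0, 0, 231950, 0, 0, 0, 0, 0, 0⟩ ⟨0, 0, 0, 0, 0, 0, 308594, 0, 0, 0, 0, 0, 0⟩ ⟨0, 0, 0, 0, 0, 0, 308594, 0, 0, 0, 0, 0, 0⟩ ⟨349, 0, -2048, 10, 19, 173, 460885, 0, 0, 0, 0, 0, 0⟩))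
    (.s3
    (.leaf (.box ⟨357, 0, -2048, 16, 36, 171, 250743, 0, 0, 0, 0, 0, 0⟩ ⟨0, 0, 0, 0, 0, 0, 305813, 0, 0, 0, 0, 0, 0⟩ ⟨0, 0, 0, 0, 0, 0, 305813, 0, 0, 0, 0, 0, 0⟩ ⟨0, 0, 0, 0, 0, 0, 391881, 0, 0, 0, 0, 0, 0⟩ ⟨0, 0, 0, 0, 0, 0, 391881, 0, 0, 0, 0, 0, 0⟩ ⟨368, 0, -2048, 8, 17, 174, 545367, 0, 0, 0, 0, 0, 0⟩))
    (.leaf (.box ⟨369, 0, -2048, 14, 30, 172, 303563, 0, 0, 0, 0, 0, 0⟩ ⟨0, 0, 0, 0, 0, 0, 363439, 0, 0, 0, 0, 0, 0⟩ ⟨0, 0, 0, 0, 0, 0, 363439, 0, 0, 0, 0, 0, 0⟩ ⟨0, 0, 0, 0, 0, 0, 452738, 0, 0, 0, 0, 0, 0⟩ ⟨0, 0, 0, 0, 0, 0, 452738, 0, 0, 0, 0, 0, 0⟩ ⟨374, 0, -2048, 8, 15, 174, 600214, 0, 0, 0, 0, 0, 0⟩))))))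
    (.s3
    (.leaf (.box ⟨1359, -10, -2048, 47, 42, 215, 149783, 0, 0, 0, 0, 0, 0⟩ ⟨0, 0, 0, 0, 0, 0, 186951, 0, 0, 0, 0, 0, 0⟩ ⟨0, 0, 0, 0, 0, 0, 186951, 0, 0, 0, 0, 0, 0⟩ ⟨0, 0, 0, 0, 0, 0, 248653, 0, 0, 0, 0, 0, 0⟩ ⟨0, 0, 0, 0, 0, 0, 248653, 0, 0, 0, 0, 0, 0⟩ ⟨1325, -5, -2048, 22, 19, 242, 371145, 0, 0, 0, 0, 0, 0⟩))
    (.leaf (.box ⟨1385, -8, -2048, 36, 32, 219, 201898, 0, 0, 0, 0, 0, 0⟩ ⟨0, 0, 0, 0, 0, 0, 246209, 0, 0, 0, 0, 0, 0⟩ ⟨0, 0, 0, 0, 0, 0, 246209, 0, 0, 0, 0, 0, 0⟩ ⟨0, 0, 0, 0, 0, 0, 315437, 0, 0, 0, 0, 0, 0⟩ ⟨0, 0, 0, 0, 0, 0, 315437, 0, 0, 0, 0, 0, 0⟩ ⟨1341, -4, -2048, 19, 16, 243, 438825, 0, 0, 0, 0, 0, 0⟩)))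

/-- A piece of the tree. -/
noncomputable def tree60 : Tree LeafX :=
  .s3
    (.s1
    (.s0
    (.leaf (.box ⟨196, 1, -2048, 13, 51, 169, 209135, 0, 0, 0, 0, 0, 0⟩ ⟨0, 0, 0, 0, 0, 0, 260952, 0, 0, 0, 0, 0, 0⟩ ⟨0, 0, 0, 0, 0, 0, 260952, 0, 0, 0, 0, 0, 0⟩ ⟨0, 0, 0, 0, 0, 0, 346902, 0, 0, 0, 0, 0, 0⟩ ⟨0, 0, 0, 0, 0, 0, 346902, 0, 0, 0, 0, 0, 0⟩ ⟨204, 0, -2144, 6, 22, 180, 517279, 0, 0, 0, 0, 0, 0⟩))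
    (.s3
    (.leaf (.box ⟨178, 1, -2048, 13, 54, 175, 218271, 0, 0, 0, 0, 0, 0⟩ ⟨0, 0, 0, 0, 0, 0, 272296, 0, 0, 0, 0, 0, 0⟩ ⟨0, 0, 0, 0, 0, 0, 272296, 0, 0, 0, 0, 0, 0⟩ ⟨0, 0, 0, 0, 0, 0, 361860, 0, 0, 0, 0, 0, 0⟩ ⟨0, 0, 0, 0, 0, 0, 361860, 0, 0, 0, 0, 0, 0⟩ ⟨198, 1, -2185, 6, 24, 189, 539220, 0, 0, 0, 0, 0, 0⟩))
    (.leaf (.box ⟨196, 1, -2048, 12, 48, 175, 250189, 0, 0, 0, 0, 0, 0⟩ ⟨0, 0, 0, 0, 0, 0, 309038, 0, 0, 0, 0, 0, 0⟩ ⟨0, 0, 0, 0, 0, 0, 309038, 0, 0, 0, 0, 0, 0⟩ ⟨0, 0, 0, 0, 0, 0, 404085, 0, 0, 0, 0, 0, 0⟩ ⟨0, 0, 0, 0, 0, 0, 404085, 0, 0, 0, 0, 0, 0⟩ ⟨221, 1, -2317, 6, 23, 201, 583564, 0, 0, 0, 0, 0, 0⟩))))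
    (.leaf (.box ⟨229, 0, -2048, 17, 53, 190, 202792, 0, 0, 0, 0, 0, 0⟩ ⟨0, 0, 0, 0, 0, 0, 253144, 0, 0, 0, 0, 0, 0⟩ ⟨0, 0, 0, 0, 0, 0, 253144, 0, 0, 0, 0, 0, 0⟩ ⟨0, 0, 0, 0, 0, 0, 336757, 0, 0, 0, 0, 0, 0⟩ ⟨0, 0, 0, 0, 0, 0, 336757, 0, 0, 0, 0, 0, 0⟩ ⟨221, 0, -2048, 7, 22, 194, 502846, 0, 0, 0, 0, 0, 0⟩)))
    (.s1
    (.s3
    (.s2
    (.leaf (.box ⟨213, 2, -2048, 16, 50, 175, 281652, 0, 0, 0, 0, 0, 0⟩ ⟨0, 0, 0, 0, 0, 0, 343388, 0, 0, 0, 0, 0, 0⟩ ⟨0, 0, 0, 0, 0, 0, 343388, 0, 0, 0, 0, 0, 0⟩ ⟨0, 0, 0, 0, 0, 0, 439784, 0, 0, 0, 0, 0, 0⟩ ⟨0, 0, 0, 0, 0, 0, 439784, 0, 0, 0, 0, 0, 0⟩ ⟨282, 1, -2654, 6, 26, 229, 611422, 0, 0, 0, 0, 0, 0⟩))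
    (.leaf (.box ⟨193, 0, -2048, 10, 38, 171, 281754, 0, 0, 0, 0, 0, 0⟩ ⟨0, 0, 0, 0, 0, 0, 343519, 0, 0, 0, 0, 0, 0⟩ ⟨0, 0, 0, 0, 0, 0, 343519, 0, 0, 0, 0, 0, 0⟩ ⟨0, 0, 0, 0, 0, 0, 439966, 0, 0, 0, 0, 0, 0⟩ ⟨0, 0, 0, 0, 0, 0, 439966, 0, 0, 0, 0, 0, 0⟩ ⟨253, 0, -2659, 6, 23, 224, 611710, 0, 0, 0, 0, 0, 0⟩)))
    (.s3
    (.leaf (.box ⟨226, 1, -2048, 10, 34, 173, 340102, 0, 0, 0, 0, 0, 0⟩ ⟨0, 0, 0, 0, 0, 0, 407068, 0, 0, 0, 0, 0, 0⟩ ⟨0, 0, 0, 0, 0, 0, 407068, 0, 0, 0, 0, 0, 0⟩ ⟨0, 0, 0, 0, 0, 0, 506869, 0, 0, 0, 0, 0, 0⟩ ⟨0, 0, 0, 0, 0, 0, 506869, 0, 0, 0, 0, 0, 0⟩ ⟨258, 0, -2307, 6, 20, 197, 671502, 0, 0, 0, 0, 0, 0⟩))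
    (.leaf (.box ⟨228, 1, -2048, 9, 31, 174, 379660, 0, 0, 0, 0, 0, 0⟩ ⟨0, 0, 0, 0, 0, 0, 448860, 0, 0, 0, 0, 0, 0⟩ ⟨0, 0, 0, 0, 0, 0, 448860, 0, 0, 0, 0, 0, 0⟩ ⟨0, 0, 0, 0, 0, 0, 548908, 0, 0, 0, 0, 0, 0⟩ ⟨0, 0, 0, 0, 0, 0, 548908, 0, 0, 0, 0, 0, 0⟩ ⟨265, 0, -2325, 6, 19, 199, 706347, 0, 0, 0, 0, 0, 0⟩))))
    (.leaf (.box ⟨245, 0, -2048, 13, 41, 193, 273561, 0, 0, 0, 0, 0, 0⟩ ⟨0, 0, 0, 0, 0, 0, 333622, 0, 0, 0, 0, 0, 0⟩ ⟨0, 0, 0, 0, 0, 0, 333622, 0, 0, 0, 0, 0, 0⟩ ⟨0, 0, 0, 0, 0, 0, 427475, 0, 0, 0, 0, 0, 0⟩ ⟨0, 0, 0, 0, 0, 0, 427475, 0, 0, 0, 0, 0, 0⟩ ⟨238, 0, -2139, 6, 20, 204, 594802, 0, 0, 0, 0, 0, 0⟩)))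

/-- A piece of the tree. -/
noncomputable def tree61 : Tree LeafX :=
  .s1
    (.s3
    (.s0
    (.leaf (.box ⟨177, 2, -2048, 20, 64, 181, 227838, 0, 0, 0, 0, 0, 0⟩ ⟨0, 0, 0, 0, 0, 0, 284158, 0, 0, 0, 0, 0, 0⟩ ⟨0, 0, 0, 0, 0, 0, 284158, 0, 0, 0, 0, 0, 0⟩ ⟨0, 0, 0, 0, 0, 0, 377465, 0, 0, 0, 0, 0, 0⟩ ⟨0, 0, 0, 0, 0, 0, 377465, 0, 0, 0, 0, 0, 0⟩ ⟨183, 1, -2103, 6, 24, 188, 562005, 0, 0, 0, 0, 0, 0⟩))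
    (.s2
    (.leaf (.box ⟨155, 2, -2048, 10, 64, 190, 237887, 0, 0, 0, 0, 0, 0⟩ ⟨0, 0, 0, 0, 0, 0, 296638, 0, 0, 0, 0, 0, 0⟩ ⟨0, 0, 0, 0, 0, 0, 296638, 0, 0, 0, 0, 0, 0⟩ ⟨0, 0, 0, 0, 0, 0, 393923, 0, 0, 0, 0, 0, 0⟩ ⟨0, 0, 0, 0, 0, 0, 393923, 0, 0, 0, 0, 0, 0⟩ ⟨219, 1, -2777, 6, 36, 260, 586161, 0, 0, 0, 0, 0, 0⟩))
    (.leaf (.box ⟨135, 1, -2048, 10, 56, 185, 240479, 0, 0, 0, 0, 0, 0⟩ ⟨0, 0, 0, 0, 0, 0, 299961, 0, 0, 0, 0, 0, 0⟩ ⟨0, 0, 0, 0, 0, 0, 299961, 0, 0, 0, 0, 0, 0⟩ ⟨0, 0, 0, 0, 0, 0, 398539, 0, 0, 0, 0, 0, 0⟩ ⟨0, 0, 0, 0, 0, 0, 398539, 0, 0, 0, 0, 0, 0⟩ ⟨211, 1, -2926, 6, 33, 267, 593623, 0, 0, 0, 0, 0, 0⟩))))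
    (.s0
    (.s2
    (.leaf (.box ⟨165, 1, -2048, 9, 54, 184, 260892, 0, 0, 0, 0, 0, 0⟩ ⟨0, 0, 0, 0, 0, 0, 322190, 0, 0, 0, 0, 0, 0⟩ ⟨0, 0, 0, 0, 0, 0, 322190, 0, 0, 0, 0, 0, 0⟩ ⟨0, 0, 0, 0, 0, 0, 421138, 0, 0, 0, 0, 0, 0⟩ ⟨0, 0, 0, 0, 0, 0, 421138, 0, 0, 0, 0, 0, 0⟩ ⟨239, 1, -2985, 6, 34, 270, 607798, 0, 0, 0, 0, 0, 0⟩))
    (.leaf (.box ⟨147, 1, -2048, 9, 47, 179, 262692, 0, 0, 0, 0, 0, 0⟩ ⟨0, 0, 0, 0, 0, 0, 324483, 0, 0, 0, 0, 0, 0⟩ ⟨0, 0, 0, 0, 0, 0, 324483, 0, 0, 0, 0, 0, 0⟩ ⟨0, 0, 0, 0, 0, 0, 424282, 0, 0, 0, 0, 0, 0⟩ ⟨0, 0, 0, 0, 0, 0, 424282, 0, 0, 0, 0, 0, 0⟩ ⟨211, 0, -2888, 6, 29, 255, 612737, 0, 0, 0, 0, 0, 0⟩)))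
    (.s3
    (.leaf (.box ⟨170, 2, -2048, 12, 53, 188, 272572, 0, 0, 0, 0, 0, 0⟩ ⟨0, 0, 0, 0, 0, 0, 336538, 0, 0, 0, 0, 0, 0⟩ ⟨0, 0, 0, 0, 0, 0, 336538, 0, 0, 0, 0, 0, 0⟩ ⟨0, 0, 0, 0, 0, 0, 439733, 0, 0, 0, 0, 0, 0⟩ ⟨0, 0, 0, 0, 0, 0, 439733, 0, 0, 0, 0, 0, 0⟩ ⟨215, 1, -2477, 6, 28, 229, 634200, 0, 0, 0, 0, 0, 0⟩))
    (.leaf (.box ⟨175, 2, -2048, 11, 49, 188, 293824, 0, 0, 0, 0, 0, 0⟩ ⟨180, 1, -2048, 9, 40, 188, 363831, 0, 0, 0, 0, 0, 0⟩ ⟨180, 1, -2048, 9, 40, 188, 363831, 0, 0, 0, 0, 0, 0⟩ ⟨175, 1, -2048, 7, 31, 189, 471524, 0, 0, 0, 0, 0, 0⟩ ⟨175, 1, -2048, 7, 31, 189, 471524, 0, 0, 0, 0, 0, 0⟩ ⟨216, 1, -2467, 6, 27, 228, 660888, 0, 0, 0, 0, 0, 0⟩)))))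
    (.s2
    (.s0
    (.leaf (.box ⟨181, 1, -2048, 18, 69, 199, 220631, 0, 0, 0, 0, 0, 0⟩ ⟨0, 0, 0, 0, 0, 0, 275297, 0, 0, 0, 0, 0, 0⟩ ⟨0, 0, 0, 0, 0, 0, 275297, 0, 0, 0, 0, 0, 0⟩ ⟨0, 0, 0, 0, 0, 0, 365974, 0, 0, 0, 0, 0, 0⟩ ⟨0, 0, 0, 0, 0, 0, 365974, 0, 0, 0, 0, 0, 0⟩ ⟨227, 0, -2593, 6, 32, 257, 545722, 0, 0, 0, 0, 0, 0⟩))
    (.s3
    (.leaf (.box ⟨159, 1, -2048, 10, 63, 205, 230121, 0, 0, 0, 0, 0, 0⟩ ⟨0, 0, 0, 0, 0, 0, 287100, 0, 0, 0, 0, 0, 0⟩ ⟨0, 0, 0, 0, 0, 0, 287100, 0, 0, 0, 0, 0, 0⟩ ⟨0, 0, 0, 0, 0, 0, 381579, 0, 0, 0, 0, 0, 0⟩ ⟨0, 0, 0, 0, 0, 0, 381579, 0, 0, 0, 0, 0, 0⟩ ⟨217, 0, -2752, 6, 35, 280, 568740, 0, 0, 0, 0, 0, 0⟩))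
    (.leaf (.box ⟨169, 1, -2048, 9, 56, 207, 263848, 0, 0, 0, 0, 0, 0⟩ ⟨0, 0, 0, 0, 0, 0, 325929, 0, 0, 0, 0, 0, 0⟩ ⟨0, 0, 0, 0, 0, 0, 325929, 0, 0, 0, 0, 0, 0⟩ ⟨0, 0, 0, 0, 0, 0, 426213, 0, 0, 0, 0, 0, 0⟩ ⟨0, 0, 0, 0, 0, 0, 426213, 0, 0, 0, 0, 0, 0⟩ ⟨239, 0, -2955, 6, 35, 302, 615635, 0, 0, 0, 0, 0, 0⟩))))
    (.leaf (.box ⟨196, 0, -2048, 13, 56, 200, 222022, 0, 0, 0, 0, 0, 0⟩ ⟨0, 0, 0, 0, 0, 0, 277098, 0, 0, 0, 0, 0, 0⟩ ⟨0, 0, 0, 0, 0, 0, 277098, 0, 0, 0, 0, 0, 0⟩ ⟨0, 0, 0, 0, 0, 0, 368513, 0, 0, 0, 0, 0, 0⟩ ⟨0, 0, 0, 0, 0, 0, 368513, 0, 0, 0, 0, 0, 0⟩ ⟨214, 0, -2226, 6, 25, 221, 549937, 0, 0, 0, 0, 0, 0⟩)))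

theorem parts3 :
    (runPathS conQ supQ (fun n Qs i d x => leafR conQ seg n Qs i d x) [.d0 false, .d1 false, .d2 false, .d0 true, .d1 true, .d2 false, .d0 true, .d1 false, .d0 true, .d1 true, .d3 true, .d0 true, .d3 true, .d2 true] tree46 0 0 0
      (joinS (lay.B * lay.size) rootQ) = true) ∧
    (runPathS conQ supQ (fun n Qs i d x => leafR conQ seg n Qs i d x) [.d0 false, .d1 false, .d2 false, .d0 true, .d1 true, .d2 false, .d0 true, .d1 true, .d0 false] tree47 0 0 0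
      (joinS (lay.B * lay.size) rootQ) = true) ∧
    (runPathS conQ supQ (fun n Qs i d x => leafR conQ seg n Qs i d x) [.d0 false, .d1 false, .d2 false, .d0 true, .d1 true, .d2 false, .d0 true, .d1 true, .d0 true, .d3 false, .d0 false, .d1 false] tree48 0 0 0
      (joinS (lay.B * lay.size) rootQ) = true) ∧
    (runPathS conQ supQ (fun n Qs i d x => leafR conQ seg n Qs i d x) [.d0 false, .d1 false, .d2 false, .d0 true, .d1 true, .d2 false, .d0 true, .d1 true, .d0 true, .d3 false, .d0 false, .d1 true] tree49 0 0 0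
      (joinS (lay.B * lay.size) rootQ) = true) ∧
    (runPathS conQ supQ (fun n Qs i d x => leafR conQ seg n Qs i d x) [.d0 false, .d1 false, .d2 false, .d0 true, .d1 true, .d2 false, .d0 true, .d1 true, .d0 true, .d3 false, .d0 true, .d3 false, .d1 false, .d2 false] tree50 0 0 0
      (joinS (lay.B * lay.size) rootQ) = true) ∧
    (runPathS conQ supQ (fun n Qs i d x => leafR conQ seg n Qs i d x) [.d0 false, .d1 false, .d2 false, .d0 true, .d1 true, .d2 false, .d0 true, .d1 true, .d0 true, .d3 false, .d0 true, .d3 false, .d1 false, .d2 true] tree51 0 0 0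
      (joinS (lay.B * lay.size) rootQ) = true) ∧
    (runPathS conQ supQ (fun n Qs i d x => leafR conQ seg n Qs i d x) [.d0 false, .d1 false, .d2 false, .d0 true, .d1 true, .d2 false, .d0 true, .d1 true, .d0 true, .d3 false, .d0 true, .d3 false, .d1 true] tree52 0 0 0
      (joinS (lay.B * lay.size) rootQ) = true) ∧
    (runPathS conQ supQ (fun n Qs i d x => leafR conQ seg n Qs i d x) [.d0 false, .d1 false, .d2 false, .d0 true, .d1 true, .d2 false, .d0 true, .d1 true, .d0 true, .d3 false, .d0 true, .d3 true, .d1 false] tree53 0 0 0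
      (joinS (lay.B * lay.size) rootQ) = true) ∧
    (runPathS conQ supQ (fun n Qs i d x => leafR conQ seg n Qs i d x) [.d0 false, .d1 false, .d2 false, .d0 true, .d1 true, .d2 false, .d0 true, .d1 true, .d0 true, .d3 false, .d0 true, .d3 true, .d1 true] tree54 0 0 0
      (joinS (lay.B * lay.size) rootQ) = true) ∧
    (runPathS conQ supQ (fun n Qs i d x => leafR conQ seg n Qs i d x) [.d0 false, .d1 false, .d2 false, .d0 true, .d1 true, .d2 false, .d0 true, .d1 true, .d0 true, .d3 true, .d3 false, .d1 false] tree55 0 0 0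
      (joinS (lay.B * lay.size) rootQ) = true) ∧
    (runPathS conQ supQ (fun n Qs i d x => leafR conQ seg n Qs i d x) [.d0 false, .d1 false, .d2 false, .d0 true, .d1 true, .d2 false, .d0 true, .d1 true, .d0 true, .d3 true, .d3 false, .d1 true] tree56 0 0 0
      (joinS (lay.B * lay.size) rootQ) = true) ∧
    (runPathS conQ supQ (fun n Qs i d x => leafR conQ seg n Qs i d x) [.d0 false, .d1 false, .d2 false, .d0 true, .d1 true, .d2 false, .d0 true, .d1 true, .d0 true, .d3 true, .d3 true, .d1 false] tree57 0 0 0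
      (joinS (lay.B * lay.size) rootQ) = true) ∧
    (runPathS conQ supQ (fun n Qs i d x => leafR conQ seg n Qs i d x) [.d0 false, .d1 false, .d2 false, .d0 true, .d1 true, .d2 false, .d0 true, .d1 true, .d0 true, .d3 true, .d3 true, .d1 true] tree58 0 0 0
      (joinS (lay.B * lay.size) rootQ) = true) ∧
    (runPathS conQ supQ (fun n Qs i d x => leafR conQ seg n Qs i d x) [.d0 false, .d1 false, .d2 false, .d0 true, .d1 true, .d2 true, .d0 false] tree59 0 0 0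
      (joinS (lay.B * lay.size) rootQ) = true) ∧
    (runPathS conQ supQ (fun n Qs i d x => leafR conQ seg n Qs i d x) [.d0 false, .d1 false, .d2 false, .d0 true, .d1 true, .d2 true, .d0 true, .d1 false, .d0 false, .d0 false] tree60 0 0 0
      (joinS (lay.B * lay.size) rootQ) = true) ∧
    (runPathS conQ supQ (fun n Qs i d x => leafR conQ seg n Qs i d x) [.d0 false, .d1 false, .d2 false, .d0 true, .d1 true, .d2 true, .d0 true, .d1 false, .d0 false, .d0 true, .d3 false] tree61 0 0 0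
      (joinS (lay.B * lay.size) rootQ) = true) :=
  ⟨by decide +kernel,
  by decide +kernel,
  by decide +kernel,
  by decide +kernel,
  by decide +kernel,
  by decide +kernel,
  by decide +kernel,
  by decide +kernel,
  by decide +kernel,
  by decide +kernel,
  by decide +kernel,
  by decide +kernel,
  by decide +kernel,
  by decide +kernel,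
  by decide +kernel,
  by decide +kernel⟩

end Vale.Agent.P098.Six.S21
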