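import Vale.Agent.P098.Six.S21.Root

/-!
# P098, six dimensions: checked pieces of the tree
-/

namespace Vale.Agent.P098.Six.S21

/-- A piece of the tree. -/
noncomputable def tree93 : Tree LeafX :=
  .s3
    (.s3
    (.leaf (.box ⟨177, 4, -2048, 8, 67, 281, 491122, 0, 0, 0, 0, 0, 0⟩ ⟨0, 0, 0, 0, 0, 0, 586638, 0, 0, 0, 0, 0, 0⟩ ⟨0, 0, 0, 0, 0, 0, 586638, 0, 0, 0, 0, 0, 0⟩ ⟨0, 0, 0, 0, 0, 0, 728277, 0, 0, 0, 0, 0, 0⟩ ⟨0, 0, 0, 0, 0, 0, 728277, 0, 0, 0, 0, 0, 0⟩ ⟨294, 3, -3320, 6, 55, 455, 960080, 0, 0, 0, 0, 0, 0⟩))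
    (.leaf (.box ⟨177, 4, -2048, 8, 64, 281, 516511, 0, 0, 0, 0, 0, 0⟩ ⟨0, 0, 0, 0, 0, 0, 613463, 0, 0, 0, 0, 0, 0⟩ ⟨0, 0, 0, 0, 0, 0, 613463, 0, 0, 0, 0, 0, 0⟩ ⟨0, 0, 0, 0, 0, 0, 755223, 0, 0, 0, 0, 0, 0⟩ ⟨0, 0, 0, 0, 0, 0, 755223, 0, 0, 0, 0, 0, 0⟩ ⟨287, 3, -3199, 6, 52, 438, 982186, 0, 0, 0, 0, 0, 0⟩)))
    (.s1
    (.leaf (.box ⟨149, 3, -2151, 6, 62, 290, 555082, 0, 0, 0, 0, 0, 0⟩ ⟨0, 0, 0, 0, 0, 0, 655017, 0, 0, 0, 0, 0, 0⟩ ⟨0, 0, 0, 0, 0, 0, 655017, 0, 0, 0, 0, 0, 0⟩ ⟨0, 0, 0, 0, 0, 0, 798837, 0, 0, 0, 0, 0, 0⟩ ⟨0, 0, 0, 0, 0, 0, 798837, 0, 0, 0, 0, 0, 0⟩ ⟨308, 3, -4506, 6, 70, 606, 1023579, 0, 0, 0, 0, 0, 0⟩))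
    (.s3
    (.leaf (.box ⟨144, 3, -2048, 7, 61, 287, 544451, 0, 0, 0, 0, 0, 0⟩ ⟨0, 0, 0, 0, 0, 0, 642485, 0, 0, 0, 0, 0, 0⟩ ⟨0, 0, 0, 0, 0, 0, 642485, 0, 0, 0, 0, 0, 0⟩ ⟨0, 0, 0, 0, 0, 0, 783574, 0, 0, 0, 0, 0, 0⟩ ⟨0, 0, 0, 0, 0, 0, 783574, 0, 0, 0, 0, 0, 0⟩ ⟨246, 3, -3411, 6, 55, 478, 1004066, 0, 0, 0, 0, 0, 0⟩))
    (.leaf (.box ⟨150, 3, -2048, 6, 58, 288, 575556, 0, 0, 0, 0, 0, 0⟩ ⟨0, 0, 0, 0, 0, 0, 674266, 0, 0, 0, 0, 0, 0⟩ ⟨0, 0, 0, 0, 0, 0, 674266, 0, 0, 0, 0, 0, 0⟩ ⟨0, 0, 0, 0, 0, 0, 813842, 0, 0, 0, 0, 0, 0⟩ ⟨0, 0, 0, 0, 0, 0, 813842, 0, 0, 0, 0, 0, 0⟩ ⟨293, 3, -4079, 6, 64, 572, 1026289, 0, 0, 0, 0, 0, 0⟩))))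

/-- A piece of the tree. -/
noncomputable def tree94 : Tree LeafX :=
  .s3
    (.s1
    (.leaf (.box ⟨235, 7, -2048, 17, 93, 246, 295955, 0, 0, 0, 0, 0, 0⟩ ⟨0, 0, 0, 0, 0, 0, 368561, 0, 0, 0, 0, 0, 0⟩ ⟨0, 0, 0, 0, 0, 0, 368561, 0, 0, 0, 0, 0, 0⟩ ⟨0, 0, 0, 0, 0, 0, 488371, 0, 0, 0, 0, 0, 0⟩ ⟨0, 0, 0, 0, 0, 0, 488371, 0, 0, 0, 0, 0, 0⟩ ⟨252, 3, -2048, 7, 38, 246, 723593, 0, 0, 0, 0, 0, 0⟩))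
    (.s0
    (.s3
    (.s2
    (.leaf (.box ⟨165, 3, -2048, 11, 91, 257, 285671, 0, 0, 0, 0, 0, 0⟩ ⟨0, 0, 0, 0, 0, 0, 355866, 0, 0, 0, 0, 0, 0⟩ ⟨0, 0, 0, 0, 0, 0, 355866, 0, 0, 0, 0, 0, 0⟩ ⟨0, 0, 0, 0, 0, 0, 471793, 0, 0, 0, 0, 0, 0⟩ ⟨0, 0, 0, 0, 0, 0, 471793, 0, 0, 0, 0, 0, 0⟩ ⟨222, 2, -2806, 6, 51, 352, 699741, 0, 0, 0, 0, 0, 0⟩))
    (.leaf (.box ⟨170, 3, -2048, 11, 85, 252, 288805, 0, 0, 0, 0, 0, 0⟩ ⟨0, 0, 0, 0, 0, 0, 359883, 0, 0, 0, 0, 0, 0⟩ ⟨0, 0, 0, 0, 0, 0, 359883, 0, 0, 0, 0, 0, 0⟩ ⟨0, 0, 0, 0, 0, 0, 477366, 0, 0, 0, 0, 0, 0⟩ ⟨0, 0, 0, 0, 0, 0, 477366, 0, 0, 0, 0, 0, 0⟩ ⟨236, 2, -2869, 6, 48, 353, 708729, 0, 0, 0, 0, 0, 0⟩)))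
    (.s3
    (.leaf (.box ⟨186, 3, -2048, 11, 78, 255, 326585, 0, 0, 0, 0, 0, 0⟩ ⟨186, 3, -2048, 9, 63, 255, 406101, 0, 0, 0, 0, 0, 0⟩ ⟨186, 3, -2048, 9, 63, 255, 406101, 0, 0, 0, 0, 0, 0⟩ ⟨184, 2, -2048, 7, 48, 255, 530959, 0, 0, 0, 0, 0, 0⟩ ⟨184, 2, -2048, 7, 48, 255, 530959, 0, 0, 0, 0, 0, 0⟩ ⟨223, 2, -2423, 6, 40, 301, 755571, 0, 0, 0, 0, 0, 0⟩))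
    (.leaf (.box ⟨185, 3, -2048, 10, 73, 255, 351493, 0, 0, 0, 0, 0, 0⟩ ⟨0, 0, 0, 0, 0, 0, 430988, 0, 0, 0, 0, 0, 0⟩ ⟨0, 0, 0, 0, 0, 0, 430988, 0, 0, 0, 0, 0, 0⟩ ⟨0, 0, 0, 0, 0, 0, 556949, 0, 0, 0, 0, 0, 0⟩ ⟨0, 0, 0, 0, 0, 0, 556949, 0, 0, 0, 0, 0, 0⟩ ⟨232, 2, -2602, 6, 41, 324, 786941, 0, 0, 0, 0, 0, 0⟩))))
    (.leaf (.box ⟨206, 5, -2048, 14, 92, 275, 313408, 0, 0, 0, 0, 0, 0⟩ ⟨0, 0, 0, 0, 0, 0, 390363, 0, 0, 0, 0, 0, 0⟩ ⟨0, 0, 0, 0, 0, 0, 390363, 0, 0, 0, 0, 0, 0⟩ ⟨0, 0, 0, 0, 0, 0, 517409, 0, 0, 0, 0, 0, 0⟩ ⟨0, 0, 0, 0, 0, 0, 517409, 0, 0, 0, 0, 0, 0⟩ ⟨202, 2, -2437, 6, 44, 321, 767047, 0, 0, 0, 0, 0, 0⟩))))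
    (.s3
    (.s1
    (.leaf (.box ⟨255, 5, -2048, 12, 71, 247, 394323, 0, 0, 0, 0, 0, 0⟩ ⟨0, 0, 0, 0, 0, 0, 479974, 0, 0, 0, 0, 0, 0⟩ ⟨0, 0, 0, 0, 0, 0, 479974, 0, 0, 0, 0, 0, 0⟩ ⟨0, 0, 0, 0, 0, 0, 613157, 0, 0, 0, 0, 0, 0⟩ ⟨0, 0, 0, 0, 0, 0, 613157, 0, 0, 0, 0, 0, 0⟩ ⟨262, 3, -2073, 6, 33, 249, 848636, 0, 0, 0, 0, 0, 0⟩))
    (.s0
    (.s3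
    (.leaf (.box ⟨183, 3, -2048, 10, 68, 255, 380594, 0, 0, 0, 0, 0, 0⟩ ⟨0, 0, 0, 0, 0, 0, 463427, 0, 0, 0, 0, 0, 0⟩ ⟨0, 0, 0, 0, 0, 0, 463427, 0, 0, 0, 0, 0, 0⟩ ⟨0, 0, 0, 0, 0, 0, 592345, 0, 0, 0, 0, 0, 0⟩ ⟨0, 0, 0, 0, 0, 0, 592345, 0, 0, 0, 0, 0, 0⟩ ⟨254, 2, -2794, 6, 43, 348, 820631, 0, 0, 0, 0, 0, 0⟩))
    (.leaf (.box ⟨191, 3, -2048, 9, 62, 256, 415199, 0, 0, 0, 0, 0, 0⟩ ⟨0, 0, 0, 0, 0, 0, 501410, 0, 0, 0, 0, 0, 0⟩ ⟨0, 0, 0, 0, 0, 0, 501410, 0, 0, 0, 0, 0, 0⟩ ⟨0, 0, 0, 0, 0, 0, 632804, 0, 0, 0, 0, 0, 0⟩ ⟨0, 0, 0, 0, 0, 0, 632804, 0, 0, 0, 0, 0, 0⟩ ⟨265, 2, -2863, 6, 42, 357, 857513, 0, 0, 0, 0, 0, 0⟩)))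
    (.leaf (.box ⟨176, 3, -2048, 9, 69, 271, 417933, 0, 0, 0, 0, 0, 0⟩ ⟨0, 0, 0, 0, 0, 0, 508786, 0, 0, 0, 0, 0, 0⟩ ⟨0, 0, 0, 0, 0, 0, 508786, 0, 0, 0, 0, 0, 0⟩ ⟨0, 0, 0, 0, 0, 0, 650110, 0, 0, 0, 0, 0, 0⟩ ⟨0, 0, 0, 0, 0, 0, 650110, 0, 0, 0, 0, 0, 0⟩ ⟨251, 2, -2955, 6, 46, 389, 900139, 0, 0, 0, 0, 0, 0⟩))))
    (.s1
    (.leaf (.box ⟨254, 4, -2048, 10, 59, 246, 471964, 0, 0, 0, 0, 0, 0⟩ ⟨0, 0, 0, 0, 0, 0, 564244, 0, 0, 0, 0, 0, 0⟩ ⟨0, 0, 0, 0, 0, 0, 564244, 0, 0, 0, 0, 0, 0⟩ ⟨0, 0, 0, 0, 0, 0, 701379, 0, 0, 0, 0, 0, 0⟩ ⟨0, 0, 0, 0, 0, 0, 701379, 0, 0, 0, 0, 0, 0⟩ ⟨304, 3, -2422, 6, 35, 290, 926576, 0, 0, 0, 0, 0, 0⟩))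
    (.s0
    (.s3
    (.leaf (.box ⟨198, 3, -2048, 9, 57, 256, 457033, 0, 0, 0, 0, 0, 0⟩ ⟨0, 0, 0, 0, 0, 0, 546493, 0, 0, 0, 0, 0, 0⟩ ⟨0, 0, 0, 0, 0, 0, 546493, 0, 0, 0, 0, 0, 0⟩ ⟨0, 0, 0, 0, 0, 0, 679497, 0, 0, 0, 0, 0, 0⟩ ⟨0, 0, 0, 0, 0, 0, 679497, 0, 0, 0, 0, 0, 0⟩ ⟨284, 2, -3115, 6, 44, 389, 898065, 0, 0, 0, 0, 0, 0⟩))
    (.leaf (.box ⟨196, 3, -2048, 8, 51, 256, 508332, 0, 0, 0, 0, 0, 0⟩ ⟨0, 0, 0, 0, 0, 0, 600460, 0, 0, 0, 0, 0, 0⟩ ⟨0, 0, 0, 0, 0, 0, 600460, 0, 0, 0, 0, 0, 0⟩ ⟨0, 0, 0, 0, 0, 0, 733371, 0, 0, 0, 0, 0, 0⟩ ⟨0, 0, 0, 0, 0, 0, 733371, 0, 0, 0, 0, 0, 0⟩ ⟨301, 2, -3125, 6, 42, 391, 941849, 0, 0, 0, 0, 0, 0⟩)))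
    (.leaf (.box ⟨178, 3, -2048, 8, 58, 271, 500657, 0, 0, 0, 0, 0, 0⟩ ⟨0, 0, 0, 0, 0, 0, 598609, 0, 0, 0, 0, 0, 0⟩ ⟨0, 0, 0, 0, 0, 0, 598609, 0, 0, 0, 0, 0, 0⟩ ⟨0, 0, 0, 0, 0, 0, 744211, 0, 0, 0, 0, 0, 0⟩ ⟨0, 0, 0, 0, 0, 0, 744211, 0, 0, 0, 0, 0, 0⟩ ⟨259, 2, -3035, 6, 44, 400, 983410, 0, 0, 0, 0, 0, 0⟩)))))

/-- A piece of the tree. -/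
noncomputable def tree95 : Tree LeafX :=
  .s3
    (.s1
    (.leaf (.box ⟨289, 6, -2048, 20, 77, 239, 301879, 0, 0, 0, 0, 0, 0⟩ ⟨0, 0, 0, 0, 0, 0, 376132, 0, 0, 0, 0, 0, 0⟩ ⟨0, 0, 0, 0, 0, 0, 376132, 0, 0, 0, 0, 0, 0⟩ ⟨0, 0, 0, 0, 0, 0, 498826, 0, 0, 0, 0, 0, 0⟩ ⟨0, 0, 0, 0, 0, 0, 498826, 0, 0, 0, 0, 0, 0⟩ ⟨278, 2, -2048, 8, 31, 237, 740317, 0, 0, 0, 0, 0, 0⟩))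
    (.s3
    (.leaf (.box ⟨276, 4, -2048, 21, 76, 255, 292905, 0, 0, 0, 0, 0, 0⟩ ⟨0, 0, 0, 0, 0, 0, 365098, 0, 0, 0, 0, 0, 0⟩ ⟨0, 0, 0, 0, 0, 0, 365098, 0, 0, 0, 0, 0, 0⟩ ⟨0, 0, 0, 0, 0, 0, 484516, 0, 0, 0, 0, 0, 0⟩ ⟨0, 0, 0, 0, 0, 0, 484516, 0, 0, 0, 0, 0, 0⟩ ⟨270, 2, -2048, 9, 31, 255, 720026, 0, 0, 0, 0, 0, 0⟩))
    (.leaf (.box ⟨265, 3, -2048, 18, 67, 255, 334634, 0, 0, 0, 0, 0, 0⟩ ⟨0, 0, 0, 0, 0, 0, 413057, 0, 0, 0, 0, 0, 0⟩ ⟨0, 0, 0, 0, 0, 0, 413057, 0, 0, 0, 0, 0, 0⟩ ⟨0, 0, 0, 0, 0, 0, 539488, 0, 0, 0, 0, 0, 0⟩ ⟨0, 0, 0, 0, 0, 0, 539488, 0, 0, 0, 0, 0, 0⟩ ⟨270, 1, -2048, 8, 29, 255, 777455, 0, 0, 0, 0, 0, 0⟩))))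
    (.s1
    (.leaf (.box ⟨289, 4, -2048, 15, 58, 237, 400258, 0, 0, 0, 0, 0, 0⟩ ⟨0, 0, 0, 0, 0, 0, 487614, 0, 0, 0, 0, 0, 0⟩ ⟨0, 0, 0, 0, 0, 0, 487614, 0, 0, 0, 0, 0, 0⟩ ⟨0, 0, 0, 0, 0, 0, 623745, 0, 0, 0, 0, 0, 0⟩ ⟨0, 0, 0, 0, 0, 0, 623745, 0, 0, 0, 0, 0, 0⟩ ⟨286, 2, -2048, 7, 27, 236, 865324, 0, 0, 0, 0, 0, 0⟩))
    (.s3
    (.leaf (.box ⟨265, 3, -2048, 15, 58, 255, 390787, 0, 0, 0, 0, 0, 0⟩ ⟨0, 0, 0, 0, 0, 0, 476121, 0, 0, 0, 0, 0, 0⟩ ⟨0, 0, 0, 0, 0, 0, 476121, 0, 0, 0, 0, 0, 0⟩ ⟨0, 0, 0, 0, 0, 0, 609134, 0, 0, 0, 0, 0, 0⟩ ⟨0, 0, 0, 0, 0, 0, 609134, 0, 0, 0, 0, 0, 0⟩ ⟨261, 1, -2048, 7, 27, 255, 845276, 0, 0, 0, 0, 0, 0⟩))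
    (.s2
    (.leaf (.box ⟨235, 2, -2048, 9, 51, 254, 470400, 0, 0, 0, 0, 0, 0⟩ ⟨0, 0, 0, 0, 0, 0, 562754, 0, 0, 0, 0, 0, 0⟩ ⟨0, 0, 0, 0, 0, 0, 562754, 0, 0, 0, 0, 0, 0⟩ ⟨0, 0, 0, 0, 0, 0, 700231, 0, 0, 0, 0, 0, 0⟩ ⟨0, 0, 0, 0, 0, 0, 700231, 0, 0, 0, 0, 0, 0⟩ ⟨323, 1, -2641, 6, 34, 330, 926590, 0, 0, 0, 0, 0, 0⟩))
    (.leaf (.box ⟨245, 1, -2048, 8, 44, 253, 491166, 0, 0, 0, 0, 0, 0⟩ ⟨0, 0, 0, 0, 0, 0, 587737, 0, 0, 0, 0, 0, 0⟩ ⟨0, 0, 0, 0, 0, 0, 587737, 0, 0, 0, 0, 0, 0⟩ ⟨0, 0, 0, 0, 0, 0, 731575, 0, 0, 0, 0, 0, 0⟩ ⟨0, 0, 0, 0, 0, 0, 731575, 0, 0, 0, 0, 0, 0⟩ ⟨375, 1, -3121, 6, 34, 386, 968629, 0, 0, 0, 0, 0, 0⟩)))))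

/-- A piece of the tree. -/
noncomputable def tree96 : Tree LeafX :=
  .s0
    (.s0
    (.s3
    (.s1
    (.leaf (.box ⟨117, 2, -2048, 8, 99, 274, 277867, 0, 0, 0, 0, 0, 0⟩ ⟨0, 0, 0, 0, 0, 0, 345927, 0, 0, 0, 0, 0, 0⟩ ⟨0, 0, 0, 0, 0, 0, 345927, 0, 0, 0, 0, 0, 0⟩ ⟨0, 0, 0, 0, 0, 0, 458141, 0, 0, 0, 0, 0, 0⟩ ⟨0, 0, 0, 0, 0, 0, 458141, 0, 0, 0, 0, 0, 0⟩ ⟨215, 2, -3567, 6, 71, 481, 678111, 0, 0, 0, 0, 0, 0⟩))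
    (.leaf (.box ⟨130, 2, -2048, 9, 102, 285, 272714, 0, 0, 0, 0, 0, 0⟩ ⟨0, 0, 0, 0, 0, 0, 339645, 0, 0, 0, 0, 0, 0⟩ ⟨0, 0, 0, 0, 0, 0, 339645, 0, 0, 0, 0, 0, 0⟩ ⟨0, 0, 0, 0, 0, 0, 450112, 0, 0, 0, 0, 0, 0⟩ ⟨0, 0, 0, 0, 0, 0, 450112, 0, 0, 0, 0, 0, 0⟩ ⟨200, 2, -3093, 6, 64, 437, 667075, 0, 0, 0, 0, 0, 0⟩)))
    (.s1
    (.leaf (.box ⟨122, 2, -2048, 8, 96, 274, 286522, 0, 0, 0, 0, 0, 0⟩ ⟨0, 0, 0, 0, 0, 0, 355927, 0, 0, 0, 0, 0, 0⟩ ⟨0, 0, 0, 0, 0, 0, 355927, 0, 0, 0, 0, 0, 0⟩ ⟨0, 0, 0, 0, 0, 0, 469705, 0, 0, 0, 0, 0, 0⟩ ⟨0, 0, 0, 0, 0, 0, 469705, 0, 0, 0, 0, 0, 0⟩ ⟨207, 2, -3442, 6, 68, 465, 690401, 0, 0, 0, 0, 0, 0⟩))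
    (.leaf (.box ⟨129, 2, -2048, 9, 99, 286, 281301, 0, 0, 0, 0, 0, 0⟩ ⟨0, 0, 0, 0, 0, 0, 349575, 0, 0, 0, 0, 0, 0⟩ ⟨0, 0, 0, 0, 0, 0, 349575, 0, 0, 0, 0, 0, 0⟩ ⟨0, 0, 0, 0, 0, 0, 461609, 0, 0, 0, 0, 0, 0⟩ ⟨0, 0, 0, 0, 0, 0, 461609, 0, 0, 0, 0, 0, 0⟩ ⟨211, 2, -3236, 6, 66, 458, 679324, 0, 0, 0, 0, 0, 0⟩))))
    (.s2
    (.s1
    (.s3
    (.leaf (.box ⟨91, 2, -2079, 6, 105, 286, 284109, 0, 0, 0, 0, 0, 0⟩ ⟨119, 2, -2648, 6, 107, 365, 355834, 0, 0, 0, 0, 0, 0⟩ ⟨119, 2, -2648, 6, 107, 365, 355834, 0, 0, 0, 0, 0, 0⟩ ⟨159, 2, -3494, 6, 107, 482, 472956, 0, 0, 0, 0, 0, 0⟩ ⟨159, 2, -3494, 6, 107, 482, 472956, 0, 0, 0, 0, 0, 0⟩ ⟨225, 2, -4986, 6, 105, 690, 692139, 0, 0, 0, 0,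 0, 0⟩))
    (.leaf (.box ⟨96, 2, -2141, 6, 105, 295, 293060, 0, 0, 0, 0, 0, 0⟩ ⟨0, 0, 0, 0, 0, 0, 363983, 0, 0, 0, 0, 0, 0⟩ ⟨0, 0, 0, 0, 0, 0, 363983, 0, 0, 0, 0, 0, 0⟩ ⟨0, 0, 0, 0, 0, 0, 480194, 0, 0, 0, 0, 0, 0⟩ ⟨0, 0, 0, 0, 0, 0, 480194, 0, 0, 0, 0, 0, 0⟩ ⟨243, 2, -5459, 6, 113, 757, 705414, 0, 0, 0, 0, 0, 0⟩)))
    (.s3
    (.leaf (.box ⟨97, 2, -2086, 6, 109, 299, 278797, 0, 0, 0, 0, 0, 0⟩ ⟨0, 0, 0, 0, 0, 0, 347161, 0, 0, 0, 0, 0, 0⟩ ⟨0, 0, 0, 0, 0, 0, 347161, 0, 0, 0, 0, 0, 0⟩ ⟨0, 0, 0, 0, 0, 0, 459944, 0, 0, 0, 0, 0, 0⟩ ⟨0, 0, 0, 0, 0, 0, 459944, 0, 0, 0, 0, 0, 0⟩ ⟨232, 2, -4886, 6, 106, 708, 681269, 0, 0, 0, 0, 0, 0⟩))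
    (.leaf (.box ⟨96, 2, -2048, 7, 105, 294, 287534, 0, 0, 0, 0, 0, 0⟩ ⟨0, 0, 0, 0, 0, 0, 357261, 0, 0, 0, 0, 0, 0⟩ ⟨0, 0, 0, 0, 0, 0, 357261, 0, 0, 0, 0, 0, 0⟩ ⟨0, 0, 0, 0, 0, 0, 471632, 0, 0, 0, 0, 0, 0⟩ ⟨0, 0, 0, 0, 0, 0, 471632, 0, 0, 0, 0, 0, 0⟩ ⟨237, 2, -4975, 6, 107, 723, 693709, 0, 0, 0, 0, 0, 0⟩))))
    (.leaf (.box ⟨168, 3, -2048, 13, 105, 285, 280872, 0, 0, 0, 0, 0, 0⟩ ⟨0, 0, 0, 0, 0, 0, 349933, 0, 0, 0, 0, 0, 0⟩ ⟨0, 0, 0, 0, 0, 0, 349933, 0, 0, 0, 0, 0, 0⟩ ⟨0, 0, 0, 0, 0, 0, 464026, 0, 0, 0, 0, 0, 0⟩ ⟨0, 0, 0, 0, 0, 0, 464026, 0, 0, 0, 0, 0, 0⟩ ⟨260, 2, -3967, 6, 78, 546, 688510, 0, 0, 0, 0, 0, 0⟩))))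
    (.s2
    (.s3
    (.s1
    (.leaf (.box ⟨99, 2, -2048, 7, 106, 287, 290950, 0, 0, 0, 0, 0, 0⟩ ⟨0, 0, 0, 0, 0, 0, 362077, 0, 0, 0, 0, 0, 0⟩ ⟨0, 0, 0, 0, 0, 0, 362077, 0, 0, 0, 0, 0, 0⟩ ⟨0, 0, 0, 0, 0, 0, 479231, 0, 0, 0, 0, 0, 0⟩ ⟨0, 0, 0, 0, 0, 0, 479231, 0, 0, 0, 0, 0, 0⟩ ⟨201, 2, -4242, 6, 91, 597, 708463, 0, 0, 0, 0, 0, 0⟩))
    (.leaf (.box ⟨132, 2, -2048, 8, 111, 302, 285182, 0, 0, 0, 0, 0, 0⟩ ⟨0, 0, 0, 0, 0, 0, 355049, 0, 0, 0, 0, 0, 0⟩ ⟨0, 0, 0, 0, 0, 0, 355049, 0, 0, 0, 0, 0, 0⟩ ⟨0, 0, 0, 0, 0, 0, 470258, 0, 0, 0, 0, 0, 0⟩ ⟨0, 0, 0, 0, 0, 0, 470258, 0, 0, 0, 0, 0, 0⟩ ⟨197, 2, -3952, 6, 88, 581, 696148, 0, 0, 0, 0, 0, 0⟩)))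
    (.s1
    (.leaf (.box ⟨97, 2, -2048, 7, 103, 287, 299917, 0, 0, 0, 0, 0, 0⟩ ⟨0, 0, 0, 0, 0, 0, 372431, 0, 0, 0, 0, 0, 0⟩ ⟨0, 0, 0, 0, 0, 0, 372431, 0, 0, 0, 0, 0, 0⟩ ⟨0, 0, 0, 0, 0, 0, 491189, 0, 0, 0, 0, 0, 0⟩ ⟨0, 0, 0, 0, 0, 0, 491189, 0, 0, 0, 0, 0, 0⟩ ⟨227, 2, -4655, 6, 98, 656, 721142, 0, 0, 0, 0, 0, 0⟩))
    (.leaf (.box ⟨135, 2, -2048, 8, 108, 303, 294075, 0, 0, 0, 0, 0, 0⟩ ⟨0, 0, 0, 0, 0, 0, 365326, 0, 0, 0, 0, 0, 0⟩ ⟨0, 0, 0, 0, 0, 0, 365326, 0, 0, 0, 0, 0, 0⟩ ⟨0, 0, 0, 0, 0, 0, 482143, 0, 0, 0, 0, 0, 0⟩ ⟨0, 0, 0, 0, 0, 0, 482143, 0, 0, 0, 0, 0, 0⟩ ⟨214, 2, -4196, 6, 92, 618, 708785, 0, 0, 0, 0, 0, 0⟩))))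
    (.s1
    (.leaf (.box ⟨96, 2, -2048, 7, 97, 279, 292539, 0, 0, 0, 0, 0, 0⟩ ⟨0, 0, 0, 0, 0, 0, 364257, 0, 0, 0, 0, 0, 0⟩ ⟨0, 0, 0, 0, 0, 0, 364257, 0, 0, 0, 0, 0, 0⟩ ⟨0, 0, 0, 0, 0, 0, 482560, 0, 0, 0, 0, 0, 0⟩ ⟨0, 0, 0, 0, 0, 0, 482560, 0, 0, 0, 0, 0, 0⟩ ⟨216, 2, -4636, 6, 91, 636, 714667, 0, 0, 0, 0, 0, 0⟩))
    (.leaf (.box ⟨99, 2, -2048, 7, 100, 290, 287568, 0, 0, 0, 0, 0, 0⟩ ⟨0, 0, 0, 0, 0, 0, 358221, 0, 0, 0, 0, 0, 0⟩ ⟨0, 0, 0, 0, 0, 0, 358221, 0, 0, 0, 0, 0, 0⟩ ⟨0, 0, 0, 0, 0, 0, 474898, 0, 0, 0, 0, 0, 0⟩ ⟨0, 0, 0, 0, 0, 0, 474898, 0, 0, 0, 0, 0, 0⟩ ⟨205, 2, -4162, 6, 84, 595, 704295, 0, 0, 0, 0, 0, 0⟩))))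

/-- A piece of the tree. -/
noncomputable def tree97 : Tree LeafX :=
  .s0
    (.s3
    (.s1
    (.s1
    (.leaf (.box ⟨107, 2, -2048, 8, 94, 274, 298911, 0, 0, 0, 0, 0, 0⟩ ⟨0, 0, 0, 0, 0, 0, 370387, 0, 0, 0, 0, 0, 0⟩ ⟨0, 0, 0, 0, 0, 0, 370387, 0, 0, 0, 0, 0, 0⟩ ⟨0, 0, 0, 0, 0, 0, 486786, 0, 0, 0, 0, 0, 0⟩ ⟨0, 0, 0, 0, 0, 0, 486786, 0, 0, 0, 0, 0, 0⟩ ⟨187, 2, -3546, 6, 69, 478, 709875, 0, 0, 0, 0, 0, 0⟩))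
    (.leaf (.box ⟨184, 3, -2048, 10, 99, 289, 295770, 0, 0, 0, 0, 0, 0⟩ ⟨0, 0, 0, 0, 0, 0, 366564, 0, 0, 0, 0, 0, 0⟩ ⟨0, 0, 0, 0, 0, 0, 366564, 0, 0, 0, 0, 0, 0⟩ ⟨0, 0, 0, 0, 0, 0, 481911, 0, 0, 0, 0, 0, 0⟩ ⟨0, 0, 0, 0, 0, 0, 481911, 0, 0, 0, 0, 0, 0⟩ ⟨170, 2, -3188, 6, 63, 439, 703181, 0, 0, 0, 0, 0, 0⟩)))
    (.leaf (.box ⟨162, 3, -2048, 10, 99, 292, 290477, 0, 0, 0, 0, 0, 0⟩ ⟨0, 0, 0, 0, 0, 0, 360137, 0, 0, 0, 0, 0, 0⟩ ⟨0, 0, 0, 0, 0, 0, 360137, 0, 0, 0, 0, 0, 0⟩ ⟨0, 0, 0, 0, 0, 0, 473745, 0, 0, 0, 0, 0, 0⟩ ⟨0, 0, 0, 0, 0, 0, 473745, 0, 0, 0, 0, 0, 0⟩ ⟨194, 2, -2798, 6, 57, 399, 692062, 0, 0, 0, 0, 0, 0⟩)))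
    (.s1
    (.s0
    (.leaf (.box ⟨119, 2, -2048, 8, 91, 276, 305676, 0, 0, 0, 0, 0, 0⟩ ⟨0, 0, 0, 0, 0, 0, 377902, 0, 0, 0, 0, 0, 0⟩ ⟨0, 0, 0, 0, 0, 0, 377902, 0, 0, 0, 0, 0, 0⟩ ⟨0, 0, 0, 0, 0, 0, 494817, 0, 0, 0, 0, 0, 0⟩ ⟨0, 0, 0, 0, 0, 0, 494817, 0, 0, 0, 0, 0, 0⟩ ⟨216, 2, -3587, 6, 69, 487, 716481, 0, 0, 0, 0, 0, 0⟩))
    (.leaf (.box ⟨118, 2, -2048, 8, 92, 279, 312553, 0, 0, 0, 0, 0, 0⟩ ⟨0, 0, 0, 0, 0, 0, 386338, 0, 0, 0, 0, 0, 0⟩ ⟨0, 0, 0, 0, 0, 0, 386338, 0, 0, 0, 0, 0, 0⟩ ⟨0, 0, 0, 0, 0, 0, 505725, 0, 0, 0, 0, 0, 0⟩ ⟨0, 0, 0, 0, 0, 0, 505725, 0, 0, 0, 0, 0, 0⟩ ⟨221, 2, -3722, 6, 72, 511, 731898, 0, 0, 0, 0, 0, 0⟩)))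
    (.leaf (.box ⟨153, 6, -2048, 25, 81, 291, 300305, 0, 0, 0, 0, 0, 0⟩ ⟨0, 0, 0, 0, 0, 0, 371393, 0, 0, 0, 0, 0, 0⟩ ⟨0, 0, 0, 0, 0, 0, 371393, 0, 0, 0, 0, 0, 0⟩ ⟨0, 0, 0, 0, 0, 0, 486575, 0, 0, 0, 0, 0, 0⟩ ⟨0, 0, 0, 0, 0, 0, 486575, 0, 0, 0, 0, 0, 0⟩ ⟨198, 2, -2855, 6, 57, 408, 705317, 0, 0, 0, 0, 0, 0⟩))))
    (.s2
    (.s3
    (.s1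
    (.leaf (.box ⟨100, 2, -2048, 7, 100, 288, 309499, 0, 0, 0, 0, 0, 0⟩ ⟨0, 0, 0, 0, 0, 0, 383443, 0, 0, 0, 0, 0, 0⟩ ⟨0, 0, 0, 0, 0, 0, 383443, 0, 0, 0, 0, 0, 0⟩ ⟨0, 0, 0, 0, 0, 0, 503811, 0, 0, 0, 0, 0, 0⟩ ⟨0, 0, 0, 0, 0, 0, 503811, 0, 0, 0, 0, 0, 0⟩ ⟨193, 2, -4030, 6, 84, 569, 734325, 0, 0, 0, 0, 0, 0⟩))
    (.leaf (.box ⟨104, 2, -2048, 7, 104, 300, 303579, 0, 0, 0, 0, 0, 0⟩ ⟨0, 0, 0, 0, 0, 0, 376258, 0, 0, 0, 0, 0, 0⟩ ⟨0, 0, 0, 0, 0, 0, 376258, 0, 0, 0, 0, 0, 0⟩ ⟨0, 0, 0, 0, 0, 0, 494690, 0, 0, 0, 0, 0, 0⟩ ⟨0, 0, 0, 0, 0, 0, 494690, 0, 0, 0, 0, 0, 0⟩ ⟨222, 2, -4220, 6, 91, 623, 721925, 0, 0, 0, 0, 0, 0⟩)))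
    (.s1
    (.leaf (.box ⟨102, 2, -2048, 7, 97, 288, 319763, 0, 0, 0, 0, 0, 0⟩ ⟨0, 0, 0, 0, 0, 0, 395182, 0, 0, 0, 0, 0, 0⟩ ⟨0, 0, 0, 0, 0, 0, 395182, 0, 0, 0, 0, 0, 0⟩ ⟨0, 0, 0, 0, 0, 0, 517157, 0, 0, 0, 0, 0, 0⟩ ⟨0, 0, 0, 0, 0, 0, 517157, 0, 0, 0, 0, 0, 0⟩ ⟨222, 2, -4494, 6, 92, 636, 748044, 0, 0, 0, 0, 0, 0⟩))
    (.leaf (.box ⟨107, 2, -2048, 7, 101, 301, 313758, 0, 0, 0, 0, 0, 0⟩ ⟨0, 0, 0, 0, 0, 0, 387909, 0, 0, 0, 0, 0, 0⟩ ⟨0, 0, 0, 0, 0, 0, 387909, 0, 0, 0, 0, 0, 0⟩ ⟨0, 0, 0, 0, 0, 0, 507955, 0, 0, 0, 0, 0, 0⟩ ⟨0, 0, 0, 0, 0, 0, 507955, 0, 0, 0, 0, 0, 0⟩ ⟨229, 2, -4432, 6, 94, 656, 735599, 0, 0, 0, 0, 0, 0⟩))))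
    (.s1
    (.leaf (.box ⟨97, 2, -2048, 6, 92, 280, 311428, 0, 0, 0, 0, 0, 0⟩ ⟨0, 0, 0, 0, 0, 0, 386038, 0, 0, 0, 0, 0, 0⟩ ⟨0, 0, 0, 0, 0, 0, 386038, 0, 0, 0, 0, 0, 0⟩ ⟨0, 0, 0, 0, 0, 0, 507659, 0, 0, 0, 0, 0, 0⟩ ⟨0, 0, 0, 0, 0, 0, 507659, 0, 0, 0, 0, 0, 0⟩ ⟨226, 2, -4797, 6, 91, 660, 741160, 0, 0, 0, 0, 0, 0⟩))
    (.leaf (.box ⟨102, 2, -2048, 7, 95, 291, 306367, 0, 0, 0, 0, 0, 0⟩ ⟨0, 0, 0, 0, 0, 0, 379916, 0, 0, 0, 0, 0, 0⟩ ⟨0, 0, 0, 0, 0, 0, 379916, 0, 0, 0, 0, 0, 0⟩ ⟨0, 0, 0, 0, 0, 0, 499933, 0, 0, 0, 0, 0, 0⟩ ⟨0, 0, 0, 0, 0, 0, 499933, 0, 0, 0, 0, 0, 0⟩ ⟨225, 2, -4511, 6, 88, 647, 730793, 0, 0, 0, 0, 0, 0⟩))))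

/-- A piece of the tree. -/
noncomputable def tree98 : Tree LeafX :=
  .s3
    (.s0
    (.s1
    (.s2
    (.leaf (.box ⟨153, 2, -2048, 8, 111, 300, 268504, 0, 0, 0, 0, 0, 0⟩ ⟨0, 0, 0, 0, 0, 0, 334551, 0, 0, 0, 0, 0, 0⟩ ⟨0, 0, 0, 0, 0, 0, 334551, 0, 0, 0, 0, 0, 0⟩ ⟨0, 0, 0, 0, 0, 0, 443690, 0, 0, 0, 0, 0, 0⟩ ⟨0, 0, 0, 0, 0, 0, 443690, 0, 0, 0, 0, 0, 0⟩ ⟨204, 1, -3396, 6, 78, 516, 658514, 0, 0, 0, 0, 0, 0⟩))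
    (.leaf (.box ⟨110, 1, -2048, 7, 102, 295, 271342, 0, 0, 0, 0, 0, 0⟩ ⟨0, 0, 0, 0, 0, 0, 338240, 0, 0, 0, 0, 0, 0⟩ ⟨0, 0, 0, 0, 0, 0, 338240, 0, 0, 0, 0, 0, 0⟩ ⟨0, 0, 0, 0, 0, 0, 448919, 0, 0, 0, 0, 0, 0⟩ ⟨0, 0, 0, 0, 0, 0, 448919, 0, 0, 0, 0, 0, 0⟩ ⟨225, 1, -4195, 6, 86, 615, 667257, 0, 0, 0, 0, 0, 0⟩)))
    (.leaf (.box ⟨161, 2, -2048, 12, 111, 315, 266066, 0, 0, 0, 0, 0, 0⟩ ⟨0, 0, 0, 0, 0, 0, 331632, 0, 0, 0, 0, 0, 0⟩ ⟨0, 0, 0, 0, 0, 0, 331632, 0, 0, 0, 0, 0, 0⟩ ⟨0, 0, 0, 0, 0, 0, 440077, 0, 0, 0, 0, 0, 0⟩ ⟨0, 0, 0, 0, 0, 0, 440077, 0, 0, 0, 0, 0, 0⟩ ⟨189, 1, -2397, 6, 54, 377, 653909, 0, 0, 0, 0, 0, 0⟩)))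
    (.s3
    (.s1
    (.leaf (.box ⟨137, 2, -2048, 11, 109, 307, 280784, 0, 0, 0, 0, 0, 0⟩ ⟨0, 0, 0, 0, 0, 0, 349718, 0, 0, 0, 0, 0, 0⟩ ⟨0, 0, 0, 0, 0, 0, 349718, 0, 0, 0, 0, 0, 0⟩ ⟨0, 0, 0, 0, 0, 0, 463511, 0, 0, 0, 0, 0, 0⟩ ⟨0, 0, 0, 0, 0, 0, 463511, 0, 0, 0, 0, 0, 0⟩ ⟨174, 1, -2545, 6, 56, 386, 687076, 0, 0, 0, 0, 0, 0⟩))
    (.leaf (.box ⟨144, 2, -2048, 12, 112, 321, 277794, 0, 0, 0, 0, 0, 0⟩ ⟨0, 0, 0, 0, 0, 0, 346133, 0, 0, 0, 0, 0, 0⟩ ⟨0, 0, 0, 0, 0, 0, 346133, 0, 0, 0, 0, 0, 0⟩ ⟨0, 0, 0, 0, 0, 0, 459064, 0, 0, 0, 0, 0, 0⟩ ⟨0, 0, 0, 0, 0, 0, 459064, 0, 0, 0, 0, 0, 0⟩ ⟨181, 1, -2366, 6, 54, 377, 681373, 0, 0, 0, 0, 0, 0⟩)))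
    (.s0
    (.leaf (.box ⟨186, 2, -2048, 12, 107, 313, 286653, 0, 0, 0, 0, 0, 0⟩ ⟨0, 0, 0, 0, 0, 0, 356387, 0, 0, 0, 0, 0, 0⟩ ⟨0, 0, 0, 0, 0, 0, 356387, 0, 0, 0, 0, 0, 0⟩ ⟨0, 0, 0, 0, 0, 0, 470954, 0, 0, 0, 0, 0, 0⟩ ⟨0, 0, 0, 0, 0, 0, 470954, 0, 0, 0, 0, 0, 0⟩ ⟨236, 1, -2352, 6, 52, 365, 694078, 0, 0, 0, 0, 0, 0⟩))
    (.leaf (.box ⟨181, 2, -2048, 12, 107, 316, 292974, 0, 0, 0, 0, 0, 0⟩ ⟨0, 0, 0, 0, 0, 0, 364192, 0, 0, 0, 0, 0, 0⟩ ⟨0, 0, 0, 0, 0, 0, 364192, 0, 0, 0, 0, 0, 0⟩ ⟨0, 0, 0, 0, 0, 0, 481151, 0, 0, 0, 0, 0, 0⟩ ⟨0, 0, 0, 0, 0, 0, 481151, 0, 0, 0, 0, 0, 0⟩ ⟨220, 1, -2327, 6, 51, 364, 708772, 0, 0, 0, 0, 0, 0⟩)))))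
    (.s0
    (.s1
    (.s2
    (.leaf (.box ⟨118, 2, -2048, 8, 107, 308, 286176, 0, 0, 0, 0, 0, 0⟩ ⟨0, 0, 0, 0, 0, 0, 354955, 0, 0, 0, 0, 0, 0⟩ ⟨0, 0, 0, 0, 0, 0, 354955, 0, 0, 0, 0, 0, 0⟩ ⟨0, 0, 0, 0, 0, 0, 467253, 0, 0, 0, 0, 0, 0⟩ ⟨0, 0, 0, 0, 0, 0, 467253, 0, 0, 0, 0, 0, 0⟩ ⟨206, 1, -3454, 6, 77, 528, 683490, 0, 0, 0, 0, 0, 0⟩))
    (.leaf (.box ⟨110, 1, -2048, 7, 96, 297, 289433, 0, 0, 0, 0, 0, 0⟩ ⟨0, 0, 0, 0, 0, 0, 359146, 0, 0, 0, 0, 0, 0⟩ ⟨0, 0, 0, 0, 0, 0, 359146, 0, 0, 0, 0, 0, 0⟩ ⟨0, 0, 0, 0, 0, 0, 473095, 0, 0, 0, 0, 0, 0⟩ ⟨0, 0, 0, 0, 0, 0, 473095, 0, 0, 0, 0, 0, 0⟩ ⟨225, 1, -3975, 6, 79, 585, 692954, 0, 0, 0, 0, 0, 0⟩)))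
    (.leaf (.box ⟨162, 2, -2048, 11, 106, 318, 283756, 0, 0, 0, 0, 0, 0⟩ ⟨0, 0, 0, 0, 0, 0, 352070, 0, 0, 0, 0, 0, 0⟩ ⟨0, 0, 0, 0, 0, 0, 352070, 0, 0, 0, 0, 0, 0⟩ ⟨0, 0, 0, 0, 0, 0, 463707, 0, 0, 0, 0, 0, 0⟩ ⟨0, 0, 0, 0, 0, 0, 463707, 0, 0, 0, 0, 0, 0⟩ ⟨202, 1, -2491, 6, 55, 394, 679011, 0, 0, 0, 0, 0, 0⟩)))
    (.s1
    (.s3
    (.leaf (.box ⟨141, 2, -2048, 10, 103, 308, 299105, 0, 0, 0, 0, 0, 0⟩ ⟨0, 0, 0, 0, 0, 0, 370856, 0, 0, 0, 0, 0, 0⟩ ⟨0, 0, 0, 0, 0, 0, 370856, 0, 0, 0, 0, 0, 0⟩ ⟨0, 0, 0, 0, 0, 0, 487894, 0, 0, 0, 0, 0, 0⟩ ⟨0, 0, 0, 0, 0, 0, 487894, 0, 0, 0, 0, 0, 0⟩ ⟨186, 1, -2650, 6, 57, 404, 712867, 0, 0, 0, 0, 0, 0⟩))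
    (.leaf (.box ⟨142, 2, -2048, 10, 100, 309, 309242, 0, 0, 0, 0, 0, 0⟩ ⟨0, 0, 0, 0, 0, 0, 382468, 0, 0, 0, 0, 0, 0⟩ ⟨0, 0, 0, 0, 0, 0, 382468, 0, 0, 0, 0, 0, 0⟩ ⟨0, 0, 0, 0, 0, 0, 501132, 0, 0, 0, 0, 0, 0⟩ ⟨0, 0, 0, 0, 0, 0, 501132, 0, 0, 0, 0, 0, 0⟩ ⟨190, 1, -2735, 6, 58, 418, 726548, 0, 0, 0, 0, 0, 0⟩)))
    (.leaf (.box ⟨157, 2, -2048, 11, 107, 323, 295753, 0, 0, 0, 0, 0, 0⟩ ⟨0, 0, 0, 0, 0, 0, 366862, 0, 0, 0, 0, 0, 0⟩ ⟨0, 0, 0, 0, 0, 0, 366862, 0, 0, 0, 0, 0, 0⟩ ⟨0, 0, 0, 0, 0, 0, 482988, 0, 0, 0, 0, 0, 0⟩ ⟨0, 0, 0, 0, 0, 0, 482988, 0, 0, 0, 0, 0, 0⟩ ⟨195, 1, -2584, 6, 58, 415, 706677, 0, 0, 0, 0, 0, 0⟩))))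

/-- A piece of the tree. -/
noncomputable def tree99 : Tree LeafX :=
  .s0
    (.s3
    (.s1
    (.s2
    (.leaf (.box ⟨133, 4, -2048, 12, 100, 286, 316311, 0, 0, 0, 0, 0, 0⟩ ⟨0, 0, 0, 0, 0, 0, 390009, 0, 0, 0, 0, 0, 0⟩ ⟨0, 0, 0, 0, 0, 0, 390009, 0, 0, 0, 0, 0, 0⟩ ⟨0, 0, 0, 0, 0, 0, 508481, 0, 0, 0, 0, 0, 0⟩ ⟨0, 0, 0, 0, 0, 0, 508481, 0, 0, 0, 0, 0, 0⟩ ⟨236, 2, -4578, 6, 91, 635, 730332, 0, 0, 0, 0, 0, 0⟩))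
    (.leaf (.box ⟨104, 2, -2048, 7, 86, 274, 318484, 0, 0, 0, 0, 0, 0⟩ ⟨0, 0, 0, 0, 0, 0, 392834, 0, 0, 0, 0, 0, 0⟩ ⟨0, 0, 0, 0, 0, 0, 392834, 0, 0, 0, 0, 0, 0⟩ ⟨0, 0, 0, 0, 0, 0, 512467, 0, 0, 0, 0, 0, 0⟩ ⟨0, 0, 0, 0, 0, 0, 512467, 0, 0, 0, 0, 0, 0⟩ ⟨224, 2, -4537, 6, 83, 611, 736876, 0, 0, 0, 0, 0, 0⟩)))
    (.leaf (.box ⟨141, 2, -2048, 9, 93, 290, 310857, 0, 0, 0, 0, 0, 0⟩ ⟨0, 0, 0, 0, 0, 0, 383416, 0, 0, 0, 0, 0, 0⟩ ⟨0, 0, 0, 0, 0, 0, 383416, 0, 0, 0, 0, 0, 0⟩ ⟨0, 0, 0, 0, 0, 0, 500160, 0, 0, 0, 0, 0, 0⟩ ⟨0, 0, 0, 0, 0, 0, 500160, 0, 0, 0, 0, 0, 0⟩ ⟨200, 2, -2854, 6, 57, 409, 719122, 0, 0, 0, 0, 0, 0⟩)))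
    (.s0
    (.leaf (.box ⟨177, 3, -2048, 10, 89, 283, 322216, 0, 0, 0, 0, 0, 0⟩ ⟨0, 0, 0, 0, 0, 0, 396285, 0, 0, 0, 0, 0, 0⟩ ⟨0, 0, 0, 0, 0, 0, 396285, 0, 0, 0, 0, 0, 0⟩ ⟨0, 0, 0, 0, 0, 0, 514570, 0, 0, 0, 0, 0, 0⟩ ⟨0, 0, 0, 0, 0, 0, 514570, 0, 0, 0, 0, 0, 0⟩ ⟨276, 2, -3043, 6, 58, 424, 733512, 0, 0, 0, 0, 0, 0⟩))
    (.s2
    (.s1
    (.leaf (.box ⟨114, 2, -2488, 6, 109, 345, 335027, 0, 0, 0, 0, 0, 0⟩ ⟨0, 0, 0, 0, 0, 0, 411841, 0, 0, 0, 0, 0, 0⟩ ⟨0, 0, 0, 0, 0, 0, 411841, 0, 0, 0, 0, 0, 0⟩ ⟨0, 0, 0, 0, 0, 0, 534355, 0, 0, 0, 0, 0, 0⟩ ⟨0, 0, 0, 0, 0, 0, 534355, 0, 0, 0, 0, 0, 0⟩ ⟨262, 2, -5680, 6, 111, 794, 760625, 0, 0, 0, 0, 0, 0⟩))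
    (.leaf (.box ⟨108, 2, -2092, 6, 95, 304, 329165, 0, 0, 0, 0, 0, 0⟩ ⟨0, 0, 0, 0, 0, 0, 404773, 0, 0, 0, 0, 0, 0⟩ ⟨0, 0, 0, 0, 0, 0, 404773, 0, 0, 0, 0, 0, 0⟩ ⟨0, 0, 0, 0, 0, 0, 525472, 0, 0, 0, 0, 0, 0⟩ ⟨0, 0, 0, 0, 0, 0, 525472, 0, 0, 0, 0, 0, 0⟩ ⟨225, 2, -4441, 6, 90, 651, 748737, 0, 0, 0, 0, 0, 0⟩)))
    (.leaf (.box ⟨131, 2, -2048, 6, 84, 282, 332729, 0, 0, 0, 0, 0, 0⟩ ⟨0, 0, 0, 0, 0, 0, 409315, 0, 0, 0, 0, 0, 0⟩ ⟨0, 0, 0, 0, 0, 0, 409315, 0, 0, 0, 0, 0, 0⟩ ⟨0, 0, 0, 0, 0, 0, 531698, 0, 0, 0, 0, 0, 0⟩ ⟨0, 0, 0, 0, 0, 0, 531698, 0, 0, 0, 0, 0, 0⟩ ⟨275, 2, -4117, 6, 75, 571, 758480, 0, 0, 0, 0, 0, 0⟩)))))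
    (.s1
    (.s3
    (.leaf (.box ⟨125, 4, -2048, 13, 96, 285, 330782, 0, 0, 0, 0, 0, 0⟩ ⟨0, 0, 0, 0, 0, 0, 407718, 0, 0, 0, 0, 0, 0⟩ ⟨0, 0, 0, 0, 0, 0, 407718, 0, 0, 0, 0, 0, 0⟩ ⟨0, 0, 0, 0, 0, 0, 531288, 0, 0, 0, 0, 0, 0⟩ ⟨0, 0, 0, 0, 0, 0, 531288, 0, 0, 0, 0, 0, 0⟩ ⟨197, 2, -3215, 6, 62, 449, 762333, 0, 0, 0, 0, 0, 0⟩))
    (.s2
    (.leaf (.box ⟨101, 2, -2052, 6, 92, 290, 342644, 0, 0, 0, 0, 0, 0⟩ ⟨0, 0, 0, 0, 0, 0, 421137, 0, 0, 0, 0, 0, 0⟩ ⟨0, 0, 0, 0, 0, 0, 421137, 0, 0, 0, 0, 0, 0⟩ ⟨0, 0, 0, 0, 0, 0, 546276, 0, 0, 0, 0, 0, 0⟩ ⟨0, 0, 0, 0, 0, 0, 546276, 0, 0, 0, 0, 0, 0⟩ ⟨226, 2, -4500, 6, 89, 639, 777226, 0, 0, 0, 0, 0, 0⟩))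
    (.leaf (.box ⟨109, 2, -2323, 6, 95, 319, 345840, 0, 0, 0, 0, 0, 0⟩ ⟨0, 0, 0, 0, 0, 0, 425229, 0, 0, 0, 0, 0, 0⟩ ⟨0, 0, 0, 0, 0, 0, 425229, 0, 0, 0, 0, 0, 0⟩ ⟨0, 0, 0, 0, 0, 0, 551924, 0, 0, 0, 0, 0, 0⟩ ⟨0, 0, 0, 0, 0, 0, 551924, 0, 0, 0, 0, 0, 0⟩ ⟨245, 2, -5092, 6, 92, 703, 786157, 0, 0, 0, 0, 0, 0⟩))))
    (.s2
    (.s3
    (.leaf (.box ⟨110, 2, -2048, 7, 98, 301, 324687, 0, 0, 0, 0, 0, 0⟩ ⟨0, 0, 0, 0, 0, 0, 400353, 0, 0, 0, 0, 0, 0⟩ ⟨0, 0, 0, 0, 0, 0, 400353, 0, 0, 0, 0, 0, 0⟩ ⟨0, 0, 0, 0, 0, 0, 522001, 0, 0, 0, 0, 0, 0⟩ ⟨0, 0, 0, 0, 0, 0, 522001, 0, 0, 0, 0, 0, 0⟩ ⟨239, 2, -4586, 6, 96, 680, 749841, 0, 0, 0, 0, 0, 0⟩))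
    (.leaf (.box ⟨106, 2, -2048, 6, 95, 302, 336452, 0, 0, 0, 0, 0, 0⟩ ⟨0, 0, 0, 0, 0, 0, 413673, 0, 0, 0, 0, 0, 0⟩ ⟨0, 0, 0, 0, 0, 0, 413673, 0, 0, 0, 0, 0, 0⟩ ⟨0, 0, 0, 0, 0, 0, 536899, 0, 0, 0, 0, 0, 0⟩ ⟨0, 0, 0, 0, 0, 0, 536899, 0, 0, 0, 0, 0, 0⟩ ⟨231, 2, -4390, 6, 91, 653, 764685, 0, 0, 0, 0, 0, 0⟩)))
    (.leaf (.box ⟨106, 2, -2048, 6, 89, 293, 327936, 0, 0, 0, 0, 0, 0⟩ ⟨0, 0, 0, 0, 0, 0, 404563, 0, 0, 0, 0, 0, 0⟩ ⟨0, 0, 0, 0, 0, 0, 404563, 0, 0, 0, 0, 0, 0⟩ ⟨0, 0, 0, 0, 0, 0, 527917, 0, 0, 0, 0, 0, 0⟩ ⟨0, 0, 0, 0, 0, 0, 527917, 0, 0, 0, 0, 0, 0⟩ ⟨229, 2, -4436, 6, 84, 639, 759490, 0, 0, 0, 0, 0, 0⟩))))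

/-- A piece of the tree. -/
noncomputable def tree100 : Tree LeafX :=
  .s0
    (.s3
    (.s0
    (.leaf (.box ⟨182, 4, -2048, 14, 80, 283, 334478, 0, 0, 0, 0, 0, 0⟩ ⟨0, 0, 0, 0, 0, 0, 410093, 0, 0, 0, 0, 0, 0⟩ ⟨0, 0, 0, 0, 0, 0, 410093, 0, 0, 0, 0, 0, 0⟩ ⟨0, 0, 0, 0, 0, 0, 529881, 0, 0, 0, 0, 0, 0⟩ ⟨0, 0, 0, 0, 0, 0, 529881, 0, 0, 0, 0, 0, 0⟩ ⟨254, 2, -2785, 6, 52, 389, 748524, 0, 0, 0, 0, 0, 0⟩))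
    (.s1
    (.leaf (.box ⟨120, 2, -2048, 7, 84, 281, 347605, 0, 0, 0, 0, 0, 0⟩ ⟨0, 0, 0, 0, 0, 0, 425989, 0, 0, 0, 0, 0, 0⟩ ⟨0, 0, 0, 0, 0, 0, 425989, 0, 0, 0, 0, 0, 0⟩ ⟨0, 0, 0, 0, 0, 0, 550014, 0, 0, 0, 0, 0, 0⟩ ⟨0, 0, 0, 0, 0, 0, 550014, 0, 0, 0, 0, 0, 0⟩ ⟨226, 2, -3665, 6, 68, 505, 775921, 0, 0, 0, 0, 0, 0⟩))
    (.leaf (.box ⟨134, 2, -2048, 8, 86, 293, 341642, 0, 0, 0, 0, 0, 0⟩ ⟨0, 0, 0, 0, 0, 0, 418819, 0, 0, 0, 0, 0, 0⟩ ⟨0, 0, 0, 0, 0, 0, 418819, 0, 0, 0, 0, 0, 0⟩ ⟨0, 0, 0, 0, 0, 0, 541038, 0, 0, 0, 0, 0, 0⟩ ⟨0, 0, 0, 0, 0, 0, 541038, 0, 0, 0, 0, 0, 0⟩ ⟨229, 2, -3424, 6, 65, 495, 763983, 0, 0, 0, 0, 0, 0⟩))))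
    (.s0
    (.leaf (.box ⟨191, 3, -2048, 9, 82, 284, 347671, 0, 0, 0, 0, 0, 0⟩ ⟨185, 2, -2048, 7, 67, 285, 427976, 0, 0, 0, 0, 0, 0⟩ ⟨185, 2, -2048, 7, 67, 285, 427976, 0, 0, 0, 0, 0, 0⟩ ⟨195, 2, -2155, 6, 55, 301, 550958, 0, 0, 0, 0, 0, 0⟩ ⟨195, 2, -2155, 6, 55, 301, 550958, 0, 0, 0, 0, 0, 0⟩ ⟨268, 2, -2799, 6, 52, 392, 763820, 0, 0, 0, 0, 0, 0⟩))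
    (.s1
    (.leaf (.box ⟨125, 2, -2048, 7, 81, 281, 361225, 0, 0, 0, 0, 0, 0⟩ ⟨0, 0, 0, 0, 0, 0, 441209, 0, 0, 0, 0, 0, 0⟩ ⟨0, 0, 0, 0, 0, 0, 441209, 0, 0, 0, 0, 0, 0⟩ ⟨0, 0, 0, 0, 0, 0, 566685, 0, 0, 0, 0, 0, 0⟩ ⟨0, 0, 0, 0, 0, 0, 566685, 0, 0, 0, 0, 0, 0⟩ ⟨248, 2, -3876, 6, 70, 535, 791894, 0, 0, 0, 0, 0, 0⟩))
    (.leaf (.box ⟨139, 2, -2048, 8, 84, 294, 355153, 0, 0, 0, 0, 0, 0⟩ ⟨0, 0, 0, 0, 0, 0, 433929, 0, 0, 0, 0, 0, 0⟩ ⟨0, 0, 0, 0, 0, 0, 433929, 0, 0, 0, 0, 0, 0⟩ ⟨0, 0, 0, 0, 0, 0, 557610, 0, 0, 0, 0, 0, 0⟩ ⟨0, 0, 0, 0, 0, 0, 557610, 0, 0, 0, 0, 0, 0⟩ ⟨231, 2, -3418, 6, 64, 495, 779903, 0, 0, 0, 0, 0, 0⟩)))))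
    (.s2
    (.s3
    (.s1
    (.leaf (.box ⟨108, 2, -2192, 6, 95, 310, 355450, 0, 0, 0, 0, 0, 0⟩ ⟨0, 0, 0, 0, 0, 0, 435536, 0, 0, 0, 0, 0, 0⟩ ⟨0, 0, 0, 0, 0, 0, 435536, 0, 0, 0, 0, 0, 0⟩ ⟨0, 0, 0, 0, 0, 0, 562203, 0, 0, 0, 0, 0, 0⟩ ⟨0, 0, 0, 0, 0, 0, 562203, 0, 0, 0, 0, 0, 0⟩ ⟨240, 2, -4805, 6, 94, 683, 792764, 0, 0, 0, 0, 0, 0⟩))
    (.leaf (.box ⟨114, 2, -2048, 6, 92, 303, 349153, 0, 0, 0, 0, 0, 0⟩ ⟨0, 0, 0, 0, 0, 0, 427966, 0, 0, 0, 0, 0, 0⟩ ⟨0, 0, 0, 0, 0, 0, 427966, 0, 0, 0, 0, 0, 0⟩ ⟨0, 0, 0, 0, 0, 0, 552730, 0, 0, 0, 0, 0, 0⟩ ⟨0, 0, 0, 0, 0, 0, 552730, 0, 0, 0, 0, 0, 0⟩ ⟨248, 2, -4671, 6, 95, 696, 780172, 0, 0, 0, 0, 0, 0⟩)))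
    (.s1
    (.leaf (.box ⟨121, 2, -2360, 6, 99, 335, 369317, 0, 0, 0, 0, 0, 0⟩ ⟨0, 0, 0, 0, 0, 0, 451026, 0, 0, 0, 0, 0, 0⟩ ⟨0, 0, 0, 0, 0, 0, 451026, 0, 0, 0, 0, 0, 0⟩ ⟨0, 0, 0, 0, 0, 0, 579160, 0, 0, 0, 0, 0, 0⟩ ⟨0, 0, 0, 0, 0, 0, 579160, 0, 0, 0, 0, 0, 0⟩ ⟨233, 2, -4573, 6, 88, 651, 808990, 0, 0, 0, 0, 0, 0⟩))
    (.leaf (.box ⟨114, 2, -2136, 6, 93, 317, 362906, 0, 0, 0, 0, 0, 0⟩ ⟨0, 0, 0, 0, 0, 0, 443341, 0, 0, 0, 0, 0, 0⟩ ⟨0, 0, 0, 0, 0, 0, 443341, 0, 0, 0, 0, 0, 0⟩ ⟨0, 0, 0, 0, 0, 0, 569584, 0, 0, 0, 0, 0, 0⟩ ⟨0, 0, 0, 0, 0, 0, 569584, 0, 0, 0, 0, 0, 0⟩ ⟨257, 2, -4843, 6, 97, 723, 796345, 0, 0, 0, 0, 0, 0⟩))))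
    (.s1
    (.leaf (.box ⟨104, 2, -2186, 6, 87, 301, 358220, 0, 0, 0, 0, 0, 0⟩ ⟨0, 0, 0, 0, 0, 0, 439139, 0, 0, 0, 0, 0, 0⟩ ⟨0, 0, 0, 0, 0, 0, 439139, 0, 0, 0, 0, 0, 0⟩ ⟨0, 0, 0, 0, 0, 0, 567282, 0, 0, 0, 0, 0, 0⟩ ⟨0, 0, 0, 0, 0, 0, 567282, 0, 0, 0, 0, 0, 0⟩ ⟨224, 2, -4702, 6, 84, 650, 801025, 0, 0, 0, 0, 0, 0⟩))
    (.leaf (.box ⟨112, 2, -2231, 6, 91, 320, 352936, 0, 0, 0, 0, 0, 0⟩ ⟨0, 0, 0, 0, 0, 0, 432807, 0, 0, 0, 0, 0, 0⟩ ⟨0, 0, 0, 0, 0, 0, 432807, 0, 0, 0, 0, 0, 0⟩ ⟨0, 0, 0, 0, 0, 0, 559402, 0, 0, 0, 0, 0, 0⟩ ⟨0, 0, 0, 0, 0, 0, 559402, 0, 0, 0, 0, 0, 0⟩ ⟨237, 2, -4652, 6, 86, 672, 790671, 0, 0, 0, 0, 0, 0⟩))))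

/-- A piece of the tree. -/
noncomputable def tree101 : Tree LeafX :=
  .s3
    (.s0
    (.s3
    (.s2
    (.leaf (.box ⟨175, 2, -2048, 9, 103, 318, 304357, 0, 0, 0, 0, 0, 0⟩ ⟨0, 0, 0, 0, 0, 0, 375645, 0, 0, 0, 0, 0, 0⟩ ⟨0, 0, 0, 0, 0, 0, 375645, 0, 0, 0, 0, 0, 0⟩ ⟨0, 0, 0, 0, 0, 0, 490539, 0, 0, 0, 0, 0, 0⟩ ⟨0, 0, 0, 0, 0, 0, 490539, 0, 0, 0, 0, 0, 0⟩ ⟨281, 1, -3191, 6, 71, 503, 706687, 0, 0, 0, 0, 0, 0⟩))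
    (.leaf (.box ⟨168, 1, -2048, 9, 92, 306, 308737, 0, 0, 0, 0, 0, 0⟩ ⟨0, 0, 0, 0, 0, 0, 381215, 0, 0, 0, 0, 0, 0⟩ ⟨0, 0, 0, 0, 0, 0, 381215, 0, 0, 0, 0, 0, 0⟩ ⟨0, 0, 0, 0, 0, 0, 498162, 0, 0, 0, 0, 0, 0⟩ ⟨0, 0, 0, 0, 0, 0, 498162, 0, 0, 0, 0, 0, 0⟩ ⟨277, 1, -3411, 6, 67, 517, 718613, 0, 0, 0, 0, 0, 0⟩)))
    (.leaf (.box ⟨211, 2, -2048, 13, 98, 313, 315681, 0, 0, 0, 0, 0, 0⟩ ⟨0, 0, 0, 0, 0, 0, 388492, 0, 0, 0, 0, 0, 0⟩ ⟨0, 0, 0, 0, 0, 0, 388492, 0, 0, 0, 0, 0, 0⟩ ⟨0, 0, 0, 0, 0, 0, 504958, 0, 0, 0, 0, 0, 0⟩ ⟨0, 0, 0, 0, 0, 0, 504958, 0, 0, 0, 0, 0, 0⟩ ⟨233, 1, -2209, 6, 46, 343, 721153, 0, 0, 0, 0, 0, 0⟩)))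
    (.s1
    (.s3
    (.leaf (.box ⟨143, 2, -2048, 10, 97, 310, 320125, 0, 0, 0, 0, 0, 0⟩ ⟨0, 0, 0, 0, 0, 0, 394869, 0, 0, 0, 0, 0, 0⟩ ⟨0, 0, 0, 0, 0, 0, 394869, 0, 0, 0, 0, 0, 0⟩ ⟨0, 0, 0, 0, 0, 0, 515148, 0, 0, 0, 0, 0, 0⟩ ⟨0, 0, 0, 0, 0, 0, 515148, 0, 0, 0, 0, 0, 0⟩ ⟨193, 1, -2696, 6, 56, 413, 740797, 0, 0, 0, 0, 0, 0⟩))
    (.leaf (.box ⟨144, 2, -2048, 10, 94, 311, 331841, 0, 0, 0, 0, 0, 0⟩ ⟨0, 0, 0, 0, 0, 0, 408145, 0, 0, 0, 0, 0, 0⟩ ⟨0, 0, 0, 0, 0, 0, 408145, 0, 0, 0, 0, 0, 0⟩ ⟨0, 0, 0, 0, 0, 0, 530015, 0, 0, 0, 0, 0, 0⟩ ⟨0, 0, 0, 0, 0, 0, 530015, 0, 0, 0, 0, 0, 0⟩ ⟨187, 1, -2564, 6, 53, 394, 755650, 0, 0, 0, 0, 0, 0⟩)))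
    (.leaf (.box ⟨157, 2, -2048, 11, 101, 326, 316754, 0, 0, 0, 0, 0, 0⟩ ⟨0, 0, 0, 0, 0, 0, 390874, 0, 0, 0, 0, 0, 0⟩ ⟨0, 0, 0, 0, 0, 0, 390874, 0, 0, 0, 0, 0, 0⟩ ⟨0, 0, 0, 0, 0, 0, 510277, 0, 0, 0, 0, 0, 0⟩ ⟨0, 0, 0, 0, 0, 0, 510277, 0, 0, 0, 0, 0, 0⟩ ⟨185, 1, -2401, 6, 52, 388, 734717, 0, 0, 0, 0, 0, 0⟩))))
    (.s0
    (.s3
    (.leaf (.box ⟨221, 2, -2048, 12, 92, 314, 327907, 0, 0, 0, 0, 0, 0⟩ ⟨0, 0, 0, 0, 0, 0, 402278, 0, 0, 0, 0, 0, 0⟩ ⟨0, 0, 0, 0, 0, 0, 402278, 0, 0, 0, 0, 0, 0⟩ ⟨0, 0, 0, 0, 0, 0, 520280, 0, 0, 0, 0, 0, 0⟩ ⟨0, 0, 0, 0, 0, 0, 520280, 0, 0, 0, 0, 0, 0⟩ ⟨238, 1, -2144, 6, 44, 334, 736246, 0, 0, 0, 0, 0, 0⟩))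
    (.leaf (.box ⟨218, 2, -2048, 11, 89, 315, 341144, 0, 0, 0, 0, 0, 0⟩ ⟨0, 0, 0, 0, 0, 0, 417107, 0, 0, 0, 0, 0, 0⟩ ⟨0, 0, 0, 0, 0, 0, 417107, 0, 0, 0, 0, 0, 0⟩ ⟨0, 0, 0, 0, 0, 0, 536590, 0, 0, 0, 0, 0, 0⟩ ⟨0, 0, 0, 0, 0, 0, 536590, 0, 0, 0, 0, 0, 0⟩ ⟨263, 1, -2381, 6, 48, 372, 752006, 0, 0, 0, 0, 0, 0⟩)))
    (.s1
    (.s2
    (.leaf (.box ⟨117, 2, -2048, 7, 96, 318, 343941, 0, 0, 0, 0, 0, 0⟩ ⟨0, 0, 0, 0, 0, 0, 421754, 0, 0, 0, 0, 0, 0⟩ ⟨0, 0, 0, 0, 0, 0, 421754, 0, 0, 0, 0, 0, 0⟩ ⟨0, 0, 0, 0, 0, 0, 545068, 0, 0, 0, 0, 0, 0⟩ ⟨0, 0, 0, 0, 0, 0, 545068, 0, 0, 0, 0, 0, 0⟩ ⟨227, 2, -3879, 6, 83, 609, 770289, 0, 0, 0, 0, 0, 0⟩))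
    (.leaf (.box ⟨114, 1, -2116, 6, 89, 317, 349304, 0, 0, 0, 0, 0, 0⟩ ⟨0, 0, 0, 0, 0, 0, 428494, 0, 0, 0, 0, 0, 0⟩ ⟨0, 0, 0, 0, 0, 0, 428494, 0, 0, 0, 0, 0, 0⟩ ⟨0, 0, 0, 0, 0, 0, 554117, 0, 0, 0, 0, 0, 0⟩ ⟨0, 0, 0, 0, 0, 0, 554117, 0, 0, 0, 0, 0, 0⟩ ⟨244, 1, -4563, 6, 87, 691, 783947, 0, 0, 0, 0, 0, 0⟩)))
    (.leaf (.box ⟨164, 2, -2048, 10, 95, 328, 341094, 0, 0, 0, 0, 0, 0⟩ ⟨0, 0, 0, 0, 0, 0, 418390, 0, 0, 0, 0, 0, 0⟩ ⟨0, 0, 0, 0, 0, 0, 418390, 0, 0, 0, 0, 0, 0⟩ ⟨0, 0, 0, 0, 0, 0, 540981, 0, 0, 0, 0, 0, 0⟩ ⟨0, 0, 0, 0, 0, 0, 540981, 0, 0, 0, 0, 0, 0⟩ ⟨213, 1, -2552, 6, 54, 415, 765185, 0, 0, 0, 0, 0, 0⟩))))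

/-- A piece of the tree. -/
noncomputable def tree102 : Tree LeafX :=
  .s1
    (.s3
    (.s0
    (.s1
    (.leaf (.box ⟨124, 3, -2048, 10, 103, 291, 304529, 0, 0, 0, 0, 0, 0⟩ ⟨0, 0, 0, 0, 0, 0, 378876, 0, 0, 0, 0, 0, 0⟩ ⟨0, 0, 0, 0, 0, 0, 378876, 0, 0, 0, 0, 0, 0⟩ ⟨0, 0, 0, 0, 0, 0, 501247, 0, 0, 0, 0, 0, 0⟩ ⟨0, 0, 0, 0, 0, 0, 501247, 0, 0, 0, 0, 0, 0⟩ ⟨175, 2, -3031, 6, 63, 431, 740379, 0, 0, 0, 0, 0, 0⟩))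
    (.s3
    (.leaf (.box ⟨123, 3, -2048, 10, 106, 301, 298896, 0, 0, 0, 0, 0, 0⟩ ⟨0, 0, 0, 0, 0, 0, 371986, 0, 0, 0, 0, 0, 0⟩ ⟨0, 0, 0, 0, 0, 0, 371986, 0, 0, 0, 0, 0, 0⟩ ⟨0, 0, 0, 0, 0, 0, 492392, 0, 0, 0, 0, 0, 0⟩ ⟨0, 0, 0, 0, 0, 0, 492392, 0, 0, 0, 0, 0, 0⟩ ⟨181, 2, -3005, 6, 64, 445, 728049, 0, 0, 0, 0, 0, 0⟩))
    (.leaf (.box ⟨124, 3, -2048, 10, 103, 302, 308122, 0, 0, 0, 0, 0, 0⟩ ⟨0, 0, 0, 0, 0, 0, 382640, 0, 0, 0, 0, 0, 0⟩ ⟨0, 0, 0, 0, 0, 0, 382640, 0, 0, 0, 0, 0, 0⟩ ⟨0, 0, 0, 0, 0, 0, 504699, 0, 0, 0, 0, 0, 0⟩ ⟨0, 0, 0, 0, 0, 0, 504699, 0, 0, 0, 0, 0, 0⟩ ⟨181, 2, -2949, 6, 62, 437, 741103, 0, 0, 0, 0, 0, 0⟩))))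
    (.leaf (.box ⟨152, 5, -2048, 16, 111, 304, 313140, 0, 0, 0, 0, 0, 0⟩ ⟨0, 0, 0, 0, 0, 0, 389614, 0, 0, 0, 0, 0, 0⟩ ⟨0, 0, 0, 0, 0, 0, 389614, 0, 0, 0, 0, 0, 0⟩ ⟨0, 0, 0, 0, 0, 0, 515507, 0, 0, 0, 0, 0, 0⟩ ⟨0, 0, 0, 0, 0, 0, 515507, 0, 0, 0, 0, 0, 0⟩ ⟨197, 2, -2483, 6, 53, 368, 761598, 0, 0, 0, 0, 0, 0⟩)))
    (.s2
    (.s0
    (.s1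
    (.leaf (.box ⟨99, 3, -2048, 7, 101, 295, 323555, 0, 0, 0, 0, 0, 0⟩ ⟨111, 2, -2337, 6, 93, 337, 403358, 0, 0, 0, 0, 0, 0⟩ ⟨111, 2, -2337, 6, 93, 337, 403358, 0, 0, 0, 0, 0, 0⟩ ⟨153, 2, -3203, 6, 97, 462, 531377, 0, 0, 0, 0, 0, 0⟩ ⟨153, 2, -3203, 6, 97, 462, 531377, 0, 0, 0, 0, 0, 0⟩ ⟨225, 2, -4758, 6, 100, 687, 766138, 0, 0, 0, 0, 0, 0⟩))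
    (.s3
    (.leaf (.box ⟨102, 2, -2048, 7, 105, 307, 317981, 0, 0, 0, 0, 0, 0⟩ ⟨0, 0, 0, 0, 0, 0, 393972, 0, 0, 0, 0, 0, 0⟩ ⟨0, 0, 0, 0, 0, 0, 393972, 0, 0, 0, 0, 0, 0⟩ ⟨0, 0, 0, 0, 0, 0, 517689, 0, 0, 0, 0, 0, 0⟩ ⟨0, 0, 0, 0, 0, 0, 517689, 0, 0, 0, 0, 0, 0⟩ ⟨203, 2, -4158, 6, 90, 626, 754676, 0, 0, 0, 0, 0, 0⟩))
    (.leaf (.box ⟨102, 2, -2048, 7, 102, 307, 328541, 0, 0, 0, 0, 0, 0⟩ ⟨0, 0, 0, 0, 0, 0, 406051, 0, 0, 0, 0, 0, 0⟩ ⟨0, 0, 0, 0, 0, 0, 406051, 0, 0, 0, 0, 0, 0⟩ ⟨0, 0, 0, 0, 0, 0, 531424, 0, 0, 0, 0, 0, 0⟩ ⟨0, 0, 0, 0, 0, 0, 531424, 0, 0, 0, 0, 0, 0⟩ ⟨225, 2, -4392, 6, 94, 663, 768801, 0, 0, 0, 0, 0, 0⟩))))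
    (.leaf (.box ⟨134, 4, -2048, 10, 107, 308, 332916, 0, 0, 0, 0, 0, 0⟩ ⟨0, 0, 0, 0, 0, 0, 412382, 0, 0, 0, 0, 0, 0⟩ ⟨0, 0, 0, 0, 0, 0, 412382, 0, 0, 0, 0, 0, 0⟩ ⟨0, 0, 0, 0, 0, 0, 541678, 0, 0, 0, 0, 0, 0⟩ ⟨0, 0, 0, 0, 0, 0, 541678, 0, 0, 0, 0, 0, 0⟩ ⟨255, 2, -3792, 6, 82, 571, 789083, 0, 0, 0, 0, 0, 0⟩)))
    (.leaf (.box ⟨160, 3, -2048, 10, 98, 297, 321474, 0, 0, 0, 0, 0, 0⟩ ⟨0, 0, 0, 0, 0, 0, 398532, 0, 0, 0, 0, 0, 0⟩ ⟨0, 0, 0, 0, 0, 0, 398532, 0, 0, 0, 0, 0, 0⟩ ⟨0, 0, 0, 0, 0, 0, 524178, 0, 0, 0, 0, 0, 0⟩ ⟨0, 0, 0, 0, 0, 0, 524178, 0, 0, 0, 0, 0, 0⟩ ⟨245, 2, -3094, 6, 62, 450, 765527, 0, 0, 0, 0, 0, 0⟩))))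
    (.s3
    (.s0
    (.s1
    (.s3
    (.leaf (.box ⟨131, 3, -2048, 11, 109, 313, 293915, 0, 0, 0, 0, 0, 0⟩ ⟨0, 0, 0, 0, 0, 0, 365948, 0, 0, 0, 0, 0, 0⟩ ⟨0, 0, 0, 0, 0, 0, 365948, 0, 0, 0, 0, 0, 0⟩ ⟨0, 0, 0, 0, 0, 0, 484751, 0, 0, 0, 0, 0, 0⟩ ⟨0, 0, 0, 0, 0, 0, 484751, 0, 0, 0, 0, 0, 0⟩ ⟨165, 2, -2568, 6, 57, 397, 717772, 0, 0, 0, 0, 0, 0⟩))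
    (.leaf (.box ⟨135, 3, -2048, 11, 107, 314, 302972, 0, 0, 0, 0, 0, 0⟩ ⟨132, 2, -2048, 9, 86, 315, 378975, 0, 0, 0, 0, 0, 0⟩ ⟨132, 2, -2048, 9, 86, 315, 378975, 0, 0, 0, 0, 0, 0⟩ ⟨132, 2, -2048, 7, 65, 316, 502134, 0, 0, 0, 0, 0, 0⟩ ⟨132, 2, -2048, 7, 65, 316, 502134, 0, 0, 0, 0, 0, 0⟩ ⟨171, 2, -2621, 6, 57, 406, 730144, 0, 0, 0, 0, 0, 0⟩)))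
    (.leaf (.box ⟨141, 2, -2048, 12, 114, 328, 289983, 0, 0, 0, 0, 0, 0⟩ ⟨0, 0, 0, 0, 0, 0, 361236, 0, 0, 0, 0, 0, 0⟩ ⟨0, 0, 0, 0, 0, 0, 361236, 0, 0, 0, 0, 0, 0⟩ ⟨0, 0, 0, 0, 0, 0, 478910, 0, 0, 0, 0, 0, 0⟩ ⟨0, 0, 0, 0, 0, 0, 478910, 0, 0, 0, 0, 0, 0⟩ ⟨172, 1, -2431, 6, 56, 394, 710291, 0, 0, 0, 0, 0, 0⟩)))
    (.s3
    (.leaf (.box ⟨175, 3, -2048, 14, 112, 327, 304285, 0, 0, 0, 0, 0, 0⟩ ⟨0, 0, 0, 0, 0, 0, 378898, 0, 0, 0, 0, 0, 0⟩ ⟨0, 0, 0, 0, 0, 0, 378898, 0, 0, 0, 0, 0, 0⟩ ⟨0, 0, 0, 0, 0, 0, 501988, 0, 0, 0, 0, 0, 0⟩ ⟨0, 0, 0, 0, 0, 0, 501988, 0, 0, 0, 0, 0, 0⟩ ⟨199, 2, -2299, 6, 52, 370, 743536, 0, 0, 0, 0, 0, 0⟩))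
    (.leaf (.box ⟨170, 3, -2048, 12, 110, 328, 313820, 0, 0, 0, 0, 0, 0⟩ ⟨0, 0, 0, 0, 0, 0, 389920, 0, 0, 0, 0, 0, 0⟩ ⟨0, 0, 0, 0, 0, 0, 389920, 0, 0, 0, 0, 0, 0⟩ ⟨0, 0, 0, 0, 0, 0, 514743, 0, 0, 0, 0, 0, 0⟩ ⟨0, 0, 0, 0, 0, 0, 514743, 0, 0, 0, 0, 0, 0⟩ ⟨204, 2, -2314, 6, 52, 373, 757111, 0, 0, 0, 0, 0, 0⟩))))
    (.s0
    (.s3
    (.s2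
    (.leaf (.box ⟨185, 4, -2048, 15, 116, 323, 309416, 0, 0, 0, 0, 0, 0⟩ ⟨0, 0, 0, 0, 0, 0, 383674, 0, 0, 0, 0, 0, 0⟩ ⟨0, 0, 0, 0, 0, 0, 383674, 0, 0, 0, 0, 0, 0⟩ ⟨0, 0, 0, 0, 0, 0, 504828, 0, 0, 0, 0, 0, 0⟩ ⟨0, 0, 0, 0, 0, 0, 504828, 0, 0, 0, 0, 0, 0⟩ ⟨234, 2, -3019, 6, 70, 488, 737808, 0, 0, 0, 0, 0, 0⟩))
    (.leaf (.box ⟨150, 2, -2048, 8, 100, 317, 315176, 0, 0, 0, 0, 0, 0⟩ ⟨0, 0, 0, 0, 0, 0, 391025, 0, 0, 0, 0, 0, 0⟩ ⟨0, 0, 0, 0, 0, 0, 391025, 0, 0, 0, 0, 0, 0⟩ ⟨0, 0, 0, 0, 0, 0, 514949, 0, 0, 0, 0, 0, 0⟩ ⟨0, 0, 0, 0, 0, 0, 514949, 0, 0, 0, 0, 0, 0⟩ ⟨243, 1, -3397, 6, 70, 531, 753865, 0, 0, 0, 0, 0, 0⟩)))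
    (.leaf (.box ⟨183, 3, -2048, 12, 103, 323, 319927, 0, 0, 0, 0, 0, 0⟩ ⟨0, 0, 0, 0, 0, 0, 395716, 0, 0, 0, 0, 0, 0⟩ ⟨0, 0, 0, 0, 0, 0, 395716, 0, 0, 0, 0, 0, 0⟩ ⟨0, 0, 0, 0, 0, 0, 518560, 0, 0, 0, 0, 0, 0⟩ ⟨0, 0, 0, 0, 0, 0, 518560, 0, 0, 0, 0, 0, 0⟩ ⟨208, 1, -2210, 6, 48, 352, 752010, 0, 0, 0, 0, 0, 0⟩)))
    (.s3
    (.leaf (.box ⟨177, 3, -2048, 12, 107, 328, 324009, 0, 0, 0, 0, 0, 0⟩ ⟨0, 0, 0, 0, 0, 0, 401644, 0, 0, 0, 0, 0, 0⟩ ⟨0, 0, 0, 0, 0, 0, 401644, 0, 0, 0, 0, 0, 0⟩ ⟨0, 0, 0, 0, 0, 0, 528206, 0, 0, 0, 0, 0, 0⟩ ⟨0, 0, 0, 0, 0, 0, 528206, 0, 0, 0, 0, 0, 0⟩ ⟨202, 2, -2300, 6, 51, 372, 771227, 0, 0, 0, 0, 0, 0⟩))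
    (.leaf (.box ⟨183, 3, -2048, 12, 104, 329, 334922, 0, 0, 0, 0, 0, 0⟩ ⟨0, 0, 0, 0, 0, 0, 414140, 0, 0, 0, 0, 0, 0⟩ ⟨0, 0, 0, 0, 0, 0, 414140, 0, 0, 0, 0, 0, 0⟩ ⟨0, 0, 0, 0, 0, 0, 542440, 0, 0, 0, 0, 0, 0⟩ ⟨0, 0, 0, 0, 0, 0, 542440, 0, 0, 0, 0, 0, 0⟩ ⟨215, 2, -2449, 6, 53, 397, 785917, 0, 0, 0, 0, 0, 0⟩)))))

/-- A piece of the tree. -/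
noncomputable def tree103 : Tree LeafX :=
  .s3
    (.s2
    (.s0
    (.s1
    (.leaf (.box ⟨97, 2, -2048, 6, 96, 296, 345751, 0, 0, 0, 0, 0, 0⟩ ⟨0, 0, 0, 0, 0, 0, 426080, 0, 0, 0, 0, 0, 0⟩ ⟨0, 0, 0, 0, 0, 0, 426080, 0, 0, 0, 0, 0, 0⟩ ⟨0, 0, 0, 0, 0, 0, 555030, 0, 0, 0, 0, 0, 0⟩ ⟨0, 0, 0, 0, 0, 0, 555030, 0, 0, 0, 0, 0, 0⟩ ⟨225, 2, -4598, 6, 94, 666, 795906, 0, 0, 0, 0, 0, 0⟩))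
    (.s3
    (.leaf (.box ⟨104, 2, -2048, 7, 99, 308, 339879, 0, 0, 0, 0, 0, 0⟩ ⟨0, 0, 0, 0, 0, 0, 418951, 0, 0, 0, 0, 0, 0⟩ ⟨0, 0, 0, 0, 0, 0, 418951, 0, 0, 0, 0, 0, 0⟩ ⟨0, 0, 0, 0, 0, 0, 545968, 0, 0, 0, 0, 0, 0⟩ ⟨0, 0, 0, 0, 0, 0, 545968, 0, 0, 0, 0, 0, 0⟩ ⟨229, 2, -4515, 6, 95, 682, 783512, 0, 0, 0, 0, 0, 0⟩))
    (.leaf (.box ⟨105, 2, -2088, 6, 98, 315, 352085, 0, 0, 0, 0, 0, 0⟩ ⟨0, 0, 0, 0, 0, 0, 432760, 0, 0, 0, 0, 0, 0⟩ ⟨0, 0, 0, 0, 0, 0, 432760, 0, 0, 0, 0, 0, 0⟩ ⟨0, 0, 0, 0, 0, 0, 561395, 0, 0, 0, 0, 0, 0⟩ ⟨0, 0, 0, 0, 0, 0, 561395, 0, 0, 0, 0, 0, 0⟩ ⟨199, 2, -4035, 6, 84, 611, 798846, 0, 0, 0, 0, 0, 0⟩))))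
    (.s1
    (.leaf (.box ⟨99, 2, -2163, 6, 101, 320, 362962, 0, 0, 0, 0, 0, 0⟩ ⟨0, 0, 0, 0, 0, 0, 447136, 0, 0, 0, 0, 0, 0⟩ ⟨0, 0, 0, 0, 0, 0, 447136, 0, 0, 0, 0, 0, 0⟩ ⟨0, 0, 0, 0, 0, 0, 582139, 0, 0, 0, 0, 0, 0⟩ ⟨0, 0, 0, 0, 0, 0, 582139, 0, 0, 0, 0, 0, 0⟩ ⟨215, 3, -4690, 6, 95, 693, 833924, 0, 0, 0, 0, 0, 0⟩))
    (.leaf (.box ⟨101, 2, -2048, 7, 99, 315, 355606, 0, 0, 0, 0, 0, 0⟩ ⟨0, 0, 0, 0, 0, 0, 438249, 0, 0, 0, 0, 0, 0⟩ ⟨0, 0, 0, 0, 0, 0, 438249, 0, 0, 0, 0, 0, 0⟩ ⟨0, 0, 0, 0, 0, 0, 570934, 0, 0, 0, 0, 0, 0⟩ ⟨0, 0, 0, 0, 0, 0, 570934, 0, 0, 0, 0, 0, 0⟩ ⟨212, 2, -4383, 6, 93, 676, 818848, 0, 0, 0, 0, 0, 0⟩))))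
    (.leaf (.box ⟨164, 3, -2048, 9, 92, 298, 343914, 0, 0, 0, 0, 0, 0⟩ ⟨0, 0, 0, 0, 0, 0, 424158, 0, 0, 0, 0, 0, 0⟩ ⟨0, 0, 0, 0, 0, 0, 424158, 0, 0, 0, 0, 0, 0⟩ ⟨0, 0, 0, 0, 0, 0, 553244, 0, 0, 0, 0, 0, 0⟩ ⟨0, 0, 0, 0, 0, 0, 553244, 0, 0, 0, 0, 0, 0⟩ ⟨255, 2, -3199, 6, 62, 466, 795272, 0, 0, 0, 0, 0, 0⟩)))
    (.s2
    (.s0
    (.s3
    (.s1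
    (.leaf (.box ⟨108, 2, -2231, 6, 97, 323, 372264, 0, 0, 0, 0, 0, 0⟩ ⟨0, 0, 0, 0, 0, 0, 455992, 0, 0, 0, 0, 0, 0⟩ ⟨0, 0, 0, 0, 0, 0, 455992, 0, 0, 0, 0, 0, 0⟩ ⟨0, 0, 0, 0, 0, 0, 588311, 0, 0, 0, 0, 0, 0⟩ ⟨0, 0, 0, 0, 0, 0, 588311, 0, 0, 0, 0, 0, 0⟩ ⟨241, 2, -5150, 6, 101, 747, 828814, 0, 0, 0, 0, 0, 0⟩))
    (.leaf (.box ⟨103, 2, -2062, 6, 93, 311, 365261, 0, 0, 0, 0, 0, 0⟩ ⟨0, 0, 0, 0, 0, 0, 447577, 0, 0, 0, 0, 0, 0⟩ ⟨0, 0, 0, 0, 0, 0, 447577, 0, 0, 0, 0, 0, 0⟩ ⟨0, 0, 0, 0, 0, 0, 577787, 0, 0, 0, 0, 0, 0⟩ ⟨0, 0, 0, 0, 0, 0, 577787, 0, 0, 0, 0, 0, 0⟩ ⟨245, 2, -4843, 6, 99, 735, 814844, 0, 0, 0, 0, 0, 0⟩)))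
    (.s1
    (.leaf (.box ⟨107, 2, -2193, 6, 92, 318, 386655, 0, 0, 0, 0, 0, 0⟩ ⟨0, 0, 0, 0, 0, 0, 472055, 0, 0, 0, 0, 0, 0⟩ ⟨0, 0, 0, 0, 0, 0, 472055, 0, 0, 0, 0, 0, 0⟩ ⟨0, 0, 0, 0, 0, 0, 605872, 0, 0, 0, 0, 0, 0⟩ ⟨0, 0, 0, 0, 0, 0, 605872, 0, 0, 0, 0, 0, 0⟩ ⟨226, 2, -4610, 6, 89, 670, 845573, 0, 0, 0, 0, 0, 0⟩))
    (.leaf (.box ⟨112, 2, -2233, 6, 98, 338, 379528, 0, 0, 0, 0, 0, 0⟩ ⟨0, 0, 0, 0, 0, 0, 463516, 0, 0, 0, 0, 0, 0⟩ ⟨0, 0, 0, 0, 0, 0, 463516, 0, 0, 0, 0, 0, 0⟩ ⟨0, 0, 0, 0, 0, 0, 595238, 0, 0, 0, 0, 0, 0⟩ ⟨0, 0, 0, 0, 0, 0, 595238, 0, 0, 0, 0, 0, 0⟩ ⟨241, 2, -4782, 6, 96, 727, 831549, 0, 0, 0, 0, 0, 0⟩))))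
    (.s1
    (.leaf (.box ⟨106, 2, -2292, 6, 101, 340, 389486, 0, 0, 0, 0, 0, 0⟩ ⟨0, 0, 0, 0, 0, 0, 477006, 0, 0, 0, 0, 0, 0⟩ ⟨0, 0, 0, 0, 0, 0, 477006, 0, 0, 0, 0, 0, 0⟩ ⟨0, 0, 0, 0, 0, 0, 615258, 0, 0, 0, 0, 0, 0⟩ ⟨0, 0, 0, 0, 0, 0, 615258, 0, 0, 0, 0, 0, 0⟩ ⟨238, 3, -5128, 6, 101, 760, 866356, 0, 0, 0, 0, 0, 0⟩))
    (.leaf (.box ⟨103, 2, -2048, 6, 93, 316, 381906, 0, 0, 0, 0, 0, 0⟩ ⟨0, 0, 0, 0, 0, 0, 467894, 0, 0, 0, 0, 0, 0⟩ ⟨0, 0, 0, 0, 0, 0, 467894, 0, 0, 0, 0, 0, 0⟩ ⟨0, 0, 0, 0, 0, 0, 603853, 0, 0, 0, 0, 0, 0⟩ ⟨0, 0, 0, 0, 0, 0, 603853, 0, 0, 0, 0, 0, 0⟩ ⟨236, 2, -4861, 6, 100, 752, 851190, 0, 0, 0, 0, 0, 0⟩))))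
    (.leaf (.box ⟨167, 3, -2048, 9, 86, 299, 369922, 0, 0, 0, 0, 0, 0⟩ ⟨0, 0, 0, 0, 0, 0, 453524, 0, 0, 0, 0, 0, 0⟩ ⟨0, 0, 0, 0, 0, 0, 453524, 0, 0, 0, 0, 0, 0⟩ ⟨0, 0, 0, 0, 0, 0, 585947, 0, 0, 0, 0, 0, 0⟩ ⟨0, 0, 0, 0, 0, 0, 585947, 0, 0, 0, 0, 0, 0⟩ ⟨247, 2, -3116, 6, 59, 455, 827593, 0, 0, 0, 0, 0, 0⟩)))

/-- A piece of the tree. -/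
noncomputable def tree104 : Tree LeafX :=
  .s0
    (.s3
    (.s3
    (.leaf (.box ⟨185, 3, -2048, 12, 100, 324, 331212, 0, 0, 0, 0, 0, 0⟩ ⟨0, 0, 0, 0, 0, 0, 408578, 0, 0, 0, 0, 0, 0⟩ ⟨0, 0, 0, 0, 0, 0, 408578, 0, 0, 0, 0, 0, 0⟩ ⟨0, 0, 0, 0, 0, 0, 533101, 0, 0, 0, 0, 0, 0⟩ ⟨0, 0, 0, 0, 0, 0, 533101, 0, 0, 0, 0, 0, 0⟩ ⟨205, 1, -2171, 6, 47, 347, 766800, 0, 0, 0, 0, 0, 0⟩))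
    (.leaf (.box ⟨187, 3, -2048, 12, 97, 325, 343361, 0, 0, 0, 0, 0, 0⟩ ⟨0, 0, 0, 0, 0, 0, 422346, 0, 0, 0, 0, 0, 0⟩ ⟨0, 0, 0, 0, 0, 0, 422346, 0, 0, 0, 0, 0, 0⟩ ⟨0, 0, 0, 0, 0, 0, 548525, 0, 0, 0, 0, 0, 0⟩ ⟨0, 0, 0, 0, 0, 0, 548525, 0, 0, 0, 0, 0, 0⟩ ⟨217, 1, -2224, 6, 47, 356, 782218, 0, 0, 0, 0, 0, 0⟩)))
    (.s3
    (.leaf (.box ⟨189, 3, -2048, 11, 94, 326, 356476, 0, 0, 0, 0, 0, 0⟩ ⟨0, 0, 0, 0, 0, 0, 437119, 0, 0, 0, 0, 0, 0⟩ ⟨0, 0, 0, 0, 0, 0, 437119, 0, 0, 0, 0, 0, 0⟩ ⟨0, 0, 0, 0, 0, 0, 564913, 0, 0, 0, 0, 0, 0⟩ ⟨0, 0, 0, 0, 0, 0, 564913, 0, 0, 0, 0, 0, 0⟩ ⟨222, 1, -2228, 6, 46, 357, 798303, 0, 0, 0, 0, 0, 0⟩))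
    (.leaf (.box ⟨191, 3, -2048, 11, 91, 327, 370678, 0, 0, 0, 0, 0, 0⟩ ⟨0, 0, 0, 0, 0, 0, 453011, 0, 0, 0, 0, 0, 0⟩ ⟨0, 0, 0, 0, 0, 0, 453011, 0, 0, 0, 0, 0, 0⟩ ⟨0, 0, 0, 0, 0, 0, 582361, 0, 0, 0, 0, 0, 0⟩ ⟨0, 0, 0, 0, 0, 0, 582361, 0, 0, 0, 0, 0, 0⟩ ⟨241, 1, -2472, 6, 51, 398, 815099, 0, 0, 0, 0, 0, 0⟩))))
    (.s3
    (.s3
    (.leaf (.box ⟨184, 3, -2048, 12, 101, 330, 346639, 0, 0, 0, 0, 0, 0⟩ ⟨0, 0, 0, 0, 0, 0, 427485, 0, 0, 0, 0, 0, 0⟩ ⟨0, 0, 0, 0, 0, 0, 427485, 0, 0, 0, 0, 0, 0⟩ ⟨0, 0, 0, 0, 0, 0, 557512, 0, 0, 0, 0, 0, 0⟩ ⟨0, 0, 0, 0, 0, 0, 557512, 0, 0, 0, 0, 0, 0⟩ ⟨217, 2, -2358, 6, 51, 383, 801215, 0, 0, 0, 0, 0, 0⟩))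
    (.leaf (.box ⟨180, 3, -2048, 11, 98, 331, 359252, 0, 0, 0, 0, 0, 0⟩ ⟨0, 0, 0, 0, 0, 0, 441770, 0, 0, 0, 0, 0, 0⟩ ⟨0, 0, 0, 0, 0, 0, 441770, 0, 0, 0, 0, 0, 0⟩ ⟨0, 0, 0, 0, 0, 0, 573498, 0, 0, 0, 0, 0, 0⟩ ⟨0, 0, 0, 0, 0, 0, 573498, 0, 0, 0, 0, 0, 0⟩ ⟨216, 2, -2377, 6, 50, 387, 817162, 0, 0, 0, 0, 0, 0⟩)))
    (.s3
    (.leaf (.box ⟨182, 3, -2048, 11, 95, 332, 372869, 0, 0, 0, 0, 0, 0⟩ ⟨0, 0, 0, 0, 0, 0, 457099, 0, 0, 0, 0, 0, 0⟩ ⟨0, 0, 0, 0, 0, 0, 457099, 0, 0, 0, 0, 0, 0⟩ ⟨0, 0, 0, 0, 0, 0, 590486, 0, 0, 0, 0, 0, 0⟩ ⟨0, 0, 0, 0, 0, 0, 590486, 0, 0, 0, 0, 0, 0⟩ ⟨232, 2, -2551, 6, 53, 416, 833800, 0, 0, 0, 0, 0, 0⟩))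
    (.leaf (.box ⟨182, 3, -2048, 11, 91, 333, 387613, 0, 0, 0, 0, 0, 0⟩ ⟨0, 0, 0, 0, 0, 0, 473587, 0, 0, 0, 0, 0, 0⟩ ⟨0, 0, 0, 0, 0, 0, 473587, 0, 0, 0, 0, 0, 0⟩ ⟨0, 0, 0, 0, 0, 0, 608570, 0, 0, 0, 0, 0, 0⟩ ⟨0, 0, 0, 0, 0, 0, 608570, 0, 0, 0, 0, 0, 0⟩ ⟨251, 2, -2693, 6, 55, 440, 851173, 0, 0, 0, 0, 0, 0⟩))))

/-- A piece of the tree. -/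
noncomputable def tree105 : Tree LeafX :=
  .s0
    (.s3
    (.s0
    (.leaf (.box ⟨185, 2, -2048, 9, 79, 285, 362182, 0, 0, 0, 0, 0, 0⟩ ⟨0, 0, 0, 0, 0, 0, 440971, 0, 0, 0, 0, 0, 0⟩ ⟨0, 0, 0, 0, 0, 0, 440971, 0, 0, 0, 0, 0, 0⟩ ⟨0, 0, 0, 0, 0, 0, 563569, 0, 0, 0, 0, 0, 0⟩ ⟨0, 0, 0, 0, 0, 0, 563569, 0, 0, 0, 0, 0, 0⟩ ⟨291, 2, -3101, 6, 56, 435, 780587, 0, 0, 0, 0, 0, 0⟩))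
    (.s2
    (.leaf (.box ⟨169, 3, -2048, 10, 87, 290, 369831, 0, 0, 0, 0, 0, 0⟩ ⟨0, 0, 0, 0, 0, 0, 450228, 0, 0, 0, 0, 0, 0⟩ ⟨0, 0, 0, 0, 0, 0, 450228, 0, 0, 0, 0, 0, 0⟩ ⟨0, 0, 0, 0, 0, 0, 575288, 0, 0, 0, 0, 0, 0⟩ ⟨0, 0, 0, 0, 0, 0, 575288, 0, 0, 0, 0, 0, 0⟩ ⟨337, 2, -4298, 6, 82, 619, 796543, 0, 0, 0, 0, 0, 0⟩))
    (.leaf (.box ⟨145, 2, -2130, 6, 79, 295, 374283, 0, 0, 0, 0, 0, 0⟩ ⟨0, 0, 0, 0, 0, 0, 455802, 0, 0, 0, 0, 0, 0⟩ ⟨0, 0, 0, 0, 0, 0, 455802, 0, 0, 0, 0, 0, 0⟩ ⟨0, 0, 0, 0, 0, 0, 582718, 0, 0, 0, 0, 0, 0⟩ ⟨0, 0, 0, 0, 0, 0, 582718, 0, 0, 0, 0, 0, 0⟩ ⟨294, 2, -4171, 6, 72, 581, 807587, 0, 0, 0, 0, 0, 0⟩))))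
    (.s0
    (.leaf (.box ⟨186, 3, -2048, 9, 76, 286, 377911, 0, 0, 0, 0, 0, 0⟩ ⟨0, 0, 0, 0, 0, 0, 458309, 0, 0, 0, 0, 0, 0⟩ ⟨0, 0, 0, 0, 0, 0, 458309, 0, 0, 0, 0, 0, 0⟩ ⟨0, 0, 0, 0, 0, 0, 582159, 0, 0, 0, 0, 0, 0⟩ ⟨0, 0, 0, 0, 0, 0, 582159, 0, 0, 0, 0, 0, 0⟩ ⟨279, 2, -2980, 6, 53, 419, 797731, 0, 0, 0, 0, 0, 0⟩))
    (.leaf (.box ⟨179, 4, -2048, 12, 73, 290, 385835, 0, 0, 0, 0, 0, 0⟩ ⟨0, 0, 0, 0, 0, 0, 467863, 0, 0, 0, 0, 0, 0⟩ ⟨0, 0, 0, 0, 0, 0, 467863, 0, 0, 0, 0, 0, 0⟩ ⟨0, 0, 0, 0, 0, 0, 594186, 0, 0, 0, 0, 0, 0⟩ ⟨0, 0, 0, 0, 0, 0, 594186, 0, 0, 0, 0, 0, 0⟩ ⟨282, 2, -3099, 6, 56, 440, 813953, 0, 0, 0, 0, 0, 0⟩))))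
    (.s2
    (.s3
    (.s1
    (.leaf (.box ⟨118, 2, -2379, 6, 96, 338, 384381, 0, 0, 0, 0, 0, 0⟩ ⟨0, 0, 0, 0, 0, 0, 467735, 0, 0, 0, 0, 0, 0⟩ ⟨0, 0, 0, 0, 0, 0, 467735, 0, 0, 0, 0, 0, 0⟩ ⟨0, 0, 0, 0, 0, 0, 597248, 0, 0, 0, 0, 0, 0⟩ ⟨0, 0, 0, 0, 0, 0, 597248, 0, 0, 0, 0, 0, 0⟩ ⟨253, 2, -5105, 6, 97, 728, 825949, 0, 0, 0, 0, 0, 0⟩))
    (.leaf (.box ⟨121, 2, -2221, 6, 93, 330, 377847, 0, 0, 0, 0, 0, 0⟩ ⟨0, 0, 0, 0, 0, 0, 459927, 0, 0, 0, 0, 0, 0⟩ ⟨0, 0, 0, 0, 0, 0, 459927, 0, 0, 0, 0, 0, 0⟩ ⟨0, 0, 0, 0, 0, 0, 587562, 0, 0, 0, 0, 0, 0⟩ ⟨0, 0, 0, 0, 0, 0, 587562, 0, 0, 0, 0, 0, 0⟩ ⟨234, 2, -4285, 6, 84, 641, 813249, 0, 0, 0, 0, 0, 0⟩)))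
    (.s1
    (.leaf (.box ⟨128, 2, -2495, 6, 97, 355, 400806, 0, 0, 0, 0, 0, 0⟩ ⟨0, 0, 0, 0, 0, 0, 485814, 0, 0, 0, 0, 0, 0⟩ ⟨0, 0, 0, 0, 0, 0, 485814, 0, 0, 0, 0, 0, 0⟩ ⟨0, 0, 0, 0, 0, 0, 616587, 0, 0, 0, 0, 0, 0⟩ ⟨0, 0, 0, 0, 0, 0, 616587, 0, 0, 0, 0, 0, 0⟩ ⟨275, 2, -5322, 6, 99, 761, 843694, 0, 0, 0, 0, 0, 0⟩))
    (.leaf (.box ⟨125, 2, -2320, 6, 94, 346, 394137, 0, 0, 0, 0, 0, 0⟩ ⟨0, 0, 0, 0, 0, 0, 477872, 0, 0, 0, 0, 0, 0⟩ ⟨0, 0, 0, 0, 0, 0, 477872, 0, 0, 0, 0, 0, 0⟩ ⟨0, 0, 0, 0, 0, 0, 606782, 0, 0, 0, 0, 0, 0⟩ ⟨0, 0, 0, 0, 0, 0, 606782, 0, 0, 0, 0, 0, 0⟩ ⟨236, 2, -4415, 6, 86, 662, 830935, 0, 0, 0, 0, 0, 0⟩))))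
    (.s1
    (.leaf (.box ⟨117, 2, -2313, 6, 86, 320, 387681, 0, 0, 0, 0, 0, 0⟩ ⟨0, 0, 0, 0, 0, 0, 471961, 0, 0, 0, 0, 0, 0⟩ ⟨0, 0, 0, 0, 0, 0, 471961, 0, 0, 0, 0, 0, 0⟩ ⟨0, 0, 0, 0, 0, 0, 603065, 0, 0, 0, 0, 0, 0⟩ ⟨0, 0, 0, 0, 0, 0, 603065, 0, 0, 0, 0, 0, 0⟩ ⟨231, 2, -4776, 6, 83, 662, 835019, 0, 0, 0, 0, 0, 0⟩))
    (.leaf (.box ⟨113, 2, -2186, 6, 83, 315, 382257, 0, 0, 0, 0, 0, 0⟩ ⟨0, 0, 0, 0, 0, 0, 465500, 0, 0, 0, 0, 0, 0⟩ ⟨0, 0, 0, 0, 0, 0, 465500, 0, 0, 0, 0, 0, 0⟩ ⟨0, 0, 0, 0, 0, 0, 595092, 0, 0, 0, 0, 0, 0⟩ ⟨0, 0, 0, 0, 0, 0, 595092, 0, 0, 0, 0, 0, 0⟩ ⟨223, 2, -4407, 6, 79, 639, 824673, 0, 0, 0, 0, 0, 0⟩))))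

/-- A piece of the tree. -/
noncomputable def tree106 : Tree LeafX :=
  .s0
    (.s3
    (.s0
    (.leaf (.box ⟨201, 3, -2048, 9, 73, 286, 395126, 0, 0, 0, 0, 0, 0⟩ ⟨0, 0, 0, 0, 0, 0, 477127, 0, 0, 0, 0, 0, 0⟩ ⟨0, 0, 0, 0, 0, 0, 477127, 0, 0, 0, 0, 0, 0⟩ ⟨0, 0, 0, 0, 0, 0, 602077, 0, 0, 0, 0, 0, 0⟩ ⟨0, 0, 0, 0, 0, 0, 602077, 0, 0, 0, 0, 0, 0⟩ ⟨319, 2, -3313, 6, 58, 467, 815688, 0, 0, 0, 0, 0, 0⟩))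
    (.leaf (.box ⟨179, 5, -2048, 17, 65, 290, 403352, 0, 0, 0, 0, 0, 0⟩ ⟨0, 0, 0, 0, 0, 0, 487006, 0, 0, 0, 0, 0, 0⟩ ⟨0, 0, 0, 0, 0, 0, 487006, 0, 0, 0, 0, 0, 0⟩ ⟨0, 0, 0, 0, 0, 0, 614437, 0, 0, 0, 0, 0, 0⟩ ⟨0, 0, 0, 0, 0, 0, 614437, 0, 0, 0, 0, 0, 0⟩ ⟨294, 2, -3055, 6, 54, 434, 832189, 0, 0, 0, 0, 0, 0⟩)))
    (.s0
    (.leaf (.box ⟨194, 2, -2048, 8, 70, 287, 414051, 0, 0, 0, 0, 0, 0⟩ ⟨0, 0, 0, 0, 0, 0, 497627, 0, 0, 0, 0, 0, 0⟩ ⟨0, 0, 0, 0, 0, 0, 497627, 0, 0, 0, 0, 0, 0⟩ ⟨0, 0, 0, 0, 0, 0, 623473, 0, 0, 0, 0, 0, 0⟩ ⟨0, 0, 0, 0, 0, 0, 623473, 0, 0, 0, 0, 0, 0⟩ ⟨307, 2, -3182, 6, 55, 449, 834516, 0, 0, 0, 0, 0, 0⟩))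
    (.leaf (.box ⟨190, 3, -2048, 11, 75, 290, 422608, 0, 0, 0, 0, 0, 0⟩ ⟨0, 0, 0, 0, 0, 0, 507857, 0, 0, 0, 0, 0, 0⟩ ⟨0, 0, 0, 0, 0, 0, 507857, 0, 0, 0, 0, 0, 0⟩ ⟨0, 0, 0, 0, 0, 0, 636189, 0, 0, 0, 0, 0, 0⟩ ⟨0, 0, 0, 0, 0, 0, 636189, 0, 0, 0, 0, 0, 0⟩ ⟨288, 2, -3100, 6, 54, 442, 851309, 0, 0, 0, 0, 0, 0⟩))))
    (.s3
    (.s2
    (.s1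
    (.leaf (.box ⟨125, 2, -2482, 6, 93, 354, 418785, 0, 0, 0, 0, 0, 0⟩ ⟨0, 0, 0, 0, 0, 0, 505439, 0, 0, 0, 0, 0, 0⟩ ⟨0, 0, 0, 0, 0, 0, 505439, 0, 0, 0, 0, 0, 0⟩ ⟨0, 0, 0, 0, 0, 0, 637309, 0, 0, 0, 0, 0, 0⟩ ⟨0, 0, 0, 0, 0, 0, 637309, 0, 0, 0, 0, 0, 0⟩ ⟨242, 2, -4816, 6, 88, 689, 862279, 0, 0, 0, 0, 0, 0⟩))
    (.leaf (.box ⟨125, 2, -2306, 6, 90, 345, 411968, 0, 0, 0, 0, 0, 0⟩ ⟨0, 0, 0, 0, 0, 0, 497351, 0, 0, 0, 0, 0, 0⟩ ⟨0, 0, 0, 0, 0, 0, 497351, 0, 0, 0, 0, 0, 0⟩ ⟨0, 0, 0, 0, 0, 0, 627378, 0, 0, 0, 0, 0, 0⟩ ⟨0, 0, 0, 0, 0, 0, 627378, 0, 0, 0, 0, 0, 0⟩ ⟨256, 2, -4604, 6, 88, 692, 849459, 0, 0, 0, 0, 0, 0⟩)))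
    (.leaf (.box ⟨146, 2, -2048, 6, 71, 290, 417767, 0, 0, 0, 0, 0, 0⟩ ⟨0, 0, 0, 0, 0, 0, 504512, 0, 0, 0, 0, 0, 0⟩ ⟨0, 0, 0, 0, 0, 0, 504512, 0, 0, 0, 0, 0, 0⟩ ⟨0, 0, 0, 0, 0, 0, 636719, 0, 0, 0, 0, 0, 0⟩ ⟨0, 0, 0, 0, 0, 0, 636719, 0, 0, 0, 0, 0, 0⟩ ⟨315, 2, -4341, 6, 74, 617, 862821, 0, 0, 0, 0, 0, 0⟩)))
    (.s1
    (.s2
    (.leaf (.box ⟨131, 2, -2541, 6, 91, 363, 438548, 0, 0, 0, 0, 0, 0⟩ ⟨0, 0, 0, 0, 0, 0, 526816, 0, 0, 0, 0, 0, 0⟩ ⟨0, 0, 0, 0, 0, 0, 526816, 0, 0, 0, 0, 0, 0⟩ ⟨0, 0, 0, 0, 0, 0, 659569, 0, 0, 0, 0, 0, 0⟩ ⟨0, 0, 0, 0, 0, 0, 659569, 0, 0, 0, 0, 0, 0⟩ ⟨264, 2, -5071, 6, 91, 727, 881766, 0, 0, 0, 0, 0, 0⟩))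
    (.leaf (.box ⟨141, 2, -2876, 6, 94, 399, 443695, 0, 0, 0, 0, 0, 0⟩ ⟨0, 0, 0, 0, 0, 0, 533152, 0, 0, 0, 0, 0, 0⟩ ⟨0, 0, 0, 0, 0, 0, 533152, 0, 0, 0, 0, 0, 0⟩ ⟨0, 0, 0, 0, 0, 0, 667789, 0, 0, 0, 0, 0, 0⟩ ⟨0, 0, 0, 0, 0, 0, 667789, 0, 0, 0, 0, 0, 0⟩ ⟨249, 2, -5160, 6, 84, 718, 893400, 0, 0, 0, 0, 0, 0⟩)))
    (.leaf (.box ⟨146, 2, -2048, 8, 73, 302, 431569, 0, 0, 0, 0, 0, 0⟩ ⟨0, 0, 0, 0, 0, 0, 518569, 0, 0, 0, 0, 0, 0⟩ ⟨0, 0, 0, 0, 0, 0, 518569, 0, 0, 0, 0, 0, 0⟩ ⟨0, 0, 0, 0, 0, 0, 649501, 0, 0, 0, 0, 0, 0⟩ ⟨0, 0, 0, 0, 0, 0, 649501, 0, 0, 0, 0, 0, 0⟩ ⟨228, 2, -3208, 6, 57, 475, 868883, 0, 0, 0, 0, 0, 0⟩))))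

/-- A piece of the tree. -/
noncomputable def tree107 : Tree LeafX :=
  .s3
    (.s0
    (.s2
    (.leaf (.box ⟨187, 2, -2048, 8, 91, 324, 355169, 0, 0, 0, 0, 0, 0⟩ ⟨0, 0, 0, 0, 0, 0, 432695, 0, 0, 0, 0, 0, 0⟩ ⟨0, 0, 0, 0, 0, 0, 432695, 0, 0, 0, 0, 0, 0⟩ ⟨0, 0, 0, 0, 0, 0, 553514, 0, 0, 0, 0, 0, 0⟩ ⟨0, 0, 0, 0, 0, 0, 553514, 0, 0, 0, 0, 0, 0⟩ ⟨296, 1, -3155, 6, 66, 506, 767943, 0, 0, 0, 0, 0, 0⟩))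
    (.leaf (.box ⟨178, 1, -2048, 8, 81, 311, 361054, 0, 0, 0, 0, 0, 0⟩ ⟨0, 0, 0, 0, 0, 0, 440012, 0, 0, 0, 0, 0, 0⟩ ⟨0, 0, 0, 0, 0, 0, 440012, 0, 0, 0, 0, 0, 0⟩ ⟨0, 0, 0, 0, 0, 0, 563170, 0, 0, 0, 0, 0, 0⟩ ⟨0, 0, 0, 0, 0, 0, 563170, 0, 0, 0, 0, 0, 0⟩ ⟨328, 1, -3820, 6, 71, 587, 782067, 0, 0, 0, 0, 0, 0⟩)))
    (.s3
    (.leaf (.box ⟨206, 2, -2048, 11, 87, 322, 370104, 0, 0, 0, 0, 0, 0⟩ ⟨0, 0, 0, 0, 0, 0, 450770, 0, 0, 0, 0, 0, 0⟩ ⟨0, 0, 0, 0, 0, 0, 450770, 0, 0, 0, 0, 0, 0⟩ ⟨0, 0, 0, 0, 0, 0, 576397, 0, 0, 0, 0, 0, 0⟩ ⟨0, 0, 0, 0, 0, 0, 576397, 0, 0, 0, 0, 0, 0⟩ ⟨261, 1, -2494, 6, 50, 396, 799104, 0, 0, 0, 0, 0, 0⟩))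
    (.leaf (.box ⟨217, 2, -2048, 11, 84, 323, 386332, 0, 0, 0, 0, 0, 0⟩ ⟨0, 0, 0, 0, 0, 0, 468673, 0, 0, 0, 0, 0, 0⟩ ⟨0, 0, 0, 0, 0, 0, 468673, 0, 0, 0, 0, 0, 0⟩ ⟨0, 0, 0, 0, 0, 0, 595620, 0, 0, 0, 0, 0, 0⟩ ⟨0, 0, 0, 0, 0, 0, 595620, 0, 0, 0, 0, 0, 0⟩ ⟨257, 1, -2435, 6, 48, 388, 816886, 0, 0, 0, 0, 0, 0⟩))))
    (.s0
    (.s2
    (.leaf (.box ⟨193, 2, -2048, 8, 85, 327, 387979, 0, 0, 0, 0, 0, 0⟩ ⟨0, 0, 0, 0, 0, 0, 468756, 0, 0, 0, 0, 0, 0⟩ ⟨0, 0, 0, 0, 0, 0, 468756, 0, 0, 0, 0, 0, 0⟩ ⟨0, 0, 0, 0, 0, 0, 592011, 0, 0, 0, 0, 0, 0⟩ ⟨0, 0, 0, 0, 0, 0, 592011, 0, 0, 0, 0, 0, 0⟩ ⟨290, 1, -3024, 6, 61, 488, 803206, 0, 0, 0, 0, 0, 0⟩))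
    (.leaf (.box ⟨174, 1, -2048, 7, 75, 313, 394747, 0, 0, 0, 0, 0, 0⟩ ⟨0, 0, 0, 0, 0, 0, 477057, 0, 0, 0, 0, 0, 0⟩ ⟨0, 0, 0, 0, 0, 0, 477057, 0, 0, 0, 0, 0, 0⟩ ⟨0, 0, 0, 0, 0, 0, 602735, 0, 0, 0, 0, 0, 0⟩ ⟨0, 0, 0, 0, 0, 0, 602735, 0, 0, 0, 0, 0, 0⟩ ⟨324, 1, -3711, 6, 66, 573, 818314, 0, 0, 0, 0, 0, 0⟩)))
    (.s3
    (.leaf (.box ⟨213, 2, -2048, 10, 81, 324, 404094, 0, 0, 0, 0, 0, 0⟩ ⟨0, 0, 0, 0, 0, 0, 488106, 0, 0, 0, 0, 0, 0⟩ ⟨0, 0, 0, 0, 0, 0, 488106, 0, 0, 0, 0, 0, 0⟩ ⟨0, 0, 0, 0, 0, 0, 616217, 0, 0, 0, 0, 0, 0⟩ ⟨0, 0, 0, 0, 0, 0, 616217, 0, 0, 0, 0, 0, 0⟩ ⟨256, 1, -2304, 6, 45, 368, 835510, 0, 0, 0, 0, 0, 0⟩))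
    (.leaf (.box ⟨217, 2, -2048, 9, 78, 325, 423620, 0, 0, 0, 0, 0, 0⟩ ⟨0, 0, 0, 0, 0, 0, 509273, 0, 0, 0, 0, 0, 0⟩ ⟨0, 0, 0, 0, 0, 0, 509273, 0, 0, 0, 0, 0, 0⟩ ⟨0, 0, 0, 0, 0, 0, 638341, 0, 0, 0, 0, 0, 0⟩ ⟨0, 0, 0, 0, 0, 0, 638341, 0, 0, 0, 0, 0, 0⟩ ⟨260, 1, -2421, 6, 46, 388, 855038, 0, 0, 0, 0, 0, 0⟩))))

theorem parts6 :
    (runPathS conQ supQ (fun n Qs i d x => leafR conQ seg n Qs i d x) [.d0 true, .d1 false, .d2 false, .d0 false, .d1 true, .d0 false, .d0 false, .d1 false, .d2 false, .d2 false, .d3 true, .d1 true, .d3 true, .d0 true] tree93 0 0 0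
      (joinS (lay.B * lay.size) rootQ) = true) ∧
    (runPathS conQ supQ (fun n Qs i d x => leafR conQ seg n Qs i d x) [.d0 true, .d1 false, .d2 false, .d0 false, .d1 true, .d0 false, .d0 false, .d1 false, .d2 false, .d2 true] tree94 0 0 0
      (joinS (lay.B * lay.size) rootQ) = true) ∧
    (runPathS conQ supQ (fun n Qs i d x => leafR conQ seg n Qs i d x) [.d0 true, .d1 false, .d2 false, .d0 false, .d1 true, .d0 false, .d0 false, .d1 false, .d2 true] tree95 0 0 0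
      (joinS (lay.B * lay.size) rootQ) = true) ∧
    (runPathS conQ supQ (fun n Qs i d x => leafR conQ seg n Qs i d x) [.d0 true, .d1 false, .d2 false, .d0 false, .d1 true, .d0 false, .d0 false, .d1 true, .d2 false, .d2 false, .d3 false, .d0 false, .d3 false, .d1 false, .d3 false] tree96 0 0 0
      (joinS (lay.B * lay.size) rootQ) = true) ∧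
    (runPathS conQ supQ (fun n Qs i d x => leafR conQ seg n Qs i d x) [.d0 true, .d1 false, .d2 false, .d0 false, .d1 true, .d0 false, .d0 false, .d1 true, .d2 false, .d2 false, .d3 false, .d0 false, .d3 false, .d1 false, .d3 true] tree97 0 0 0
      (joinS (lay.B * lay.size) rootQ) = true) ∧
    (runPathS conQ supQ (fun n Qs i d x => leafR conQ seg n Qs i d x) [.d0 true, .d1 false, .d2 false, .d0 false, .d1 true, .d0 false, .d0 false, .d1 true, .d2 false, .d2 false, .d3 false, .d0 false, .d3 false, .d1 true] tree98 0 0 0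
      (joinS (lay.B * lay.size) rootQ) = true) ∧
    (runPathS conQ supQ (fun n Qs i d x => leafR conQ seg n Qs i d x) [.d0 true, .d1 false, .d2 false, .d0 false, .d1 true, .d0 false, .d0 false, .d1 true, .d2 false, .d2 false, .d3 false, .d0 false, .d3 true, .d1 false, .d3 false] tree99 0 0 0
      (joinS (lay.B * lay.size) rootQ) = true) ∧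
    (runPathS conQ supQ (fun n Qs i d x => leafR conQ seg n Qs i d x) [.d0 true, .d1 false, .d2 false, .d0 false, .d1 true, .d0 false, .d0 false, .d1 true, .d2 false, .d2 false, .d3 false, .d0 false, .d3 true, .d1 false, .d3 true] tree100 0 0 0
      (joinS (lay.B * lay.size) rootQ) = true) ∧
    (runPathS conQ supQ (fun n Qs i d x => leafR conQ seg n Qs i d x) [.d0 true, .d1 false, .d2 false, .d0 false, .d1 true, .d0 false, .d0 false, .d1 true, .d2 false, .d2 false, .d3 false, .d0 false, .d3 true, .d1 true] tree101 0 0 0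
      (joinS (lay.B * lay.size) rootQ) = true) ∧
    (runPathS conQ supQ (fun n Qs i d x => leafR conQ seg n Qs i d x) [.d0 true, .d1 false, .d2 false, .d0 false, .d1 true, .d0 false, .d0 false, .d1 true, .d2 false, .d2 false, .d3 false, .d0 true, .d3 false] tree102 0 0 0
      (joinS (lay.B * lay.size) rootQ) = true) ∧
    (runPathS conQ supQ (fun n Qs i d x => leafR conQ seg n Qs i d x) [.d0 true, .d1 false, .d2 false, .d0 false, .d1 true, .d0 false, .d0 false, .d1 true, .d2 false, .d2 false, .d3 false, .d0 true, .d3 true, .d1 false] tree103 0 0 0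
      (joinS (lay.B * lay.size) rootQ) = true) ∧
    (runPathS conQ supQ (fun n Qs i d x => leafR conQ seg n Qs i d x) [.d0 true, .d1 false, .d2 false, .d0 false, .d1 true, .d0 false, .d0 false, .d1 true, .d2 false, .d2 false, .d3 false, .d0 true, .d3 true, .d1 true] tree104 0 0 0
      (joinS (lay.B * lay.size) rootQ) = true) ∧
    (runPathS conQ supQ (fun n Qs i d x => leafR conQ seg n Qs i d x) [.d0 true, .d1 false, .d2 false, .d0 false, .d1 true, .d0 false, .d0 false, .d1 true, .d2 false, .d2 false, .d3 true, .d3 false, .d0 false, .d1 false, .d3 false] tree105 0 0 0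
      (joinS (lay.B * lay.size) rootQ) = true) ∧
    (runPathS conQ supQ (fun n Qs i d x => leafR conQ seg n Qs i d x) [.d0 true, .d1 false, .d2 false, .d0 false, .d1 true, .d0 false, .d0 false, .d1 true, .d2 false, .d2 false, .d3 true, .d3 false, .d0 false, .d1 false, .d3 true] tree106 0 0 0
      (joinS (lay.B * lay.size) rootQ) = true) ∧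
    (runPathS conQ supQ (fun n Qs i d x => leafR conQ seg n Qs i d x) [.d0 true, .d1 false, .d2 false, .d0 false, .d1 true, .d0 false, .d0 false, .d1 true, .d2 false, .d2 false, .d3 true, .d3 false, .d0 false, .d1 true] tree107 0 0 0
      (joinS (lay.B * lay.size) rootQ) = true) :=
  ⟨by decide +kernel,
  by decide +kernel,
  by decide +kernel,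
  by decide +kernel,
  by decide +kernel,
  by decide +kernel,
  by decide +kernel,
  by decide +kernel,
  by decide +kernel,
  by decide +kernel,
  by decide +kernel,
  by decide +kernel,
  by decide +kernel,
  by decide +kernel,
  by decide +kernel⟩

end Vale.Agent.P098.Six.S21
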