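import Vale.Agent.P098.Six.S21.Root

/-!
# P098, six dimensions: checked pieces of the tree
-/

namespace Vale.Agent.P098.Six.S21

/-- A piece of the tree. -/
noncomputable def tree108 : Tree LeafX :=
  .s3
    (.s2
    (.s3
    (.s1
    (.leaf (.box ⟨123, 3, -2048, 7, 85, 301, 402289, 0, 0, 0, 0, 0, 0⟩ ⟨0, 0, 0, 0, 0, 0, 489383, 0, 0, 0, 0, 0, 0⟩ ⟨0, 0, 0, 0, 0, 0, 489383, 0, 0, 0, 0, 0, 0⟩ ⟨0, 0, 0, 0, 0, 0, 624606, 0, 0, 0, 0, 0, 0⟩ ⟨0, 0, 0, 0, 0, 0, 624606, 0, 0, 0, 0, 0, 0⟩ ⟨227, 3, -3863, 6, 75, 568, 863090, 0, 0, 0, 0, 0, 0⟩))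
    (.s3
    (.leaf (.box ⟨131, 3, -2048, 8, 89, 314, 395476, 0, 0, 0, 0, 0, 0⟩ ⟨0, 0, 0, 0, 0, 0, 481224, 0, 0, 0, 0, 0, 0⟩ ⟨0, 0, 0, 0, 0, 0, 481224, 0, 0, 0, 0, 0, 0⟩ ⟨0, 0, 0, 0, 0, 0, 614451, 0, 0, 0, 0, 0, 0⟩ ⟨0, 0, 0, 0, 0, 0, 614451, 0, 0, 0, 0, 0, 0⟩ ⟨223, 2, -3688, 6, 75, 567, 849684, 0, 0, 0, 0, 0, 0⟩))
    (.leaf (.box ⟨124, 2, -2048, 7, 87, 314, 403749, 0, 0, 0, 0, 0, 0⟩ ⟨0, 0, 0, 0, 0, 0, 490349, 0, 0, 0, 0, 0, 0⟩ ⟨0, 0, 0, 0, 0, 0, 490349, 0, 0, 0, 0, 0, 0⟩ ⟨0, 0, 0, 0, 0, 0, 624242, 0, 0, 0, 0, 0, 0⟩ ⟨0, 0, 0, 0, 0, 0, 624242, 0, 0, 0, 0, 0, 0⟩ ⟨235, 2, -3786, 6, 76, 583, 858722, 0, 0, 0, 0, 0, 0⟩))))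
    (.s1
    (.leaf (.box ⟨128, 3, -2048, 7, 82, 302, 419335, 0, 0, 0, 0, 0, 0⟩ ⟨0, 0, 0, 0, 0, 0, 508131, 0, 0, 0, 0, 0, 0⟩ ⟨0, 0, 0, 0, 0, 0, 508131, 0, 0, 0, 0, 0, 0⟩ ⟨0, 0, 0, 0, 0, 0, 644635, 0, 0, 0, 0, 0, 0⟩ ⟨0, 0, 0, 0, 0, 0, 644635, 0, 0, 0, 0, 0, 0⟩ ⟨263, 3, -4357, 6, 83, 642, 881419, 0, 0, 0, 0, 0, 0⟩))
    (.s3
    (.leaf (.box ⟨129, 2, -2048, 7, 85, 315, 412396, 0, 0, 0, 0, 0, 0⟩ ⟨0, 0, 0, 0, 0, 0, 499849, 0, 0, 0, 0, 0, 0⟩ ⟨0, 0, 0, 0, 0, 0, 499849, 0, 0, 0, 0, 0, 0⟩ ⟨0, 0, 0, 0, 0, 0, 634373, 0, 0, 0, 0, 0, 0⟩ ⟨0, 0, 0, 0, 0, 0, 634373, 0, 0, 0, 0, 0, 0⟩ ⟨248, 2, -4065, 6, 81, 626, 867969, 0, 0, 0, 0, 0, 0⟩))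
    (.leaf (.box ⟨126, 2, -2048, 7, 84, 315, 421443, 0, 0, 0, 0, 0, 0⟩ ⟨0, 0, 0, 0, 0, 0, 509746, 0, 0, 0, 0, 0, 0⟩ ⟨0, 0, 0, 0, 0, 0, 509746, 0, 0, 0, 0, 0, 0⟩ ⟨0, 0, 0, 0, 0, 0, 644860, 0, 0, 0, 0, 0, 0⟩ ⟨0, 0, 0, 0, 0, 0, 644860, 0, 0, 0, 0, 0, 0⟩ ⟨232, 2, -3786, 6, 75, 584, 877432, 0, 0, 0, 0, 0, 0⟩)))))
    (.leaf (.box ⟨169, 3, -2048, 8, 80, 300, 400426, 0, 0, 0, 0, 0, 0⟩ ⟨0, 0, 0, 0, 0, 0, 487516, 0, 0, 0, 0, 0, 0⟩ ⟨0, 0, 0, 0, 0, 0, 487516, 0, 0, 0, 0, 0, 0⟩ ⟨0, 0, 0, 0, 0, 0, 623018, 0, 0, 0, 0, 0, 0⟩ ⟨0, 0, 0, 0, 0, 0, 623018, 0, 0, 0, 0, 0, 0⟩ ⟨274, 2, -3390, 6, 62, 496, 862837, 0, 0, 0, 0, 0, 0⟩)))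
    (.s2
    (.s3
    (.s1
    (.leaf (.box ⟨129, 3, -2048, 7, 79, 302, 437994, 0, 0, 0, 0, 0, 0⟩ ⟨0, 0, 0, 0, 0, 0, 528484, 0, 0, 0, 0, 0, 0⟩ ⟨0, 0, 0, 0, 0, 0, 528484, 0, 0, 0, 0, 0, 0⟩ ⟨0, 0, 0, 0, 0, 0, 666099, 0, 0, 0, 0, 0, 0⟩ ⟨0, 0, 0, 0, 0, 0, 666099, 0, 0, 0, 0, 0, 0⟩ ⟨243, 3, -4112, 6, 77, 606, 900615, 0, 0, 0, 0, 0, 0⟩))
    (.s3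
    (.leaf (.box ⟨126, 2, -2048, 6, 82, 315, 430917, 0, 0, 0, 0, 0, 0⟩ ⟨0, 0, 0, 0, 0, 0, 520066, 0, 0, 0, 0, 0, 0⟩ ⟨0, 0, 0, 0, 0, 0, 520066, 0, 0, 0, 0, 0, 0⟩ ⟨0, 0, 0, 0, 0, 0, 655721, 0, 0, 0, 0, 0, 0⟩ ⟨0, 0, 0, 0, 0, 0, 655721, 0, 0, 0, 0, 0, 0⟩ ⟨256, 2, -4245, 6, 83, 655, 887120, 0, 0, 0, 0, 0, 0⟩))
    (.leaf (.box ⟨129, 2, -2048, 7, 80, 316, 440849, 0, 0, 0, 0, 0, 0⟩ ⟨0, 0, 0, 0, 0, 0, 530835, 0, 0, 0, 0, 0, 0⟩ ⟨0, 0, 0, 0, 0, 0, 530835, 0, 0, 0, 0, 0, 0⟩ ⟨0, 0, 0, 0, 0, 0, 666978, 0, 0, 0, 0, 0, 0⟩ ⟨0, 0, 0, 0, 0, 0, 666978, 0, 0, 0, 0, 0, 0⟩ ⟨252, 2, -4184, 6, 81, 646, 897040, 0, 0, 0, 0, 0, 0⟩))))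
    (.s0
    (.s1
    (.leaf (.box ⟨128, 2, -2482, 6, 90, 362, 458504, 0, 0, 0, 0, 0, 0⟩ ⟨0, 0, 0, 0, 0, 0, 550652, 0, 0, 0, 0, 0, 0⟩ ⟨0, 0, 0, 0, 0, 0, 550652, 0, 0, 0, 0, 0, 0⟩ ⟨0, 0, 0, 0, 0, 0, 689154, 0, 0, 0, 0, 0, 0⟩ ⟨0, 0, 0, 0, 0, 0, 689154, 0, 0, 0, 0, 0, 0⟩ ⟨259, 2, -5366, 6, 97, 784, 920743, 0, 0, 0, 0, 0, 0⟩))
    (.leaf (.box ⟨130, 2, -2500, 6, 94, 382, 450760, 0, 0, 0, 0, 0, 0⟩ ⟨0, 0, 0, 0, 0, 0, 541505, 0, 0, 0, 0, 0, 0⟩ ⟨0, 0, 0, 0, 0, 0, 541505, 0, 0, 0, 0, 0, 0⟩ ⟨0, 0, 0, 0, 0, 0, 677995, 0, 0, 0, 0, 0, 0⟩ ⟨0, 0, 0, 0, 0, 0, 677995, 0, 0, 0, 0, 0, 0⟩ ⟨229, 2, -4422, 6, 83, 678, 906478, 0, 0, 0, 0, 0, 0⟩)))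
    (.leaf (.box ⟨145, 2, -2087, 6, 78, 318, 471737, 0, 0, 0, 0, 0, 0⟩ ⟨0, 0, 0, 0, 0, 0, 566568, 0, 0, 0, 0, 0, 0⟩ ⟨0, 0, 0, 0, 0, 0, 566568, 0, 0, 0, 0, 0, 0⟩ ⟨0, 0, 0, 0, 0, 0, 709119, 0, 0, 0, 0, 0, 0⟩ ⟨0, 0, 0, 0, 0, 0, 709119, 0, 0, 0, 0, 0, 0⟩ ⟨291, 2, -3946, 6, 73, 601, 947516, 0, 0, 0, 0, 0, 0⟩))))
    (.leaf (.box ⟨170, 3, -2048, 8, 74, 300, 436700, 0, 0, 0, 0, 0, 0⟩ ⟨0, 0, 0, 0, 0, 0, 527319, 0, 0, 0, 0, 0, 0⟩ ⟨0, 0, 0, 0, 0, 0, 527319, 0, 0, 0, 0, 0, 0⟩ ⟨0, 0, 0, 0, 0, 0, 665392, 0, 0, 0, 0, 0, 0⟩ ⟨0, 0, 0, 0, 0, 0, 665392, 0, 0, 0, 0, 0, 0⟩ ⟨282, 2, -3342, 6, 59, 491, 901421, 0, 0, 0, 0, 0, 0⟩)))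

/-- A piece of the tree. -/
noncomputable def tree109 : Tree LeafX :=
  .s3
    (.s0
    (.s3
    (.leaf (.box ⟨194, 2, -2048, 11, 88, 328, 386106, 0, 0, 0, 0, 0, 0⟩ ⟨0, 0, 0, 0, 0, 0, 470153, 0, 0, 0, 0, 0, 0⟩ ⟨0, 0, 0, 0, 0, 0, 470153, 0, 0, 0, 0, 0, 0⟩ ⟨0, 0, 0, 0, 0, 0, 600972, 0, 0, 0, 0, 0, 0⟩ ⟨0, 0, 0, 0, 0, 0, 600972, 0, 0, 0, 0, 0, 0⟩ ⟨243, 1, -2458, 6, 50, 396, 832655, 0, 0, 0, 0, 0, 0⟩))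
    (.leaf (.box ⟨204, 3, -2048, 11, 85, 329, 402928, 0, 0, 0, 0, 0, 0⟩ ⟨0, 0, 0, 0, 0, 0, 488702, 0, 0, 0, 0, 0, 0⟩ ⟨0, 0, 0, 0, 0, 0, 488702, 0, 0, 0, 0, 0, 0⟩ ⟨0, 0, 0, 0, 0, 0, 620868, 0, 0, 0, 0, 0, 0⟩ ⟨0, 0, 0, 0, 0, 0, 620868, 0, 0, 0, 0, 0, 0⟩ ⟨228, 1, -2270, 6, 45, 367, 851023, 0, 0, 0, 0, 0, 0⟩)))
    (.s3
    (.leaf (.box ⟨183, 3, -2048, 10, 88, 334, 403632, 0, 0, 0, 0, 0, 0⟩ ⟨0, 0, 0, 0, 0, 0, 491375, 0, 0, 0, 0, 0, 0⟩ ⟨0, 0, 0, 0, 0, 0, 491375, 0, 0, 0, 0, 0, 0⟩ ⟨0, 0, 0, 0, 0, 0, 627862, 0, 0, 0, 0, 0, 0⟩ ⟨0, 0, 0, 0, 0, 0, 627862, 0, 0, 0, 0, 0, 0⟩ ⟨237, 2, -2515, 6, 51, 412, 869332, 0, 0, 0, 0, 0, 0⟩))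
    (.leaf (.box ⟨198, 3, -2048, 10, 85, 334, 421097, 0, 0, 0, 0, 0, 0⟩ ⟨0, 0, 0, 0, 0, 0, 510621, 0, 0, 0, 0, 0, 0⟩ ⟨0, 0, 0, 0, 0, 0, 510621, 0, 0, 0, 0, 0, 0⟩ ⟨0, 0, 0, 0, 0, 0, 648486, 0, 0, 0, 0, 0, 0⟩ ⟨0, 0, 0, 0, 0, 0, 648486, 0, 0, 0, 0, 0, 0⟩ ⟨249, 2, -2623, 6, 52, 431, 888331, 0, 0, 0, 0, 0, 0⟩))))
    (.s0
    (.s3
    (.leaf (.box ⟨200, 2, -2048, 10, 82, 330, 421341, 0, 0, 0, 0, 0, 0⟩ ⟨0, 0, 0, 0, 0, 0, 508835, 0, 0, 0, 0, 0, 0⟩ ⟨0, 0, 0, 0, 0, 0, 508835, 0, 0, 0, 0, 0, 0⟩ ⟨0, 0, 0, 0, 0, 0, 642188, 0, 0, 0, 0, 0, 0⟩ ⟨0, 0, 0, 0, 0, 0, 642188, 0, 0, 0, 0, 0, 0⟩ ⟨238, 1, -2364, 6, 46, 383, 870262, 0, 0, 0, 0, 0, 0⟩))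
    (.leaf (.box ⟨201, 2, -2048, 10, 78, 331, 441581, 0, 0, 0, 0, 0, 0⟩ ⟨0, 0, 0, 0, 0, 0, 530765, 0, 0, 0, 0, 0, 0⟩ ⟨0, 0, 0, 0, 0, 0, 530765, 0, 0, 0, 0, 0, 0⟩ ⟨0, 0, 0, 0, 0, 0, 665088, 0, 0, 0, 0, 0, 0⟩ ⟨0, 0, 0, 0, 0, 0, 665088, 0, 0, 0, 0, 0, 0⟩ ⟨262, 1, -2595, 6, 50, 422, 890435, 0, 0, 0, 0, 0, 0⟩)))
    (.s3
    (.leaf (.box ⟨194, 2, -2048, 10, 82, 335, 440213, 0, 0, 0, 0, 0, 0⟩ ⟨0, 0, 0, 0, 0, 0, 531510, 0, 0, 0, 0, 0, 0⟩ ⟨0, 0, 0, 0, 0, 0, 531510, 0, 0, 0, 0, 0, 0⟩ ⟨0, 0, 0, 0, 0, 0, 670585, 0, 0, 0, 0, 0, 0⟩ ⟨0, 0, 0, 0, 0, 0, 670585, 0, 0, 0, 0, 0, 0⟩ ⟨256, 2, -2620, 6, 51, 431, 908231, 0, 0, 0, 0, 0, 0⟩))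
    (.leaf (.box ⟨194, 2, -2048, 9, 79, 336, 461228, 0, 0, 0, 0, 0, 0⟩ ⟨0, 0, 0, 0, 0, 0, 554266, 0, 0, 0, 0, 0, 0⟩ ⟨0, 0, 0, 0, 0, 0, 554266, 0, 0, 0, 0, 0, 0⟩ ⟨0, 0, 0, 0, 0, 0, 694324, 0, 0, 0, 0, 0, 0⟩ ⟨0, 0, 0, 0, 0, 0, 694324, 0, 0, 0, 0, 0, 0⟩ ⟨258, 2, -2594, 6, 50, 428, 929096, 0, 0, 0, 0, 0, 0⟩))))

/-- A piece of the tree. -/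
noncomputable def tree110 : Tree LeafX :=
  .s3
    (.s0
    (.s3
    (.s0
    (.leaf (.box ⟨195, 2, -2048, 8, 67, 288, 434953, 0, 0, 0, 0, 0, 0⟩ ⟨0, 0, 0, 0, 0, 0, 520042, 0, 0, 0, 0, 0, 0⟩ ⟨0, 0, 0, 0, 0, 0, 520042, 0, 0, 0, 0, 0, 0⟩ ⟨0, 0, 0, 0, 0, 0, 646517, 0, 0, 0, 0, 0, 0⟩ ⟨0, 0, 0, 0, 0, 0, 646517, 0, 0, 0, 0, 0, 0⟩ ⟨316, 2, -3235, 6, 55, 458, 854280, 0, 0, 0, 0, 0, 0⟩))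
    (.leaf (.box ⟨196, 2, -2048, 8, 68, 291, 443875, 0, 0, 0, 0, 0, 0⟩ ⟨0, 0, 0, 0, 0, 0, 530657, 0, 0, 0, 0, 0, 0⟩ ⟨0, 0, 0, 0, 0, 0, 530657, 0, 0, 0, 0, 0, 0⟩ ⟨0, 0, 0, 0, 0, 0, 659617, 0, 0, 0, 0, 0, 0⟩ ⟨0, 0, 0, 0, 0, 0, 659617, 0, 0, 0, 0, 0, 0⟩ ⟨304, 2, -3247, 6, 55, 464, 871380, 0, 0, 0, 0, 0, 0⟩)))
    (.s0
    (.leaf (.box ⟨203, 2, -2048, 8, 64, 289, 458158, 0, 0, 0, 0, 0, 0⟩ ⟨0, 0, 0, 0, 0, 0, 544653, 0, 0, 0, 0, 0, 0⟩ ⟨0, 0, 0, 0, 0, 0, 544653, 0, 0, 0, 0, 0, 0⟩ ⟨0, 0, 0, 0, 0, 0, 671407, 0, 0, 0, 0, 0, 0⟩ ⟨0, 0, 0, 0, 0, 0, 671407, 0, 0, 0, 0, 0, 0⟩ ⟨326, 2, -3218, 6, 53, 456, 875053, 0, 0, 0, 0, 0, 0⟩))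
    (.leaf (.box ⟨190, 2, -2048, 7, 65, 292, 467487, 0, 0, 0, 0, 0, 0⟩ ⟨0, 0, 0, 0, 0, 0, 555693, 0, 0, 0, 0, 0, 0⟩ ⟨0, 0, 0, 0, 0, 0, 555693, 0, 0, 0, 0, 0, 0⟩ ⟨0, 0, 0, 0, 0, 0, 684923, 0, 0, 0, 0, 0, 0⟩ ⟨0, 0, 0, 0, 0, 0, 684923, 0, 0, 0, 0, 0, 0⟩ ⟨321, 2, -3348, 6, 56, 479, 892475, 0, 0, 0, 0, 0, 0⟩))))
    (.s3
    (.s1
    (.s2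
    (.leaf (.box ⟨141, 2, -2657, 6, 91, 381, 460376, 0, 0, 0, 0, 0, 0⟩ ⟨0, 0, 0, 0, 0, 0, 550192, 0, 0, 0, 0, 0, 0⟩ ⟨0, 0, 0, 0, 0, 0, 550192, 0, 0, 0, 0, 0, 0⟩ ⟨0, 0, 0, 0, 0, 0, 683545, 0, 0, 0, 0, 0, 0⟩ ⟨0, 0, 0, 0, 0, 0, 683545, 0, 0, 0, 0, 0, 0⟩ ⟨277, 2, -5235, 6, 92, 752, 902222, 0, 0, 0, 0, 0, 0⟩))
    (.leaf (.box ⟨150, 2, -3010, 6, 94, 418, 465967, 0, 0, 0, 0, 0, 0⟩ ⟨0, 0, 0, 0, 0, 0, 557023, 0, 0, 0, 0, 0, 0⟩ ⟨0, 0, 0, 0, 0, 0, 557023, 0, 0, 0, 0, 0, 0⟩ ⟨0, 0, 0, 0, 0, 0, 692308, 0, 0, 0, 0, 0, 0⟩ ⟨0, 0, 0, 0, 0, 0, 692308, 0, 0, 0, 0, 0, 0⟩ ⟨263, 2, -5357, 6, 86, 747, 914386, 0, 0, 0, 0, 0, 0⟩)))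
    (.leaf (.box ⟨142, 2, -2048, 7, 70, 303, 453218, 0, 0, 0, 0, 0, 0⟩ ⟨0, 0, 0, 0, 0, 0, 541771, 0, 0, 0, 0, 0, 0⟩ ⟨0, 0, 0, 0, 0, 0, 541771, 0, 0, 0, 0, 0, 0⟩ ⟨0, 0, 0, 0, 0, 0, 673329, 0, 0, 0, 0, 0, 0⟩ ⟨0, 0, 0, 0, 0, 0, 673329, 0, 0, 0, 0, 0, 0⟩ ⟨249, 2, -3535, 6, 62, 525, 889272, 0, 0, 0, 0, 0, 0⟩)))
    (.s1
    (.s2
    (.leaf (.box ⟨154, 2, -2989, 6, 98, 429, 484609, 0, 0, 0, 0, 0, 0⟩ ⟨0, 0, 0, 0, 0, 0, 575859, 0, 0, 0, 0, 0, 0⟩ ⟨0, 0, 0, 0, 0, 0, 575859, 0, 0, 0, 0, 0, 0⟩ ⟨0, 0, 0, 0, 0, 0, 709443, 0, 0, 0, 0, 0, 0⟩ ⟨0, 0, 0, 0, 0, 0, 709443, 0, 0, 0, 0, 0, 0⟩ ⟨266, 2, -5051, 6, 87, 727, 923722, 0, 0, 0, 0, 0, 0⟩))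
    (.leaf (.box ⟨154, 2, -3085, 6, 92, 430, 490694, 0, 0, 0, 0, 0, 0⟩ ⟨0, 0, 0, 0, 0, 0, 583235, 0, 0, 0, 0, 0, 0⟩ ⟨0, 0, 0, 0, 0, 0, 583235, 0, 0, 0, 0, 0, 0⟩ ⟨0, 0, 0, 0, 0, 0, 718792, 0, 0, 0, 0, 0, 0⟩ ⟨0, 0, 0, 0, 0, 0, 718792, 0, 0, 0, 0, 0, 0⟩ ⟨292, 2, -5911, 6, 93, 825, 936442, 0, 0, 0, 0, 0, 0⟩)))
    (.leaf (.box ⟨148, 2, -2048, 7, 67, 303, 477252, 0, 0, 0, 0, 0, 0⟩ ⟨0, 0, 0, 0, 0, 0, 567246, 0, 0, 0, 0, 0, 0⟩ ⟨0, 0, 0, 0, 0, 0, 567246, 0, 0, 0, 0, 0, 0⟩ ⟨0, 0, 0, 0, 0, 0, 699067, 0, 0, 0, 0, 0, 0⟩ ⟨0, 0, 0, 0, 0, 0, 699067, 0, 0, 0, 0, 0, 0⟩ ⟨243, 2, -3337, 6, 57, 497, 910702, 0, 0, 0, 0, 0, 0⟩)))))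
    (.s0
    (.s1
    (.s3
    (.leaf (.box ⟨144, 2, -2055, 6, 61, 285, 490537, 0, 0, 0, 0, 0, 0⟩ ⟨0, 0, 0, 0, 0, 0, 579254, 0, 0, 0, 0, 0, 0⟩ ⟨0, 0, 0, 0, 0, 0, 579254, 0, 0, 0, 0, 0, 0⟩ ⟨0, 0, 0, 0, 0, 0, 707145, 0, 0, 0, 0, 0, 0⟩ ⟨0, 0, 0, 0, 0, 0, 707145, 0, 0, 0, 0, 0, 0⟩ ⟨267, 2, -3806, 6, 61, 530, 907509, 0, 0, 0, 0, 0, 0⟩))
    (.leaf (.box ⟨152, 2, -2163, 6, 61, 301, 519115, 0, 0, 0, 0, 0, 0⟩ ⟨0, 0, 0, 0, 0, 0, 608515, 0, 0, 0, 0, 0, 0⟩ ⟨0, 0, 0, 0, 0, 0, 608515, 0, 0, 0, 0, 0, 0⟩ ⟨0, 0, 0, 0, 0, 0, 735113, 0, 0, 0, 0, 0, 0⟩ ⟨0, 0, 0, 0, 0, 0, 735113, 0, 0, 0, 0, 0, 0⟩ ⟨265, 2, -3735, 6, 59, 521, 928223, 0, 0, 0, 0, 0, 0⟩)))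
    (.leaf (.box ⟨168, 2, -2048, 7, 64, 301, 482985, 0, 0, 0, 0, 0, 0⟩ ⟨0, 0, 0, 0, 0, 0, 570523, 0, 0, 0, 0, 0, 0⟩ ⟨0, 0, 0, 0, 0, 0, 570523, 0, 0, 0, 0, 0, 0⟩ ⟨0, 0, 0, 0, 0, 0, 696816, 0, 0, 0, 0, 0, 0⟩ ⟨0, 0, 0, 0, 0, 0, 696816, 0, 0, 0, 0, 0, 0⟩ ⟨255, 2, -3301, 6, 55, 485, 894917, 0, 0, 0, 0, 0, 0⟩)))
    (.s3
    (.s1
    (.s2
    (.leaf (.box ⟨154, 2, -2954, 6, 92, 425, 511255, 0, 0, 0, 0, 0, 0⟩ ⟨0, 0, 0, 0, 0, 0, 603596, 0, 0, 0, 0, 0, 0⟩ ⟨0, 0, 0, 0, 0, 0, 603596, 0, 0, 0, 0, 0, 0⟩ ⟨0, 0, 0, 0, 0, 0, 736644, 0, 0, 0, 0, 0, 0⟩ ⟨0, 0, 0, 0, 0, 0, 736644, 0, 0, 0, 0, 0, 0⟩ ⟨269, 2, -5166, 6, 88, 745, 944932, 0, 0, 0, 0, 0, 0⟩))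
    (.leaf (.box ⟨167, 2, -3195, 6, 91, 446, 517942, 0, 0, 0, 0, 0, 0⟩ ⟨0, 0, 0, 0, 0, 0, 611642, 0, 0, 0, 0, 0, 0⟩ ⟨0, 0, 0, 0, 0, 0, 611642, 0, 0, 0, 0, 0, 0⟩ ⟨0, 0, 0, 0, 0, 0, 746731, 0, 0, 0, 0, 0, 0⟩ ⟨0, 0, 0, 0, 0, 0, 746731, 0, 0, 0, 0, 0, 0⟩ ⟨247, 2, -5018, 6, 77, 701, 958408, 0, 0, 0, 0, 0, 0⟩)))
    (.leaf (.box ⟨153, 2, -2048, 7, 64, 304, 503733, 0, 0, 0, 0, 0, 0⟩ ⟨0, 0, 0, 0, 0, 0, 594851, 0, 0, 0, 0, 0, 0⟩ ⟨0, 0, 0, 0, 0, 0, 594851, 0, 0, 0, 0, 0, 0⟩ ⟨0, 0, 0, 0, 0, 0, 726210, 0, 0, 0, 0, 0, 0⟩ ⟨0, 0, 0, 0, 0, 0, 726210, 0, 0, 0, 0, 0, 0⟩ ⟨250, 2, -3429, 6, 58, 511, 932028, 0, 0, 0, 0, 0, 0⟩)))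
    (.s1
    (.leaf (.box ⟨136, 3, -2048, 9, 62, 291, 542010, 0, 0, 0, 0, 0, 0⟩ ⟨176, 2, -2599, 6, 63, 369, 633798, 0, 0, 0, 0, 0, 0⟩ ⟨176, 2, -2599, 6, 63, 369, 633798, 0, 0, 0, 0, 0, 0⟩ ⟨209, 2, -3115, 6, 62, 443, 770581, 0, 0, 0, 0, 0, 0⟩ ⟨209, 2, -3115, 6, 62, 443, 770581, 0, 0, 0, 0, 0, 0⟩ ⟨246, 2, -3666, 6, 58, 521, 969980, 0, 0, 0, 0, 0, 0⟩))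
    (.leaf (.box ⟨150, 2, -2048, 7, 61, 305, 533100, 0, 0, 0, 0, 0, 0⟩ ⟨0, 0, 0, 0, 0, 0, 624922, 0, 0, 0, 0, 0, 0⟩ ⟨0, 0, 0, 0, 0, 0, 624922, 0, 0, 0, 0, 0, 0⟩ ⟨0, 0, 0, 0, 0, 0, 754957, 0, 0, 0, 0, 0, 0⟩ ⟨0, 0, 0, 0, 0, 0, 754957, 0, 0, 0, 0, 0, 0⟩ ⟨259, 2, -3508, 6, 58, 525, 953326, 0, 0, 0, 0, 0, 0⟩)))))

/-- A piece of the tree. -/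
noncomputable def tree111 : Tree LeafX :=
  .s3
    (.s0
    (.leaf (.box ⟨236, 2, -2048, 11, 76, 323, 427643, 0, 0, 0, 0, 0, 0⟩ ⟨0, 0, 0, 0, 0, 0, 511555, 0, 0, 0, 0, 0, 0⟩ ⟨0, 0, 0, 0, 0, 0, 511555, 0, 0, 0, 0, 0, 0⟩ ⟨0, 0, 0, 0, 0, 0, 636435, 0, 0, 0, 0, 0, 0⟩ ⟨0, 0, 0, 0, 0, 0, 636435, 0, 0, 0, 0, 0, 0⟩ ⟨321, 1, -2684, 6, 50, 426, 841976, 0, 0, 0, 0, 0, 0⟩))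
    (.s3
    (.leaf (.box ⟨229, 2, -2048, 10, 74, 326, 445186, 0, 0, 0, 0, 0, 0⟩ ⟨0, 0, 0, 0, 0, 0, 532419, 0, 0, 0, 0, 0, 0⟩ ⟨0, 0, 0, 0, 0, 0, 532419, 0, 0, 0, 0, 0, 0⟩ ⟨0, 0, 0, 0, 0, 0, 662170, 0, 0, 0, 0, 0, 0⟩ ⟨0, 0, 0, 0, 0, 0, 662170, 0, 0, 0, 0, 0, 0⟩ ⟨275, 1, -2500, 6, 47, 402, 875537, 0, 0, 0, 0, 0, 0⟩))
    (.leaf (.box ⟨220, 2, -2048, 9, 71, 328, 469128, 0, 0, 0, 0, 0, 0⟩ ⟨0, 0, 0, 0, 0, 0, 557833, 0, 0, 0, 0, 0, 0⟩ ⟨0, 0, 0, 0, 0, 0, 557833, 0, 0, 0, 0, 0, 0⟩ ⟨0, 0, 0, 0, 0, 0, 687905, 0, 0, 0, 0, 0, 0⟩ ⟨0, 0, 0, 0, 0, 0, 687905, 0, 0, 0, 0, 0, 0⟩ ⟨271, 1, -2473, 6, 45, 399, 897081, 0, 0, 0, 0, 0, 0⟩))))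
    (.s0
    (.leaf (.box ⟨247, 2, -2048, 9, 67, 325, 476361, 0, 0, 0, 0, 0, 0⟩ ⟨0, 0, 0, 0, 0, 0, 562898, 0, 0, 0, 0, 0, 0⟩ ⟨0, 0, 0, 0, 0, 0, 562898, 0, 0, 0, 0, 0, 0⟩ ⟨0, 0, 0, 0, 0, 0, 687854, 0, 0, 0, 0, 0, 0⟩ ⟨0, 0, 0, 0, 0, 0, 687854, 0, 0, 0, 0, 0, 0⟩ ⟨298, 1, -2455, 6, 44, 393, 884116, 0, 0, 0, 0, 0, 0⟩))
    (.s2
    (.leaf (.box ⟨192, 3, -2048, 10, 76, 337, 495002, 0, 0, 0, 0, 0, 0⟩ ⟨0, 0, 0, 0, 0, 0, 584847, 0, 0, 0, 0, 0, 0⟩ ⟨0, 0, 0, 0, 0, 0, 584847, 0, 0, 0, 0, 0, 0⟩ ⟨0, 0, 0, 0, 0, 0, 714537, 0, 0, 0, 0, 0, 0⟩ ⟨0, 0, 0, 0, 0, 0, 714537, 0, 0, 0, 0, 0, 0⟩ ⟨362, 2, -3841, 6, 73, 636, 918134, 0, 0, 0, 0, 0, 0⟩))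
    (.leaf (.box ⟨184, 1, -2177, 6, 67, 343, 506055, 0, 0, 0, 0, 0, 0⟩ ⟨0, 0, 0, 0, 0, 0, 598013, 0, 0, 0, 0, 0, 0⟩ ⟨0, 0, 0, 0, 0, 0, 598013, 0, 0, 0, 0, 0, 0⟩ ⟨0, 0, 0, 0, 0, 0, 730813, 0, 0, 0, 0, 0, 0⟩ ⟨0, 0, 0, 0, 0, 0, 730813, 0, 0, 0, 0, 0, 0⟩ ⟨335, 1, -3833, 6, 64, 608, 939431, 0, 0, 0, 0, 0, 0⟩))))

/-- A piece of the tree. -/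
noncomputable def tree112 : Tree LeafX :=
  .s3
    (.s2
    (.s3
    (.s1
    (.leaf (.box ⟨126, 3, -2070, 6, 73, 306, 481157, 0, 0, 0, 0, 0, 0⟩ ⟨0, 0, 0, 0, 0, 0, 574893, 0, 0, 0, 0, 0, 0⟩ ⟨0, 0, 0, 0, 0, 0, 574893, 0, 0, 0, 0, 0, 0⟩ ⟨0, 0, 0, 0, 0, 0, 713988, 0, 0, 0, 0, 0, 0⟩ ⟨0, 0, 0, 0, 0, 0, 713988, 0, 0, 0, 0, 0, 0⟩ ⟨250, 3, -4165, 6, 75, 616, 941872, 0, 0, 0, 0, 0, 0⟩))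
    (.s3
    (.leaf (.box ⟨133, 2, -2111, 6, 78, 326, 473761, 0, 0, 0, 0, 0, 0⟩ ⟨0, 0, 0, 0, 0, 0, 566167, 0, 0, 0, 0, 0, 0⟩ ⟨0, 0, 0, 0, 0, 0, 566167, 0, 0, 0, 0, 0, 0⟩ ⟨0, 0, 0, 0, 0, 0, 703352, 0, 0, 0, 0, 0, 0⟩ ⟨0, 0, 0, 0, 0, 0, 703352, 0, 0, 0, 0, 0, 0⟩ ⟨267, 2, -4353, 6, 82, 674, 928280, 0, 0, 0, 0, 0, 0⟩))
    (.leaf (.box ⟨133, 2, -2139, 6, 77, 331, 485908, 0, 0, 0, 0, 0, 0⟩ ⟨0, 0, 0, 0, 0, 0, 579070, 0, 0, 0, 0, 0, 0⟩ ⟨0, 0, 0, 0, 0, 0, 579070, 0, 0, 0, 0, 0, 0⟩ ⟨0, 0, 0, 0, 0, 0, 716430, 0, 0, 0, 0, 0, 0⟩ ⟨0, 0, 0, 0, 0, 0, 716430, 0, 0, 0, 0, 0, 0⟩ ⟨261, 2, -4182, 6, 78, 649, 939218, 0, 0, 0, 0, 0, 0⟩))))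
    (.s0
    (.s1
    (.leaf (.box ⟨144, 2, -2879, 6, 95, 422, 506289, 0, 0, 0, 0, 0, 0⟩ ⟨0, 0, 0, 0, 0, 0, 601487, 0, 0, 0, 0, 0, 0⟩ ⟨0, 0, 0, 0, 0, 0, 601487, 0, 0, 0, 0, 0, 0⟩ ⟨0, 0, 0, 0, 0, 0, 740775, 0, 0, 0, 0, 0, 0⟩ ⟨0, 0, 0, 0, 0, 0, 740775, 0, 0, 0, 0, 0, 0⟩ ⟨238, 3, -4833, 6, 84, 708, 964015, 0, 0, 0, 0, 0, 0⟩))
    (.leaf (.box ⟨143, 2, -2710, 6, 93, 416, 498153, 0, 0, 0, 0, 0, 0⟩ ⟨0, 0, 0, 0, 0, 0, 591971, 0, 0, 0, 0, 0, 0⟩ ⟨0, 0, 0, 0, 0, 0, 591971, 0, 0, 0, 0, 0, 0⟩ ⟨0, 0, 0, 0, 0, 0, 729324, 0, 0, 0, 0, 0, 0⟩ ⟨0, 0, 0, 0, 0, 0, 729324, 0, 0, 0, 0, 0, 0⟩ ⟨271, 2, -5191, 6, 94, 799, 949675, 0, 0, 0, 0, 0, 0⟩)))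
    (.leaf (.box ⟨147, 3, -2048, 8, 72, 313, 520970, 0, 0, 0, 0, 0, 0⟩ ⟨0, 0, 0, 0, 0, 0, 618953, 0, 0, 0, 0, 0, 0⟩ ⟨0, 0, 0, 0, 0, 0, 618953, 0, 0, 0, 0, 0, 0⟩ ⟨0, 0, 0, 0, 0, 0, 762329, 0, 0, 0, 0, 0, 0⟩ ⟨0, 0, 0, 0, 0, 0, 762329, 0, 0, 0, 0, 0, 0⟩ ⟨339, 3, -4663, 6, 83, 712, 992154, 0, 0, 0, 0, 0, 0⟩))))
    (.leaf (.box ⟨166, 3, -2048, 9, 70, 300, 480551, 0, 0, 0, 0, 0, 0⟩ ⟨0, 0, 0, 0, 0, 0, 574561, 0, 0, 0, 0, 0, 0⟩ ⟨0, 0, 0, 0, 0, 0, 574561, 0, 0, 0, 0, 0, 0⟩ ⟨0, 0, 0, 0, 0, 0, 714297, 0, 0, 0, 0, 0, 0⟩ ⟨0, 0, 0, 0, 0, 0, 714297, 0, 0, 0, 0, 0, 0⟩ ⟨307, 2, -3715, 6, 63, 547, 943844, 0, 0, 0, 0, 0, 0⟩)))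
    (.s2
    (.s3
    (.s1
    (.leaf (.box ⟨125, 4, -2048, 9, 70, 304, 533907, 0, 0, 0, 0, 0, 0⟩ ⟨0, 0, 0, 0, 0, 0, 630203, 0, 0, 0, 0, 0, 0⟩ ⟨0, 0, 0, 0, 0, 0, 630203, 0, 0, 0, 0, 0, 0⟩ ⟨0, 0, 0, 0, 0, 0, 768878, 0, 0, 0, 0, 0, 0⟩ ⟨0, 0, 0, 0, 0, 0, 768878, 0, 0, 0, 0, 0, 0⟩ ⟨265, 3, -4344, 6, 76, 644, 985801, 0, 0, 0, 0, 0, 0⟩))
    (.s3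
    (.leaf (.box ⟨147, 2, -2341, 6, 78, 363, 526162, 0, 0, 0, 0, 0, 0⟩ ⟨0, 0, 0, 0, 0, 0, 621164, 0, 0, 0, 0, 0, 0⟩ ⟨0, 0, 0, 0, 0, 0, 621164, 0, 0, 0, 0, 0, 0⟩ ⟨0, 0, 0, 0, 0, 0, 758029, 0, 0, 0, 0, 0, 0⟩ ⟨0, 0, 0, 0, 0, 0, 758029, 0, 0, 0, 0, 0, 0⟩ ⟨272, 2, -4338, 6, 79, 675, 972253, 0, 0, 0, 0, 0, 0⟩))
    (.leaf (.box ⟨144, 2, -2268, 6, 74, 353, 540967, 0, 0, 0, 0, 0, 0⟩ ⟨0, 0, 0, 0, 0, 0, 636371, 0, 0, 0, 0, 0, 0⟩ ⟨0, 0, 0, 0, 0, 0, 636371, 0, 0, 0, 0, 0, 0⟩ ⟨0, 0, 0, 0, 0, 0, 772630, 0, 0, 0, 0, 0, 0⟩ ⟨0, 0, 0, 0, 0, 0, 772630, 0, 0, 0, 0, 0, 0⟩ ⟨271, 2, -4336, 6, 78, 675, 983137, 0, 0, 0, 0, 0, 0⟩))))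
    (.s1
    (.leaf (.box ⟨122, 3, -2048, 7, 65, 304, 564638, 0, 0, 0, 0, 0, 0⟩ ⟨0, 0, 0, 0, 0, 0, 661628, 0, 0, 0, 0, 0, 0⟩ ⟨0, 0, 0, 0, 0, 0, 661628, 0, 0, 0, 0, 0, 0⟩ ⟨0, 0, 0, 0, 0, 0, 798848, 0, 0, 0, 0, 0, 0⟩ ⟨0, 0, 0, 0, 0, 0, 798848, 0, 0, 0, 0, 0, 0⟩ ⟨297, 3, -4935, 6, 84, 733, 1007879, 0, 0, 0, 0, 0, 0⟩))
    (.s3
    (.leaf (.box ⟨165, 2, -2610, 6, 83, 406, 556665, 0, 0, 0, 0, 0, 0⟩ ⟨0, 0, 0, 0, 0, 0, 652376, 0, 0, 0, 0, 0, 0⟩ ⟨0, 0, 0, 0, 0, 0, 652376, 0, 0, 0, 0, 0, 0⟩ ⟨0, 0, 0, 0, 0, 0, 787832, 0, 0, 0, 0, 0, 0⟩ ⟨0, 0, 0, 0, 0, 0, 787832, 0, 0, 0, 0, 0, 0⟩ ⟨248, 2, -4076, 6, 73, 635, 994279, 0, 0, 0, 0, 0, 0⟩))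
    (.leaf (.box ⟨158, 2, -2548, 6, 79, 397, 573338, 0, 0, 0, 0, 0, 0⟩ ⟨0, 0, 0, 0, 0, 0, 669242, 0, 0, 0, 0, 0, 0⟩ ⟨0, 0, 0, 0, 0, 0, 669242, 0, 0, 0, 0, 0, 0⟩ ⟨0, 0, 0, 0, 0, 0, 803673, 0, 0, 0, 0, 0, 0⟩ ⟨0, 0, 0, 0, 0, 0, 803673, 0, 0, 0, 0, 0, 0⟩ ⟨283, 2, -4481, 6, 79, 699, 1005687, 0, 0, 0, 0, 0, 0⟩)))))
    (.s1
    (.leaf (.box ⟨162, 2, -2682, 6, 79, 387, 540926, 0, 0, 0, 0, 0, 0⟩ ⟨0, 0, 0, 0, 0, 0, 638762, 0, 0, 0, 0, 0, 0⟩ ⟨0, 0, 0, 0, 0, 0, 638762, 0, 0, 0, 0, 0, 0⟩ ⟨0, 0, 0, 0, 0, 0, 779803, 0, 0, 0, 0, 0, 0⟩ ⟨0, 0, 0, 0, 0, 0, 779803, 0, 0, 0, 0, 0, 0⟩ ⟨268, 2, -4436, 6, 70, 641, 1000777, 0, 0, 0, 0, 0, 0⟩))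
    (.leaf (.box ⟨161, 2, -2586, 6, 78, 390, 534303, 0, 0, 0, 0, 0, 0⟩ ⟨0, 0, 0, 0, 0, 0, 631084, 0, 0, 0, 0, 0, 0⟩ ⟨0, 0, 0, 0, 0, 0, 631084, 0, 0, 0, 0, 0, 0⟩ ⟨0, 0, 0, 0, 0, 0, 770681, 0, 0, 0, 0, 0, 0⟩ ⟨0, 0, 0, 0, 0, 0, 770681, 0, 0, 0, 0, 0, 0⟩ ⟨272, 2, -4292, 6, 70, 648, 989576, 0, 0, 0, 0, 0, 0⟩))))

/-- A piece of the tree. -/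
noncomputable def tree113 : Tree LeafX :=
  .s3
    (.s0
    (.s3
    (.leaf (.box ⟨204, 2, -2048, 9, 75, 332, 463936, 0, 0, 0, 0, 0, 0⟩ ⟨0, 0, 0, 0, 0, 0, 554745, 0, 0, 0, 0, 0, 0⟩ ⟨0, 0, 0, 0, 0, 0, 554745, 0, 0, 0, 0, 0, 0⟩ ⟨0, 0, 0, 0, 0, 0, 689753, 0, 0, 0, 0, 0, 0⟩ ⟨0, 0, 0, 0, 0, 0, 689753, 0, 0, 0, 0, 0, 0⟩ ⟨254, 1, -2494, 6, 47, 407, 911611, 0, 0, 0, 0, 0, 0⟩))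
    (.leaf (.box ⟨209, 2, -2048, 9, 72, 333, 488755, 0, 0, 0, 0, 0, 0⟩ ⟨0, 0, 0, 0, 0, 0, 581075, 0, 0, 0, 0, 0, 0⟩ ⟨0, 0, 0, 0, 0, 0, 581075, 0, 0, 0, 0, 0, 0⟩ ⟨0, 0, 0, 0, 0, 0, 716393, 0, 0, 0, 0, 0, 0⟩ ⟨0, 0, 0, 0, 0, 0, 716393, 0, 0, 0, 0, 0, 0⟩ ⟨252, 1, -2342, 6, 43, 383, 933867, 0, 0, 0, 0, 0, 0⟩)))
    (.s3
    (.leaf (.box ⟨196, 2, -2048, 9, 75, 337, 484437, 0, 0, 0, 0, 0, 0⟩ ⟨0, 0, 0, 0, 0, 0, 579148, 0, 0, 0, 0, 0, 0⟩ ⟨0, 0, 0, 0, 0, 0, 579148, 0, 0, 0, 0, 0, 0⟩ ⟨0, 0, 0, 0, 0, 0, 719891, 0, 0, 0, 0, 0, 0⟩ ⟨0, 0, 0, 0, 0, 0, 719891, 0, 0, 0, 0, 0, 0⟩ ⟨254, 2, -2647, 6, 50, 438, 951000, 0, 0, 0, 0, 0, 0⟩))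
    (.leaf (.box ⟨198, 2, -2048, 8, 72, 338, 510205, 0, 0, 0, 0, 0, 0⟩ ⟨0, 0, 0, 0, 0, 0, 606470, 0, 0, 0, 0, 0, 0⟩ ⟨0, 0, 0, 0, 0, 0, 606470, 0, 0, 0, 0, 0, 0⟩ ⟨0, 0, 0, 0, 0, 0, 747507, 0, 0, 0, 0, 0, 0⟩ ⟨0, 0, 0, 0, 0, 0, 747507, 0, 0, 0, 0, 0, 0⟩ ⟨264, 2, -2707, 6, 50, 449, 974020, 0, 0, 0, 0, 0, 0⟩))))
    (.s0
    (.s3
    (.leaf (.box ⟨218, 2, -2048, 9, 68, 334, 516163, 0, 0, 0, 0, 0, 0⟩ ⟨0, 0, 0, 0, 0, 0, 609694, 0, 0, 0, 0, 0, 0⟩ ⟨0, 0, 0, 0, 0, 0, 609694, 0, 0, 0, 0, 0, 0⟩ ⟨0, 0, 0, 0, 0, 0, 744621, 0, 0, 0, 0, 0, 0⟩ ⟨0, 0, 0, 0, 0, 0, 744621, 0, 0, 0, 0, 0, 0⟩ ⟨289, 1, -2737, 6, 50, 449, 956241, 0, 0, 0, 0, 0, 0⟩))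
    (.leaf (.box ⟨222, 2, -2048, 8, 65, 335, 546489, 0, 0, 0, 0, 0, 0⟩ ⟨0, 0, 0, 0, 0, 0, 640773, 0, 0, 0, 0, 0, 0⟩ ⟨0, 0, 0, 0, 0, 0, 640773, 0, 0, 0, 0, 0, 0⟩ ⟨0, 0, 0, 0, 0, 0, 774372, 0, 0, 0, 0, 0, 0⟩ ⟨0, 0, 0, 0, 0, 0, 774372, 0, 0, 0, 0, 0, 0⟩ ⟨264, 1, -2404, 6, 43, 395, 978355, 0, 0, 0, 0, 0, 0⟩)))
    (.s3
    (.leaf (.box ⟨202, 2, -2048, 9, 68, 339, 538618, 0, 0, 0, 0, 0, 0⟩ ⟨0, 0, 0, 0, 0, 0, 636105, 0, 0, 0, 0, 0, 0⟩ ⟨0, 0, 0, 0, 0, 0, 636105, 0, 0, 0, 0, 0, 0⟩ ⟨0, 0, 0, 0, 0, 0, 776679, 0, 0, 0, 0, 0, 0⟩ ⟨0, 0, 0, 0, 0, 0, 776679, 0, 0, 0, 0, 0, 0⟩ ⟨275, 2, -2693, 6, 49, 448, 997010, 0, 0, 0, 0, 0, 0⟩))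
    (.leaf (.box ⟨202, 2, -2048, 8, 65, 340, 570103, 0, 0, 0, 0, 0, 0⟩ ⟨0, 0, 0, 0, 0, 0, 668355, 0, 0, 0, 0, 0, 0⟩ ⟨0, 0, 0, 0, 0, 0, 668355, 0, 0, 0, 0, 0, 0⟩ ⟨0, 0, 0, 0, 0, 0, 807522, 0, 0, 0, 0, 0, 0⟩ ⟨0, 0, 0, 0, 0, 0, 807522, 0, 0, 0, 0, 0, 0⟩ ⟨269, 2, -2690, 6, 48, 448, 1019887, 0, 0, 0, 0, 0, 0⟩))))

/-- A piece of the tree. -/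
noncomputable def tree114 : Tree LeafX :=
  .s3
    (.s1
    (.s3
    (.s3
    (.leaf (.box ⟨187, 3, -2048, 16, 93, 269, 277905, 0, 0, 0, 0, 0, 0⟩ ⟨0, 0, 0, 0, 0, 0, 346405, 0, 0, 0, 0, 0, 0⟩ ⟨0, 0, 0, 0, 0, 0, 346405, 0, 0, 0, 0, 0, 0⟩ ⟨0, 0, 0, 0, 0, 0, 459719, 0, 0, 0, 0, 0, 0⟩ ⟨0, 0, 0, 0, 0, 0, 459719, 0, 0, 0, 0, 0, 0⟩ ⟨224, 1, -2431, 6, 44, 325, 683203, 0, 0, 0, 0, 0, 0⟩))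
    (.leaf (.box ⟨185, 2, -2048, 12, 87, 272, 286862, 0, 0, 0, 0, 0, 0⟩ ⟨0, 0, 0, 0, 0, 0, 356780, 0, 0, 0, 0, 0, 0⟩ ⟨0, 0, 0, 0, 0, 0, 356780, 0, 0, 0, 0, 0, 0⟩ ⟨0, 0, 0, 0, 0, 0, 471762, 0, 0, 0, 0, 0, 0⟩ ⟨0, 0, 0, 0, 0, 0, 471762, 0, 0, 0, 0, 0, 0⟩ ⟨217, 1, -2406, 6, 43, 322, 696102, 0, 0, 0, 0, 0, 0⟩)))
    (.s3
    (.leaf (.box ⟨189, 2, -2048, 12, 85, 272, 296433, 0, 0, 0, 0, 0, 0⟩ ⟨0, 0, 0, 0, 0, 0, 367814, 0, 0, 0, 0, 0, 0⟩ ⟨0, 0, 0, 0, 0, 0, 367814, 0, 0, 0, 0, 0, 0⟩ ⟨0, 0, 0, 0, 0, 0, 484475, 0, 0, 0, 0, 0, 0⟩ ⟨0, 0, 0, 0, 0, 0, 484475, 0, 0, 0, 0, 0, 0⟩ ⟨229, 1, -2524, 6, 44, 338, 709515, 0, 0, 0, 0, 0, 0⟩))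
    (.leaf (.box ⟨187, 2, -2048, 12, 82, 273, 306685, 0, 0, 0, 0, 0, 0⟩ ⟨0, 0, 0, 0, 0, 0, 379576, 0, 0, 0, 0, 0, 0⟩ ⟨0, 0, 0, 0, 0, 0, 379576, 0, 0, 0, 0, 0, 0⟩ ⟨0, 0, 0, 0, 0, 0, 497916, 0, 0, 0, 0, 0, 0⟩ ⟨0, 0, 0, 0, 0, 0, 497916, 0, 0, 0, 0, 0, 0⟩ ⟨229, 1, -2498, 6, 43, 335, 723473, 0, 0, 0, 0, 0, 0⟩))))
    (.s0
    (.s3
    (.leaf (.box ⟨168, 1, -2048, 10, 90, 290, 274004, 0, 0, 0, 0, 0, 0⟩ ⟨0, 0, 0, 0, 0, 0, 341815, 0, 0, 0, 0, 0, 0⟩ ⟨0, 0, 0, 0, 0, 0, 341815, 0, 0, 0, 0, 0, 0⟩ ⟨0, 0, 0, 0, 0, 0, 454228, 0, 0, 0, 0, 0, 0⟩ ⟨0, 0, 0, 0, 0, 0, 454228, 0, 0, 0, 0, 0, 0⟩ ⟨210, 0, -2490, 6, 45, 359, 676809, 0, 0, 0, 0, 0, 0⟩))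
    (.leaf (.box ⟨168, 1, -2048, 10, 85, 292, 292690, 0, 0, 0, 0, 0, 0⟩ ⟨0, 0, 0, 0, 0, 0, 363427, 0, 0, 0, 0, 0, 0⟩ ⟨0, 0, 0, 0, 0, 0, 363427, 0, 0, 0, 0, 0, 0⟩ ⟨0, 0, 0, 0, 0, 0, 479251, 0, 0, 0, 0, 0, 0⟩ ⟨0, 0, 0, 0, 0, 0, 479251, 0, 0, 0, 0, 0, 0⟩ ⟨221, 0, -2592, 6, 46, 375, 703436, 0, 0, 0, 0, 0, 0⟩)))
    (.s3
    (.leaf (.box ⟨162, 1, -2048, 11, 91, 297, 287209, 0, 0, 0, 0, 0, 0⟩ ⟨0, 0, 0, 0, 0, 0, 358230, 0, 0, 0, 0, 0, 0⟩ ⟨0, 0, 0, 0, 0, 0, 358230, 0, 0, 0, 0, 0, 0⟩ ⟨0, 0, 0, 0, 0, 0, 475914, 0, 0, 0, 0, 0, 0⟩ ⟨0, 0, 0, 0, 0, 0, 475914, 0, 0, 0, 0, 0, 0⟩ ⟨209, 0, -2610, 6, 48, 384, 708748, 0, 0, 0, 0, 0, 0⟩))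
    (.leaf (.box ⟨160, 1, -2048, 10, 86, 299, 306680, 0, 0, 0, 0, 0, 0⟩ ⟨0, 0, 0, 0, 0, 0, 380742, 0, 0, 0, 0, 0, 0⟩ ⟨0, 0, 0, 0, 0, 0, 380742, 0, 0, 0, 0, 0, 0⟩ ⟨0, 0, 0, 0, 0, 0, 501964, 0, 0, 0, 0, 0, 0⟩ ⟨0, 0, 0, 0, 0, 0, 501964, 0, 0, 0, 0, 0, 0⟩ ⟨215, 0, -2535, 6, 45, 374, 736431, 0, 0, 0, 0, 0, 0⟩)))))
    (.s0
    (.s1
    (.s3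
    (.leaf (.box ⟨160, 2, -2048, 10, 77, 270, 317401, 0, 0, 0, 0, 0, 0⟩ ⟨0, 0, 0, 0, 0, 0, 391797, 0, 0, 0, 0, 0, 0⟩ ⟨0, 0, 0, 0, 0, 0, 391797, 0, 0, 0, 0, 0, 0⟩ ⟨0, 0, 0, 0, 0, 0, 511745, 0, 0, 0, 0, 0, 0⟩ ⟨0, 0, 0, 0, 0, 0, 511745, 0, 0, 0, 0, 0, 0⟩ ⟨221, 1, -2720, 6, 45, 361, 737540, 0, 0, 0, 0, 0, 0⟩))
    (.leaf (.box ⟨163, 2, -2048, 9, 72, 271, 342018, 0, 0, 0, 0, 0, 0⟩ ⟨0, 0, 0, 0, 0, 0, 419645, 0, 0, 0, 0, 0, 0⟩ ⟨0, 0, 0, 0, 0, 0, 419645, 0, 0, 0, 0, 0, 0⟩ ⟨0, 0, 0, 0, 0, 0, 542854, 0, 0, 0, 0, 0, 0⟩ ⟨0, 0, 0, 0, 0, 0, 542854, 0, 0, 0, 0, 0, 0⟩ ⟨224, 1, -2767, 6, 44, 368, 768482, 0, 0, 0, 0, 0, 0⟩)))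
    (.s3
    (.leaf (.box ⟨176, 1, -2048, 9, 80, 293, 314129, 0, 0, 0, 0, 0, 0⟩ ⟨0, 0, 0, 0, 0, 0, 387977, 0, 0, 0, 0, 0, 0⟩ ⟨0, 0, 0, 0, 0, 0, 387977, 0, 0, 0, 0, 0, 0⟩ ⟨0, 0, 0, 0, 0, 0, 507218, 0, 0, 0, 0, 0, 0⟩ ⟨0, 0, 0, 0, 0, 0, 507218, 0, 0, 0, 0, 0, 0⟩ ⟨245, 0, -2848, 6, 49, 414, 732273, 0, 0, 0, 0, 0, 0⟩))
    (.leaf (.box ⟨177, 1, -2048, 9, 75, 295, 338892, 0, 0, 0, 0, 0, 0⟩ ⟨180, 0, -2048, 8, 61, 296, 419867, 0, 0, 0, 0, 0, 0⟩ ⟨180, 0, -2048, 8, 61, 296, 419867, 0, 0, 0, 0, 0, 0⟩ ⟨195, 0, -2196, 6, 51, 319, 544446, 0, 0, 0, 0, 0, 0⟩ ⟨195, 0, -2196, 6, 51, 319, 544446, 0, 0, 0, 0, 0, 0⟩ ⟨256, 0, -2827, 6, 47, 412, 763525, 0, 0, 0, 0, 0, 0⟩))))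
    (.s1
    (.s3
    (.leaf (.box ⟨150, 2, -2048, 10, 78, 277, 332963, 0, 0, 0, 0, 0, 0⟩ ⟨0, 0, 0, 0, 0, 0, 410914, 0, 0, 0, 0, 0, 0⟩ ⟨0, 0, 0, 0, 0, 0, 410914, 0, 0, 0, 0, 0, 0⟩ ⟨0, 0, 0, 0, 0, 0, 536518, 0, 0, 0, 0, 0, 0⟩ ⟨0, 0, 0, 0, 0, 0, 536518, 0, 0, 0, 0, 0, 0⟩ ⟨211, 1, -2788, 6, 46, 379, 772713, 0, 0, 0, 0, 0, 0⟩))
    (.leaf (.box ⟨153, 2, -2048, 9, 73, 278, 358617, 0, 0, 0, 0, 0, 0⟩ ⟨0, 0, 0, 0, 0, 0, 439920, 0, 0, 0, 0, 0, 0⟩ ⟨0, 0, 0, 0, 0, 0, 439920, 0, 0, 0, 0, 0, 0⟩ ⟨0, 0, 0, 0, 0, 0, 568895, 0, 0, 0, 0, 0, 0⟩ ⟨0, 0, 0, 0, 0, 0, 568895, 0, 0, 0, 0, 0, 0⟩ ⟨225, 1, -2857, 6, 46, 390, 804864, 0, 0, 0, 0, 0, 0⟩)))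
    (.s3
    (.leaf (.box ⟨167, 1, -2048, 10, 81, 300, 329020, 0, 0, 0, 0, 0, 0⟩ ⟨0, 0, 0, 0, 0, 0, 406315, 0, 0, 0, 0, 0, 0⟩ ⟨0, 0, 0, 0, 0, 0, 406315, 0, 0, 0, 0, 0, 0⟩ ⟨0, 0, 0, 0, 0, 0, 531078, 0, 0, 0, 0, 0, 0⟩ ⟨0, 0, 0, 0, 0, 0, 531078, 0, 0, 0, 0, 0, 0⟩ ⟨241, 0, -2889, 6, 50, 428, 766410, 0, 0, 0, 0, 0, 0⟩))
    (.leaf (.box ⟨166, 1, -2048, 9, 76, 302, 354915, 0, 0, 0, 0, 0, 0⟩ ⟨0, 0, 0, 0, 0, 0, 435620, 0, 0, 0, 0, 0, 0⟩ ⟨0, 0, 0, 0, 0, 0, 435620, 0, 0, 0, 0, 0, 0⟩ ⟨0, 0, 0, 0, 0, 0, 563831, 0, 0, 0, 0, 0, 0⟩ ⟨0, 0, 0, 0, 0, 0, 563831, 0, 0, 0, 0, 0, 0⟩ ⟨269, 1, -3201, 6, 53, 476, 798985, 0, 0, 0, 0, 0, 0⟩)))))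

/-- A piece of the tree. -/
noncomputable def tree115 : Tree LeafX :=
  .s3
    (.s1
    (.leaf (.box ⟨174, 3, -2048, 12, 92, 288, 305862, 0, 0, 0, 0, 0, 0⟩ ⟨0, 0, 0, 0, 0, 0, 381118, 0, 0, 0, 0, 0, 0⟩ ⟨0, 0, 0, 0, 0, 0, 381118, 0, 0, 0, 0, 0, 0⟩ ⟨0, 0, 0, 0, 0, 0, 505489, 0, 0, 0, 0, 0, 0⟩ ⟨0, 0, 0, 0, 0, 0, 505489, 0, 0, 0, 0, 0, 0⟩ ⟨212, 1, -2382, 6, 44, 336, 750356, 0, 0, 0, 0, 0, 0⟩))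
    (.s3
    (.leaf (.box ⟨184, 2, -2048, 13, 94, 309, 301654, 0, 0, 0, 0, 0, 0⟩ ⟨0, 0, 0, 0, 0, 0, 376161, 0, 0, 0, 0, 0, 0⟩ ⟨0, 0, 0, 0, 0, 0, 376161, 0, 0, 0, 0, 0, 0⟩ ⟨0, 0, 0, 0, 0, 0, 499547, 0, 0, 0, 0, 0, 0⟩ ⟨0, 0, 0, 0, 0, 0, 499547, 0, 0, 0, 0, 0, 0⟩ ⟨210, 1, -2418, 6, 46, 368, 743385, 0, 0, 0, 0, 0, 0⟩))
    (.leaf (.box ⟨178, 1, -2048, 12, 89, 310, 321973, 0, 0, 0, 0, 0, 0⟩ ⟨0, 0, 0, 0, 0, 0, 399658, 0, 0, 0, 0, 0, 0⟩ ⟨0, 0, 0, 0, 0, 0, 399658, 0, 0, 0, 0, 0, 0⟩ ⟨0, 0, 0, 0, 0, 0, 526750, 0, 0, 0, 0, 0, 0⟩ ⟨0, 0, 0, 0, 0, 0, 526750, 0, 0, 0, 0, 0, 0⟩ ⟨203, 1, -2312, 6, 42, 353, 772362, 0, 0, 0, 0, 0, 0⟩))))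
    (.s1
    (.s2
    (.leaf (.box ⟨170, 3, -2048, 10, 84, 292, 348967, 0, 0, 0, 0, 0, 0⟩ ⟨0, 0, 0, 0, 0, 0, 430625, 0, 0, 0, 0, 0, 0⟩ ⟨0, 0, 0, 0, 0, 0, 430625, 0, 0, 0, 0, 0, 0⟩ ⟨0, 0, 0, 0, 0, 0, 562173, 0, 0, 0, 0, 0, 0⟩ ⟨0, 0, 0, 0, 0, 0, 562173, 0, 0, 0, 0, 0, 0⟩ ⟨250, 2, -3157, 6, 56, 451, 809440, 0, 0, 0, 0, 0, 0⟩))
    (.leaf (.box ⟨160, 2, -2048, 8, 77, 287, 356481, 0, 0, 0, 0, 0, 0⟩ ⟨0, 0, 0, 0, 0, 0, 440036, 0, 0, 0, 0, 0, 0⟩ ⟨0, 0, 0, 0, 0, 0, 440036, 0, 0, 0, 0, 0, 0⟩ ⟨0, 0, 0, 0, 0, 0, 574751, 0, 0, 0, 0, 0, 0⟩ ⟨0, 0, 0, 0, 0, 0, 574751, 0, 0, 0, 0, 0, 0⟩ ⟨255, 1, -3228, 6, 52, 453, 828342, 0, 0, 0, 0, 0, 0⟩)))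
    (.s3
    (.leaf (.box ⟨183, 1, -2048, 11, 84, 311, 345285, 0, 0, 0, 0, 0, 0⟩ ⟨0, 0, 0, 0, 0, 0, 426337, 0, 0, 0, 0, 0, 0⟩ ⟨0, 0, 0, 0, 0, 0, 426337, 0, 0, 0, 0, 0, 0⟩ ⟨0, 0, 0, 0, 0, 0, 557112, 0, 0, 0, 0, 0, 0⟩ ⟨0, 0, 0, 0, 0, 0, 557112, 0, 0, 0, 0, 0, 0⟩ ⟨217, 1, -2447, 6, 43, 375, 803614, 0, 0, 0, 0, 0, 0⟩))
    (.leaf (.box ⟨185, 1, -2048, 11, 78, 313, 372306, 0, 0, 0, 0, 0, 0⟩ ⟨0, 0, 0, 0, 0, 0, 456905, 0, 0, 0, 0, 0, 0⟩ ⟨0, 0, 0, 0, 0, 0, 456905, 0, 0, 0, 0, 0, 0⟩ ⟨0, 0, 0, 0, 0, 0, 591254, 0, 0, 0, 0, 0, 0⟩ ⟨0, 0, 0, 0, 0, 0, 591254, 0, 0, 0, 0, 0, 0⟩ ⟨234, 1, -2615, 6, 45, 402, 837519, 0, 0, 0, 0, 0, 0⟩))))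

/-- A piece of the tree. -/
noncomputable def tree116 : Tree LeafX :=
  .s1
    (.s0
    (.s3
    (.s3
    (.leaf (.box ⟨190, 2, -2048, 10, 69, 275, 371230, 0, 0, 0, 0, 0, 0⟩ ⟨0, 0, 0, 0, 0, 0, 452268, 0, 0, 0, 0, 0, 0⟩ ⟨0, 0, 0, 0, 0, 0, 452268, 0, 0, 0, 0, 0, 0⟩ ⟨0, 0, 0, 0, 0, 0, 578567, 0, 0, 0, 0, 0, 0⟩ ⟨0, 0, 0, 0, 0, 0, 578567, 0, 0, 0, 0, 0, 0⟩ ⟨246, 1, -2623, 6, 41, 354, 802734, 0, 0, 0, 0, 0, 0⟩))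
    (.leaf (.box ⟨203, 2, -2048, 10, 67, 276, 387636, 0, 0, 0, 0, 0, 0⟩ ⟨0, 0, 0, 0, 0, 0, 470380, 0, 0, 0, 0, 0, 0⟩ ⟨0, 0, 0, 0, 0, 0, 470380, 0, 0, 0, 0, 0, 0⟩ ⟨0, 0, 0, 0, 0, 0, 598036, 0, 0, 0, 0, 0, 0⟩ ⟨0, 0, 0, 0, 0, 0, 598036, 0, 0, 0, 0, 0, 0⟩ ⟨244, 1, -2585, 6, 40, 350, 820787, 0, 0, 0, 0, 0, 0⟩)))
    (.s3
    (.leaf (.box ⟨192, 2, -2048, 9, 64, 276, 405594, 0, 0, 0, 0, 0, 0⟩ ⟨0, 0, 0, 0, 0, 0, 490041, 0, 0, 0, 0, 0, 0⟩ ⟨0, 0, 0, 0, 0, 0, 490041, 0, 0, 0, 0, 0, 0⟩ ⟨0, 0, 0, 0, 0, 0, 618897, 0, 0, 0, 0, 0, 0⟩ ⟨0, 0, 0, 0, 0, 0, 618897, 0, 0, 0, 0, 0, 0⟩ ⟨257, 1, -2715, 6, 41, 368, 839696, 0, 0, 0, 0, 0, 0⟩))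
    (.leaf (.box ⟨197, 2, -2048, 9, 61, 277, 425335, 0, 0, 0, 0, 0, 0⟩ ⟨0, 0, 0, 0, 0, 0, 511456, 0, 0, 0, 0, 0, 0⟩ ⟨0, 0, 0, 0, 0, 0, 511456, 0, 0, 0, 0, 0, 0⟩ ⟨0, 0, 0, 0, 0, 0, 641305, 0, 0, 0, 0, 0, 0⟩ ⟨0, 0, 0, 0, 0, 0, 641305, 0, 0, 0, 0, 0, 0⟩ ⟨256, 1, -2680, 6, 40, 363, 859522, 0, 0, 0, 0, 0, 0⟩))))
    (.s3
    (.leaf (.box ⟨176, 2, -2048, 10, 70, 290, 408122, 0, 0, 0, 0, 0, 0⟩ ⟨0, 0, 0, 0, 0, 0, 497048, 0, 0, 0, 0, 0, 0⟩ ⟨0, 0, 0, 0, 0, 0, 497048, 0, 0, 0, 0, 0, 0⟩ ⟨0, 0, 0, 0, 0, 0, 635521, 0, 0, 0, 0, 0, 0⟩ ⟨0, 0, 0, 0, 0, 0, 635521, 0, 0, 0, 0, 0, 0⟩ ⟨234, 1, -2667, 6, 43, 379, 880945, 0, 0, 0, 0, 0, 0⟩))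
    (.leaf (.box ⟨182, 2, -2048, 9, 65, 291, 445462, 0, 0, 0, 0, 0, 0⟩ ⟨0, 0, 0, 0, 0, 0, 538055, 0, 0, 0, 0, 0, 0⟩ ⟨0, 0, 0, 0, 0, 0, 538055, 0, 0, 0, 0, 0, 0⟩ ⟨0, 0, 0, 0, 0, 0, 679239, 0, 0, 0, 0, 0, 0⟩ ⟨0, 0, 0, 0, 0, 0, 679239, 0, 0, 0, 0, 0, 0⟩ ⟨243, 1, -2780, 6, 43, 395, 920873, 0, 0, 0, 0, 0, 0⟩))))
    (.s0
    (.s3
    (.s3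
    (.leaf (.box ⟨198, 1, -2048, 10, 72, 300, 368068, 0, 0, 0, 0, 0, 0⟩ ⟨0, 0, 0, 0, 0, 0, 448634, 0, 0, 0, 0, 0, 0⟩ ⟨0, 0, 0, 0, 0, 0, 448634, 0, 0, 0, 0, 0, 0⟩ ⟨0, 0, 0, 0, 0, 0, 574353, 0, 0, 0, 0, 0, 0⟩ ⟨0, 0, 0, 0, 0, 0, 574353, 0, 0, 0, 0, 0, 0⟩ ⟨232, 0, -2400, 6, 39, 355, 797962, 0, 0, 0, 0, 0, 0⟩))
    (.leaf (.box ⟨200, 1, -2048, 10, 69, 301, 384557, 0, 0, 0, 0, 0, 0⟩ ⟨0, 0, 0, 0, 0, 0, 466853, 0, 0, 0, 0, 0, 0⟩ ⟨0, 0, 0, 0, 0, 0, 466853, 0, 0, 0, 0, 0, 0⟩ ⟨0, 0, 0, 0, 0, 0, 593961, 0, 0, 0, 0, 0, 0⟩ ⟨0, 0, 0, 0, 0, 0, 593961, 0, 0, 0, 0, 0, 0⟩ ⟨238, 0, -2479, 6, 40, 367, 816178, 0, 0, 0, 0, 0, 0⟩)))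
    (.s2
    (.leaf (.box ⟨192, 1, -2048, 8, 69, 306, 402468, 0, 0, 0, 0, 0, 0⟩ ⟨0, 0, 0, 0, 0, 0, 486460, 0, 0, 0, 0, 0, 0⟩ ⟨0, 0, 0, 0, 0, 0, 486460, 0, 0, 0, 0, 0, 0⟩ ⟨0, 0, 0, 0, 0, 0, 614753, 0, 0, 0, 0, 0, 0⟩ ⟨0, 0, 0, 0, 0, 0, 614753, 0, 0, 0, 0, 0, 0⟩ ⟨318, 1, -3476, 6, 57, 524, 834954, 0, 0, 0, 0, 0, 0⟩))
    (.leaf (.box ⟨173, 0, -2048, 7, 63, 298, 411022, 0, 0, 0, 0, 0, 0⟩ ⟨0, 0, 0, 0, 0, 0, 496858, 0, 0, 0, 0, 0, 0⟩ ⟨0, 0, 0, 0, 0, 0, 496858, 0, 0, 0, 0, 0, 0⟩ ⟨0, 0, 0, 0, 0, 0, 628009, 0, 0, 0, 0, 0, 0⟩ ⟨0, 0, 0, 0, 0, 0, 628009, 0, 0, 0, 0, 0, 0⟩ ⟨291, 0, -3386, 6, 50, 497, 853225, 0, 0, 0, 0, 0, 0⟩))))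
    (.s3
    (.leaf (.box ⟨183, 1, -2048, 10, 73, 314, 403997, 0, 0, 0, 0, 0, 0⟩ ⟨0, 0, 0, 0, 0, 0, 492284, 0, 0, 0, 0, 0, 0⟩ ⟨0, 0, 0, 0, 0, 0, 492284, 0, 0, 0, 0, 0, 0⟩ ⟨0, 0, 0, 0, 0, 0, 629947, 0, 0, 0, 0, 0, 0⟩ ⟨0, 0, 0, 0, 0, 0, 629947, 0, 0, 0, 0, 0, 0⟩ ⟨247, 1, -2636, 6, 44, 407, 874492, 0, 0, 0, 0, 0, 0⟩))
    (.leaf (.box ⟨183, 1, -2048, 9, 67, 315, 441568, 0, 0, 0, 0, 0, 0⟩ ⟨0, 0, 0, 0, 0, 0, 533595, 0, 0, 0, 0, 0, 0⟩ ⟨0, 0, 0, 0, 0, 0, 533595, 0, 0, 0, 0, 0, 0⟩ ⟨0, 0, 0, 0, 0, 0, 674078, 0, 0, 0, 0, 0, 0⟩ ⟨0, 0, 0, 0, 0, 0, 674078, 0, 0, 0, 0, 0, 0⟩ ⟨263, 1, -2923, 6, 47, 452, 914968, 0, 0, 0, 0, 0, 0⟩))))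

/-- A piece of the tree. -/
noncomputable def tree117 : Tree LeafX :=
  .s1
    (.s0
    (.s3
    (.s3
    (.leaf (.box ⟨194, 2, -2048, 8, 58, 277, 447137, 0, 0, 0, 0, 0, 0⟩ ⟨0, 0, 0, 0, 0, 0, 534871, 0, 0, 0, 0, 0, 0⟩ ⟨0, 0, 0, 0, 0, 0, 534871, 0, 0, 0, 0, 0, 0⟩ ⟨0, 0, 0, 0, 0, 0, 665437, 0, 0, 0, 0, 0, 0⟩ ⟨0, 0, 0, 0, 0, 0, 665437, 0, 0, 0, 0, 0, 0⟩ ⟨291, 1, -2943, 6, 43, 400, 880334, 0, 0, 0, 0, 0, 0⟩))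
    (.leaf (.box ⟨191, 1, -2048, 8, 56, 277, 471343, 0, 0, 0, 0, 0, 0⟩ ⟨0, 0, 0, 0, 0, 0, 560582, 0, 0, 0, 0, 0, 0⟩ ⟨0, 0, 0, 0, 0, 0, 560582, 0, 0, 0, 0, 0, 0⟩ ⟨0, 0, 0, 0, 0, 0, 691503, 0, 0, 0, 0, 0, 0⟩ ⟨0, 0, 0, 0, 0, 0, 691503, 0, 0, 0, 0, 0, 0⟩ ⟨271, 1, -2818, 6, 40, 383, 902208, 0, 0, 0, 0, 0, 0⟩)))
    (.s3
    (.leaf (.box ⟨198, 2, -2048, 8, 53, 278, 498159, 0, 0, 0, 0, 0, 0⟩ ⟨0, 0, 0, 0, 0, 0, 588645, 0, 0, 0, 0, 0, 0⟩ ⟨0, 0, 0, 0, 0, 0, 588645, 0, 0, 0, 0, 0, 0⟩ ⟨0, 0, 0, 0, 0, 0, 719297, 0, 0, 0, 0, 0, 0⟩ ⟨0, 0, 0, 0, 0, 0, 719297, 0, 0, 0, 0, 0, 0⟩ ⟨275, 1, -2862, 6, 40, 390, 924493, 0, 0, 0, 0, 0, 0⟩))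
    (.leaf (.box ⟨200, 2, -2048, 8, 50, 278, 527736, 0, 0, 0, 0, 0, 0⟩ ⟨0, 0, 0, 0, 0, 0, 618990, 0, 0, 0, 0, 0, 0⟩ ⟨0, 0, 0, 0, 0, 0, 618990, 0, 0, 0, 0, 0, 0⟩ ⟨0, 0, 0, 0, 0, 0, 748399, 0, 0, 0, 0, 0, 0⟩ ⟨0, 0, 0, 0, 0, 0, 748399, 0, 0, 0, 0, 0, 0⟩ ⟨289, 1, -2881, 6, 39, 393, 946221, 0, 0, 0, 0, 0, 0⟩))))
    (.s3
    (.leaf (.box ⟨177, 2, -2048, 8, 59, 291, 490547, 0, 0, 0, 0, 0, 0⟩ ⟨184, 2, -2048, 7, 50, 292, 588014, 0, 0, 0, 0, 0, 0⟩ ⟨184, 2, -2048, 7, 50, 292, 588014, 0, 0, 0, 0, 0, 0⟩ ⟨206, 1, -2301, 6, 45, 328, 734269, 0, 0, 0, 0, 0, 0⟩ ⟨206, 1, -2301, 6, 45, 328, 734269, 0, 0, 0, 0, 0, 0⟩ ⟨265, 1, -2977, 6, 44, 424, 964575, 0, 0, 0, 0, 0, 0⟩))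
    (.leaf (.box ⟨189, 2, -2048, 8, 54, 292, 545991, 0, 0, 0, 0, 0, 0⟩ ⟨0, 0, 0, 0, 0, 0, 645035, 0, 0, 0, 0, 0, 0⟩ ⟨0, 0, 0, 0, 0, 0, 645035, 0, 0, 0, 0, 0, 0⟩ ⟨0, 0, 0, 0, 0, 0, 787975, 0, 0, 0, 0, 0, 0⟩ ⟨0, 0, 0, 0, 0, 0, 787975, 0, 0, 0, 0, 0, 0⟩ ⟨281, 1, -3040, 6, 43, 434, 1012300, 0, 0, 0, 0, 0, 0⟩))))
    (.s0
    (.s3
    (.leaf (.box ⟨200, 1, -2048, 8, 61, 303, 444185, 0, 0, 0, 0, 0, 0⟩ ⟨0, 0, 0, 0, 0, 0, 531509, 0, 0, 0, 0, 0, 0⟩ ⟨0, 0, 0, 0, 0, 0, 531509, 0, 0, 0, 0, 0, 0⟩ ⟨0, 0, 0, 0, 0, 0, 661567, 0, 0, 0, 0, 0, 0⟩ ⟨0, 0, 0, 0, 0, 0, 661567, 0, 0, 0, 0, 0, 0⟩ ⟨267, 0, -2679, 6, 41, 400, 875896, 0, 0, 0, 0, 0, 0⟩))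
    (.leaf (.box ⟨204, 1, -2048, 8, 55, 305, 495370, 0, 0, 0, 0, 0, 0⟩ ⟨0, 0, 0, 0, 0, 0, 585525, 0, 0, 0, 0, 0, 0⟩ ⟨0, 0, 0, 0, 0, 0, 585525, 0, 0, 0, 0, 0, 0⟩ ⟨0, 0, 0, 0, 0, 0, 715796, 0, 0, 0, 0, 0, 0⟩ ⟨0, 0, 0, 0, 0, 0, 715796, 0, 0, 0, 0, 0, 0⟩ ⟨290, 0, -2862, 6, 42, 429, 920620, 0, 0, 0, 0, 0, 0⟩)))
    (.s3
    (.leaf (.box ⟨190, 1, -2048, 8, 62, 317, 486957, 0, 0, 0, 0, 0, 0⟩ ⟨0, 0, 0, 0, 0, 0, 582588, 0, 0, 0, 0, 0, 0⟩ ⟨0, 0, 0, 0, 0, 0, 582588, 0, 0, 0, 0, 0, 0⟩ ⟨0, 0, 0, 0, 0, 0, 724958, 0, 0, 0, 0, 0, 0⟩ ⟨0, 0, 0, 0, 0, 0, 724958, 0, 0, 0, 0, 0, 0⟩ ⟨267, 1, -2888, 6, 44, 449, 959415, 0, 0, 0, 0, 0, 0⟩))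
    (.leaf (.box ⟨189, 1, -2048, 7, 56, 318, 542752, 0, 0, 0, 0, 0, 0⟩ ⟨0, 0, 0, 0, 0, 0, 641401, 0, 0, 0, 0, 0, 0⟩ ⟨0, 0, 0, 0, 0, 0, 641401, 0, 0, 0, 0, 0, 0⟩ ⟨0, 0, 0, 0, 0, 0, 783874, 0, 0, 0, 0, 0, 0⟩ ⟨0, 0, 0, 0, 0, 0, 783874, 0, 0, 0, 0, 0, 0⟩ ⟨280, 1, -3056, 6, 45, 476, 1007717, 0, 0, 0, 0, 0, 0⟩))))

/-- A piece of the tree. -/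
noncomputable def tree118 : Tree LeafX :=
  .s3
    (.s0
    (.s2
    (.s3
    (.s1
    (.leaf (.box ⟨175, 1, -2048, 11, 77, 265, 286675, 0, 0, 0, 0, 0, 0⟩ ⟨0, 0, 0, 0, 0, 0, 357599, 0, 0, 0, 0, 0, 0⟩ ⟨0, 0, 0, 0, 0, 0, 357599, 0, 0, 0, 0, 0, 0⟩ ⟨0, 0, 0, 0, 0, 0, 475151, 0, 0, 0, 0, 0, 0⟩ ⟨0, 0, 0, 0, 0, 0, 475151, 0, 0, 0, 0, 0, 0⟩ ⟨213, 1, -2506, 6, 38, 326, 707834, 0, 0, 0, 0, 0, 0⟩))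
    (.leaf (.box ⟨169, 0, -2048, 10, 79, 286, 285305, 0, 0, 0, 0, 0, 0⟩ ⟨0, 0, 0, 0, 0, 0, 356047, 0, 0, 0, 0, 0, 0⟩ ⟨0, 0, 0, 0, 0, 0, 356047, 0, 0, 0, 0, 0, 0⟩ ⟨0, 0, 0, 0, 0, 0, 473435, 0, 0, 0, 0, 0, 0⟩ ⟨0, 0, 0, 0, 0, 0, 473435, 0, 0, 0, 0, 0, 0⟩ ⟨222, 0, -2687, 6, 42, 380, 706300, 0, 0, 0, 0, 0, 0⟩)))
    (.s1
    (.leaf (.box ⟨174, 1, -2048, 10, 68, 266, 328481, 0, 0, 0, 0, 0, 0⟩ ⟨0, 0, 0, 0, 0, 0, 405715, 0, 0, 0, 0, 0, 0⟩ ⟨0, 0, 0, 0, 0, 0, 405715, 0, 0, 0, 0, 0, 0⟩ ⟨0, 0, 0, 0, 0, 0, 530433, 0, 0, 0, 0, 0, 0⟩ ⟨0, 0, 0, 0, 0, 0, 530433, 0, 0, 0, 0, 0, 0⟩ ⟨226, 1, -2632, 6, 38, 344, 765858, 0, 0, 0, 0, 0, 0⟩))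
    (.leaf (.box ⟨181, 0, -2048, 10, 70, 289, 327481, 0, 0, 0, 0, 0, 0⟩ ⟨0, 0, 0, 0, 0, 0, 404601, 0, 0, 0, 0, 0, 0⟩ ⟨0, 0, 0, 0, 0, 0, 404601, 0, 0, 0, 0, 0, 0⟩ ⟨0, 0, 0, 0, 0, 0, 529229, 0, 0, 0, 0, 0, 0⟩ ⟨0, 0, 0, 0, 0, 0, 529229, 0, 0, 0, 0, 0, 0⟩ ⟨241, 0, -2852, 6, 42, 406, 764815, 0, 0, 0, 0, 0, 0⟩))))
    (.leaf (.box ⟨267, 0, -2048, 14, 68, 275, 298848, 0, 0, 0, 0, 0, 0⟩ ⟨0, 0, 0, 0, 0, 0, 373014, 0, 0, 0, 0, 0, 0⟩ ⟨0, 0, 0, 0, 0, 0, 373014, 0, 0, 0, 0, 0, 0⟩ ⟨0, 0, 0, 0, 0, 0, 496141, 0, 0, 0, 0, 0, 0⟩ ⟨0, 0, 0, 0, 0, 0, 496141, 0, 0, 0, 0, 0, 0⟩ ⟨281, 0, -2155, 6, 29, 291, 740605, 0, 0, 0, 0, 0, 0⟩)))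
    (.s3
    (.leaf (.box ⟨231, 1, -2048, 20, 74, 289, 317228, 0, 0, 0, 0, 0, 0⟩ ⟨0, 0, 0, 0, 0, 0, 395728, 0, 0, 0, 0, 0, 0⟩ ⟨0, 0, 0, 0, 0, 0, 395728, 0, 0, 0, 0, 0, 0⟩ ⟨0, 0, 0, 0, 0, 0, 525854, 0, 0, 0, 0, 0, 0⟩ ⟨0, 0, 0, 0, 0, 0, 525854, 0, 0, 0, 0, 0, 0⟩ ⟨260, 0, -2048, 10, 30, 293, 783483, 0, 0, 0, 0, 0, 0⟩))
    (.s2
    (.leaf (.box ⟨232, 1, -2048, 14, 69, 291, 363649, 0, 0, 0, 0, 0, 0⟩ ⟨0, 0, 0, 0, 0, 0, 449092, 0, 0, 0, 0, 0, 0⟩ ⟨0, 0, 0, 0, 0, 0, 449092, 0, 0, 0, 0, 0, 0⟩ ⟨0, 0, 0, 0, 0, 0, 587018, 0, 0, 0, 0, 0, 0⟩ ⟨0, 0, 0, 0, 0, 0, 587018, 0, 0, 0, 0, 0, 0⟩ ⟨282, 1, -2257, 6, 33, 324, 847215, 0, 0, 0, 0, 0, 0⟩))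
    (.leaf (.box ⟨251, 0, -2048, 12, 59, 292, 385535, 0, 0, 0, 0, 0, 0⟩ ⟨0, 0, 0, 0, 0, 0, 476199, 0, 0, 0, 0, 0, 0⟩ ⟨0, 0, 0, 0, 0, 0, 476199, 0, 0, 0, 0, 0, 0⟩ ⟨0, 0, 0, 0, 0, 0, 622616, 0, 0, 0, 0, 0, 0⟩ ⟨0, 0, 0, 0, 0, 0, 622616, 0, 0, 0, 0, 0, 0⟩ ⟨286, 0, -2337, 6, 29, 335, 899045, 0, 0, 0, 0, 0, 0⟩)))))
    (.s1
    (.s3
    (.s3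
    (.leaf (.box ⟨236, 1, -2048, 14, 58, 270, 384991, 0, 0, 0, 0, 0, 0⟩ ⟨0, 0, 0, 0, 0, 0, 469273, 0, 0, 0, 0, 0, 0⟩ ⟨0, 0, 0, 0, 0, 0, 469273, 0, 0, 0, 0, 0, 0⟩ ⟨0, 0, 0, 0, 0, 0, 600800, 0, 0, 0, 0, 0, 0⟩ ⟨0, 0, 0, 0, 0, 0, 600800, 0, 0, 0, 0, 0, 0⟩ ⟨245, 1, -2048, 7, 27, 276, 834765, 0, 0, 0, 0, 0, 0⟩))
    (.leaf (.box ⟨244, 1, -2048, 13, 54, 275, 421123, 0, 0, 0, 0, 0, 0⟩ ⟨0, 0, 0, 0, 0, 0, 509037, 0, 0, 0, 0, 0, 0⟩ ⟨0, 0, 0, 0, 0, 0, 509037, 0, 0, 0, 0, 0, 0⟩ ⟨0, 0, 0, 0, 0, 0, 643342, 0, 0, 0, 0, 0, 0⟩ ⟨0, 0, 0, 0, 0, 0, 643342, 0, 0, 0, 0, 0, 0⟩ ⟨242, 1, -2048, 6, 26, 276, 873915, 0, 0, 0, 0, 0, 0⟩)))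
    (.s3
    (.leaf (.box ⟨236, 1, -2048, 11, 49, 271, 464803, 0, 0, 0, 0, 0, 0⟩ ⟨0, 0, 0, 0, 0, 0, 556230, 0, 0, 0, 0, 0, 0⟩ ⟨0, 0, 0, 0, 0, 0, 556230, 0, 0, 0, 0, 0, 0⟩ ⟨0, 0, 0, 0, 0, 0, 692430, 0, 0, 0, 0, 0, 0⟩ ⟨0, 0, 0, 0, 0, 0, 692430, 0, 0, 0, 0, 0, 0⟩ ⟨247, 1, -2048, 6, 25, 277, 916959, 0, 0, 0, 0, 0, 0⟩))
    (.leaf (.box ⟨226, 1, -2048, 11, 44, 274, 518540, 0, 0, 0, 0, 0, 0⟩ ⟨0, 0, 0, 0, 0, 0, 612961, 0, 0, 0, 0, 0, 0⟩ ⟨0, 0, 0, 0, 0, 0, 612961, 0, 0, 0, 0, 0, 0⟩ ⟨0, 0, 0, 0, 0, 0, 749424, 0, 0, 0, 0, 0, 0⟩ ⟨0, 0, 0, 0, 0, 0, 749424, 0, 0, 0, 0, 0, 0⟩ ⟨246, 1, -2048, 6, 24, 277, 964047, 0, 0, 0, 0, 0, 0⟩))))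
    (.s3
    (.s3
    (.leaf (.box ⟨214, 0, -2048, 13, 60, 295, 384156, 0, 0, 0, 0, 0, 0⟩ ⟨0, 0, 0, 0, 0, 0, 468361, 0, 0, 0, 0, 0, 0⟩ ⟨0, 0, 0, 0, 0, 0, 468361, 0, 0, 0, 0, 0, 0⟩ ⟨0, 0, 0, 0, 0, 0, 599844, 0, 0, 0, 0, 0, 0⟩ ⟨0, 0, 0, 0, 0, 0, 599844, 0, 0, 0, 0, 0, 0⟩ ⟨229, 0, -2048, 7, 28, 300, 833960, 0, 0, 0, 0, 0, 0⟩))
    (.leaf (.box ⟨215, 0, -2048, 15, 60, 296, 420454, 0, 0, 0, 0, 0, 0⟩ ⟨0, 0, 0, 0, 0, 0, 508310, 0, 0, 0, 0, 0, 0⟩ ⟨0, 0, 0, 0, 0, 0, 508310, 0, 0, 0, 0, 0, 0⟩ ⟨0, 0, 0, 0, 0, 0, 642581, 0, 0, 0, 0, 0, 0⟩ ⟨0, 0, 0, 0, 0, 0, 642581, 0, 0, 0, 0, 0, 0⟩ ⟨240, 0, -2048, 7, 27, 301, 873250, 0, 0, 0, 0, 0, 0⟩)))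
    (.s0
    (.leaf (.box ⟨180, 0, -2048, 9, 49, 293, 464172, 0, 0, 0, 0, 0, 0⟩ ⟨0, 0, 0, 0, 0, 0, 555536, 0, 0, 0, 0, 0, 0⟩ ⟨0, 0, 0, 0, 0, 0, 555536, 0, 0, 0, 0, 0, 0⟩ ⟨0, 0, 0, 0, 0, 0, 691679, 0, 0, 0, 0, 0, 0⟩ ⟨0, 0, 0, 0, 0, 0, 691679, 0, 0, 0, 0, 0, 0⟩ ⟨233, 0, -2711, 6, 33, 390, 916212, 0, 0, 0, 0, 0, 0⟩))
    (.leaf (.box ⟨171, 0, -2048, 9, 49, 308, 514498, 0, 0, 0, 0, 0, 0⟩ ⟨0, 0, 0, 0, 0, 0, 615664, 0, 0, 0, 0, 0, 0⟩ ⟨0, 0, 0, 0, 0, 0, 615664, 0, 0, 0, 0, 0, 0⟩ ⟨0, 0, 0, 0, 0, 0, 766350, 0, 0, 0, 0, 0, 0⟩ ⟨0, 0, 0, 0, 0, 0, 766350, 0, 0, 0, 0, 0, 0⟩ ⟨228, 0, -2779, 6, 34, 419, 1014703, 0, 0, 0, 0, 0, 0⟩)))))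

/-- A piece of the tree. -/
noncomputable def tree119 : Tree LeafX :=
  .s2
    (.s3
    (.s3
    (.leaf (.box ⟨312, 12, -2048, 26, 102, 292, 343871, 0, 0, 0, 0, 0, 0⟩ ⟨0, 0, 0, 0, 0, 0, 427428, 0, 0, 0, 0, 0, 0⟩ ⟨0, 0, 0, 0, 0, 0, 427428, 0, 0, 0, 0, 0, 0⟩ ⟨0, 0, 0, 0, 0, 0, 564626, 0, 0, 0, 0, 0, 0⟩ ⟨0, 0, 0, 0, 0, 0, 564626, 0, 0, 0, 0, 0, 0⟩ ⟨312, 5, -2048, 10, 41, 288, 831534, 0, 0, 0, 0, 0, 0⟩))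
    (.s2
    (.leaf (.box ⟨364, 11, -2048, 20, 99, 305, 388608, 0, 0, 0, 0, 0, 0⟩ ⟨0, 0, 0, 0, 0, 0, 478547, 0, 0, 0, 0, 0, 0⟩ ⟨0, 0, 0, 0, 0, 0, 478547, 0, 0, 0, 0, 0, 0⟩ ⟨0, 0, 0, 0, 0, 0, 622651, 0, 0, 0, 0, 0, 0⟩ ⟨0, 0, 0, 0, 0, 0, 622651, 0, 0, 0, 0, 0, 0⟩ ⟨285, 4, -2048, 7, 41, 291, 890938, 0, 0, 0, 0, 0, 0⟩))
    (.leaf (.box ⟨289, 8, -2048, 17, 83, 287, 399716, 0, 0, 0, 0, 0, 0⟩ ⟨0, 0, 0, 0, 0, 0, 492627, 0, 0, 0, 0, 0, 0⟩ ⟨0, 0, 0, 0, 0, 0, 492627, 0, 0, 0, 0, 0, 0⟩ ⟨0, 0, 0, 0, 0, 0, 641808, 0, 0, 0, 0, 0, 0⟩ ⟨0, 0, 0, 0, 0, 0, 641808, 0, 0, 0, 0, 0, 0⟩ ⟨291, 4, -2048, 8, 35, 284, 920590, 0, 0, 0, 0, 0, 0⟩))))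
    (.s1
    (.leaf (.box ⟨294, 11, -2048, 19, 80, 285, 464815, 0, 0, 0, 0, 0, 0⟩ ⟨0, 0, 0, 0, 0, 0, 565496, 0, 0, 0, 0, 0, 0⟩ ⟨0, 0, 0, 0, 0, 0, 565496, 0, 0, 0, 0, 0, 0⟩ ⟨0, 0, 0, 0, 0, 0, 721852, 0, 0, 0, 0, 0, 0⟩ ⟨0, 0, 0, 0, 0, 0, 721852, 0, 0, 0, 0, 0, 0⟩ ⟨261, 4, -2048, 7, 34, 278, 997712, 0, 0, 0, 0, 0, 0⟩))
    (.s2
    (.s3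
    (.leaf (.box ⟨220, 6, -2048, 12, 83, 303, 448807, 0, 0, 0, 0, 0, 0⟩ ⟨0, 0, 0, 0, 0, 0, 545778, 0, 0, 0, 0, 0, 0⟩ ⟨0, 0, 0, 0, 0, 0, 545778, 0, 0, 0, 0, 0, 0⟩ ⟨0, 0, 0, 0, 0, 0, 696202, 0, 0, 0, 0, 0, 0⟩ ⟨0, 0, 0, 0, 0, 0, 696202, 0, 0, 0, 0, 0, 0⟩ ⟨276, 3, -2557, 6, 47, 375, 961091, 0, 0, 0, 0, 0, 0⟩))
    (.s3
    (.leaf (.box ⟨226, 5, -2048, 9, 69, 303, 538365, 0, 0, 0, 0, 0, 0⟩ ⟨0, 0, 0, 0, 0, 0, 642884, 0, 0, 0, 0, 0, 0⟩ ⟨0, 0, 0, 0, 0, 0, 642884, 0, 0, 0, 0, 0, 0⟩ ⟨0, 0, 0, 0, 0, 0, 797763, 0, 0, 0, 0, 0, 0⟩ ⟨0, 0, 0, 0, 0, 0, 797763, 0, 0, 0, 0, 0, 0⟩ ⟨330, 3, -3054, 6, 52, 448, 1050948, 0, 0, 0, 0, 0, 0⟩))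
    (.leaf (.box ⟨221, 4, -2048, 8, 62, 302, 595804, 0, 0, 0, 0, 0, 0⟩ ⟨0, 0, 0, 0, 0, 0, 702933, 0, 0, 0, 0, 0, 0⟩ ⟨0, 0, 0, 0, 0, 0, 702933, 0, 0, 0, 0, 0, 0⟩ ⟨0, 0, 0, 0, 0, 0, 857031, 0, 0, 0, 0, 0, 0⟩ ⟨0, 0, 0, 0, 0, 0, 857031, 0, 0, 0, 0, 0, 0⟩ ⟨336, 3, -3014, 6, 49, 442, 1097662, 0, 0, 0, 0, 0, 0⟩))))
    (.leaf (.box ⟨231, 4, -2048, 11, 72, 295, 458001, 0, 0, 0, 0, 0, 0⟩ ⟨0, 0, 0, 0, 0, 0, 557695, 0, 0, 0, 0, 0, 0⟩ ⟨0, 0, 0, 0, 0, 0, 557695, 0, 0, 0, 0, 0, 0⟩ ⟨0, 0, 0, 0, 0, 0, 712864, 0, 0, 0, 0, 0, 0⟩ ⟨0, 0, 0, 0, 0, 0, 712864, 0, 0, 0, 0, 0, 0⟩ ⟨289, 3, -2583, 6, 41, 369, 987664, 0, 0, 0, 0, 0, 0⟩)))))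
    (.leaf (.box ⟨353, 9, -2048, 29, 77, 283, 356917, 0, 0, 0, 0, 0, 0⟩ ⟨0, 0, 0, 0, 0, 0, 445009, 0, 0, 0, 0, 0, 0⟩ ⟨0, 0, 0, 0, 0, 0, 445009, 0, 0, 0, 0, 0, 0⟩ ⟨0, 0, 0, 0, 0, 0, 590833, 0, 0, 0, 0, 0, 0⟩ ⟨0, 0, 0, 0, 0, 0, 590833, 0, 0, 0, 0, 0, 0⟩ ⟨348, 4, -2048, 11, 31, 280, 878809, 0, 0, 0, 0, 0, 0⟩))

/-- A piece of the tree. -/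
noncomputable def tree120 : Tree LeafX :=
  .s2
    (.s3
    (.s1
    (.s0
    (.s3
    (.leaf (.box ⟨171, 5, -2048, 13, 108, 315, 329450, 0, 0, 0, 0, 0, 0⟩ ⟨0, 0, 0, 0, 0, 0, 409750, 0, 0, 0, 0, 0, 0⟩ ⟨0, 0, 0, 0, 0, 0, 409750, 0, 0, 0, 0, 0, 0⟩ ⟨0, 0, 0, 0, 0, 0, 541809, 0, 0, 0, 0, 0, 0⟩ ⟨0, 0, 0, 0, 0, 0, 541809, 0, 0, 0, 0, 0, 0⟩ ⟨187, 2, -2234, 6, 48, 343, 799471, 0, 0, 0, 0, 0, 0⟩))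
    (.leaf (.box ⟨175, 5, -2048, 13, 102, 316, 350023, 0, 0, 0, 0, 0, 0⟩ ⟨0, 0, 0, 0, 0, 0, 433417, 0, 0, 0, 0, 0, 0⟩ ⟨0, 0, 0, 0, 0, 0, 433417, 0, 0, 0, 0, 0, 0⟩ ⟨0, 0, 0, 0, 0, 0, 568977, 0, 0, 0, 0, 0, 0⟩ ⟨0, 0, 0, 0, 0, 0, 568977, 0, 0, 0, 0, 0, 0⟩ ⟨213, 2, -2515, 6, 53, 386, 827926, 0, 0, 0, 0, 0, 0⟩)))
    (.leaf (.box ⟨159, 5, -2048, 12, 106, 331, 364005, 0, 0, 0, 0, 0, 0⟩ ⟨0, 0, 0, 0, 0, 0, 452530, 0, 0, 0, 0, 0, 0⟩ ⟨0, 0, 0, 0, 0, 0, 452530, 0, 0, 0, 0, 0, 0⟩ ⟨0, 0, 0, 0, 0, 0, 597949, 0, 0, 0, 0, 0, 0⟩ ⟨0, 0, 0, 0, 0, 0, 597949, 0, 0, 0, 0, 0, 0⟩ ⟨180, 3, -2337, 6, 49, 375, 881080, 0, 0, 0, 0, 0, 0⟩)))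
    (.s0
    (.s2
    (.s3
    (.leaf (.box ⟨160, 5, -2048, 16, 126, 342, 318817, 0, 0, 0, 0, 0, 0⟩ ⟨0, 0, 0, 0, 0, 0, 396897, 0, 0, 0, 0, 0, 0⟩ ⟨0, 0, 0, 0, 0, 0, 396897, 0, 0, 0, 0, 0, 0⟩ ⟨0, 0, 0, 0, 0, 0, 525623, 0, 0, 0, 0, 0, 0⟩ ⟨0, 0, 0, 0, 0, 0, 525623, 0, 0, 0, 0, 0, 0⟩ ⟨223, 2, -2834, 6, 69, 476, 777932, 0, 0, 0, 0, 0, 0⟩))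
    (.s1
    (.leaf (.box ⟨124, 3, -2048, 9, 112, 338, 343787, 0, 0, 0, 0, 0, 0⟩ ⟨0, 0, 0, 0, 0, 0, 425884, 0, 0, 0, 0, 0, 0⟩ ⟨0, 0, 0, 0, 0, 0, 425884, 0, 0, 0, 0, 0, 0⟩ ⟨0, 0, 0, 0, 0, 0, 559489, 0, 0, 0, 0, 0, 0⟩ ⟨0, 0, 0, 0, 0, 0, 559489, 0, 0, 0, 0, 0, 0⟩ ⟨214, 2, -3643, 6, 84, 602, 815242, 0, 0, 0, 0, 0, 0⟩))
    (.leaf (.box ⟨128, 3, -2048, 9, 116, 352, 339281, 0, 0, 0, 0, 0, 0⟩ ⟨0, 0, 0, 0, 0, 0, 420484, 0, 0, 0, 0, 0, 0⟩ ⟨0, 0, 0, 0, 0, 0, 420484, 0, 0, 0, 0, 0, 0⟩ ⟨0, 0, 0, 0, 0, 0, 552786, 0, 0, 0, 0, 0, 0⟩ ⟨0, 0, 0, 0, 0, 0, 552786, 0, 0, 0, 0, 0, 0⟩ ⟨186, 2, -3136, 6, 75, 541, 806564, 0, 0, 0, 0, 0, 0⟩))))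
    (.leaf (.box ⟨162, 2, -2048, 10, 109, 335, 325026, 0, 0, 0, 0, 0, 0⟩ ⟨0, 0, 0, 0, 0, 0, 404941, 0, 0, 0, 0, 0, 0⟩ ⟨0, 0, 0, 0, 0, 0, 404941, 0, 0, 0, 0, 0, 0⟩ ⟨0, 0, 0, 0, 0, 0, 536964, 0, 0, 0, 0, 0, 0⟩ ⟨0, 0, 0, 0, 0, 0, 536964, 0, 0, 0, 0, 0, 0⟩ ⟨227, 2, -2821, 6, 61, 463, 796718, 0, 0, 0, 0, 0, 0⟩)))
    (.leaf (.box ⟨170, 4, -2048, 14, 114, 354, 351342, 0, 0, 0, 0, 0, 0⟩ ⟨0, 0, 0, 0, 0, 0, 437196, 0, 0, 0, 0, 0, 0⟩ ⟨0, 0, 0, 0, 0, 0, 437196, 0, 0, 0, 0, 0, 0⟩ ⟨0, 0, 0, 0, 0, 0, 578578, 0, 0, 0, 0, 0, 0⟩ ⟨0, 0, 0, 0, 0, 0, 578578, 0, 0, 0, 0, 0, 0⟩ ⟨185, 2, -2185, 6, 50, 377, 855101, 0, 0, 0, 0, 0, 0⟩))))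
    (.s1
    (.s0
    (.s3
    (.leaf (.box ⟨173, 4, -2048, 12, 97, 316, 373626, 0, 0, 0, 0, 0, 0⟩ ⟨0, 0, 0, 0, 0, 0, 460304, 0, 0, 0, 0, 0, 0⟩ ⟨0, 0, 0, 0, 0, 0, 460304, 0, 0, 0, 0, 0, 0⟩ ⟨0, 0, 0, 0, 0, 0, 599346, 0, 0, 0, 0, 0, 0⟩ ⟨0, 0, 0, 0, 0, 0, 599346, 0, 0, 0, 0, 0, 0⟩ ⟨219, 2, -2578, 6, 53, 397, 858742, 0, 0, 0, 0, 0, 0⟩))
    (.leaf (.box ⟨178, 4, -2048, 11, 90, 317, 400984, 0, 0, 0, 0, 0, 0⟩ ⟨0, 0, 0, 0, 0, 0, 491118, 0, 0, 0, 0, 0, 0⟩ ⟨0, 0, 0, 0, 0, 0, 491118, 0, 0, 0, 0, 0, 0⟩ ⟨0, 0, 0, 0, 0, 0, 633520, 0, 0, 0, 0, 0, 0⟩ ⟨0, 0, 0, 0, 0, 0, 633520, 0, 0, 0, 0, 0, 0⟩ ⟨222, 2, -2570, 6, 51, 396, 892226, 0, 0, 0, 0, 0, 0⟩)))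
    (.leaf (.box ⟨165, 5, -2048, 12, 95, 331, 411627, 0, 0, 0, 0, 0, 0⟩ ⟨0, 0, 0, 0, 0, 0, 506965, 0, 0, 0, 0, 0, 0⟩ ⟨0, 0, 0, 0, 0, 0, 506965, 0, 0, 0, 0, 0, 0⟩ ⟨0, 0, 0, 0, 0, 0, 659778, 0, 0, 0, 0, 0, 0⟩ ⟨0, 0, 0, 0, 0, 0, 659778, 0, 0, 0, 0, 0, 0⟩ ⟨202, 3, -2550, 6, 51, 410, 944463, 0, 0, 0, 0, 0, 0⟩)))
    (.s0
    (.s3
    (.s3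
    (.leaf (.box ⟨188, 4, -2048, 13, 103, 341, 363519, 0, 0, 0, 0, 0, 0⟩ ⟨0, 0, 0, 0, 0, 0, 448166, 0, 0, 0, 0, 0, 0⟩ ⟨0, 0, 0, 0, 0, 0, 448166, 0, 0, 0, 0, 0, 0⟩ ⟨0, 0, 0, 0, 0, 0, 584198, 0, 0, 0, 0, 0, 0⟩ ⟨0, 0, 0, 0, 0, 0, 584198, 0, 0, 0, 0, 0, 0⟩ ⟨202, 2, -2200, 6, 48, 367, 838798, 0, 0, 0, 0, 0, 0⟩))
    (.leaf (.box ⟨184, 3, -2048, 12, 100, 341, 376635, 0, 0, 0, 0, 0, 0⟩ ⟨0, 0, 0, 0, 0, 0, 463010, 0, 0, 0, 0, 0, 0⟩ ⟨0, 0, 0, 0, 0, 0, 463010, 0, 0, 0, 0, 0, 0⟩ ⟨0, 0, 0, 0, 0, 0, 600792, 0, 0, 0, 0, 0, 0⟩ ⟨0, 0, 0, 0, 0, 0, 600792, 0, 0, 0, 0, 0, 0⟩ ⟨213, 2, -2226, 6, 48, 372, 855314, 0, 0, 0, 0, 0, 0⟩)))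
    (.s3
    (.leaf (.box ⟨194, 4, -2048, 13, 96, 342, 390794, 0, 0, 0, 0, 0, 0⟩ ⟨0, 0, 0, 0, 0, 0, 478938, 0, 0, 0, 0, 0, 0⟩ ⟨0, 0, 0, 0, 0, 0, 478938, 0, 0, 0, 0, 0, 0⟩ ⟨0, 0, 0, 0, 0, 0, 618424, 0, 0, 0, 0, 0, 0⟩ ⟨0, 0, 0, 0, 0, 0, 618424, 0, 0, 0, 0, 0, 0⟩ ⟨202, 2, -2205, 6, 47, 369, 872544, 0, 0, 0, 0, 0, 0⟩))
    (.leaf (.box ⟨189, 5, -2048, 19, 101, 343, 406126, 0, 0, 0, 0, 0, 0⟩ ⟨0, 0, 0, 0, 0, 0, 496073, 0, 0, 0, 0, 0, 0⟩ ⟨0, 0, 0, 0, 0, 0, 496073, 0, 0, 0, 0, 0, 0⟩ ⟨0, 0, 0, 0, 0, 0, 637196, 0, 0, 0, 0, 0, 0⟩ ⟨0, 0, 0, 0, 0, 0, 637196, 0, 0, 0, 0, 0, 0⟩ ⟨220, 2, -2348, 6, 49, 394, 890536, 0, 0, 0, 0, 0, 0⟩))))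
    (.s2
    (.leaf (.box ⟨157, 3, -2048, 9, 107, 360, 398749, 0, 0, 0, 0, 0, 0⟩ ⟨0, 0, 0, 0, 0, 0, 491495, 0, 0, 0, 0, 0, 0⟩ ⟨0, 0, 0, 0, 0, 0, 491495, 0, 0, 0, 0, 0, 0⟩ ⟨0, 0, 0, 0, 0, 0, 640461, 0, 0, 0, 0, 0, 0⟩ ⟨0, 0, 0, 0, 0, 0, 640461, 0, 0, 0, 0, 0, 0⟩ ⟨264, 2, -3280, 6, 74, 576, 918998, 0, 0, 0, 0, 0, 0⟩))
    (.leaf (.box ⟨154, 3, -2048, 9, 94, 352, 410795, 0, 0, 0, 0, 0, 0⟩ ⟨0, 0, 0, 0, 0, 0, 506615, 0, 0, 0, 0, 0, 0⟩ ⟨0, 0, 0, 0, 0, 0, 506615, 0, 0, 0, 0, 0, 0⟩ ⟨0, 0, 0, 0, 0, 0, 660734, 0, 0, 0, 0, 0, 0⟩ ⟨0, 0, 0, 0, 0, 0, 660734, 0, 0, 0, 0, 0, 0⟩ ⟨267, 2, -3517, 6, 70, 603, 949621, 0, 0, 0, 0, 0, 0⟩))))))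
    (.s1
    (.leaf (.box ⟨236, 4, -2048, 15, 96, 315, 337327, 0, 0, 0, 0, 0, 0⟩ ⟨0, 0, 0, 0, 0, 0, 420259, 0, 0, 0, 0, 0, 0⟩ ⟨0, 0, 0, 0, 0, 0, 420259, 0, 0, 0, 0, 0, 0⟩ ⟨0, 0, 0, 0, 0, 0, 557261, 0, 0, 0, 0, 0, 0⟩ ⟨0, 0, 0, 0, 0, 0, 557261, 0, 0, 0, 0, 0, 0⟩ ⟨238, 2, -2180, 6, 41, 333, 826788, 0, 0, 0, 0, 0, 0⟩))
    (.s3
    (.leaf (.box ⟨238, 3, -2048, 15, 98, 335, 333885, 0, 0, 0, 0, 0, 0⟩ ⟨0, 0, 0, 0, 0, 0, 416186, 0, 0, 0, 0, 0, 0⟩ ⟨0, 0, 0, 0, 0, 0, 416186, 0, 0, 0, 0, 0, 0⟩ ⟨0, 0, 0, 0, 0, 0, 552331, 0, 0, 0, 0, 0, 0⟩ ⟨0, 0, 0, 0, 0, 0, 552331, 0, 0, 0, 0, 0, 0⟩ ⟨236, 1, -2158, 6, 42, 353, 820855, 0, 0, 0, 0, 0, 0⟩))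
    (.leaf (.box ⟨276, 3, -2048, 14, 89, 343, 381481, 0, 0, 0, 0, 0, 0⟩ ⟨0, 0, 0, 0, 0, 0, 470890, 0, 0, 0, 0, 0, 0⟩ ⟨0, 0, 0, 0, 0, 0, 470890, 0, 0, 0, 0, 0, 0⟩ ⟨0, 0, 0, 0, 0, 0, 615038, 0, 0, 0, 0, 0, 0⟩ ⟨0, 0, 0, 0, 0, 0, 615038, 0, 0, 0, 0, 0, 0⟩ ⟨243, 1, -2197, 6, 40, 361, 886372, 0, 0, 0, 0, 0, 0⟩))))

/-- A piece of the tree. -/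
noncomputable def tree121 : Tree LeafX :=
  .s3
    (.leaf (.box ⟨322, 2, -2048, 24, 76, 321, 354903, 0, 0, 0, 0, 0, 0⟩ ⟨0, 0, 0, 0, 0, 0, 442582, 0, 0, 0, 0, 0, 0⟩ ⟨0, 0, 0, 0, 0, 0, 442582, 0, 0, 0, 0, 0, 0⟩ ⟨0, 0, 0, 0, 0, 0, 587795, 0, 0, 0, 0, 0, 0⟩ ⟨0, 0, 0, 0, 0, 0, 587795, 0, 0, 0, 0, 0, 0⟩ ⟨312, 1, -2048, 9, 31, 321, 874832, 0, 0, 0, 0, 0, 0⟩))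
    (.leaf (.box ⟨310, 2, -2048, 20, 67, 321, 406226, 0, 0, 0, 0, 0, 0⟩ ⟨0, 0, 0, 0, 0, 0, 501534, 0, 0, 0, 0, 0, 0⟩ ⟨0, 0, 0, 0, 0, 0, 501534, 0, 0, 0, 0, 0, 0⟩ ⟨0, 0, 0, 0, 0, 0, 655273, 0, 0, 0, 0, 0, 0⟩ ⟨0, 0, 0, 0, 0, 0, 655273, 0, 0, 0, 0, 0, 0⟩ ⟨313, 1, -2048, 9, 29, 321, 944927, 0, 0, 0, 0, 0, 0⟩))

/-- A piece of the tree. -/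
noncomputable def tree122 : Tree LeafX :=
  .s0
    (.s3
    (.s2
    (.s1
    (.leaf (.box ⟨159, 3, -2048, 8, 88, 321, 433070, 0, 0, 0, 0, 0, 0⟩ ⟨0, 0, 0, 0, 0, 0, 526786, 0, 0, 0, 0, 0, 0⟩ ⟨0, 0, 0, 0, 0, 0, 526786, 0, 0, 0, 0, 0, 0⟩ ⟨0, 0, 0, 0, 0, 0, 672261, 0, 0, 0, 0, 0, 0⟩ ⟨0, 0, 0, 0, 0, 0, 672261, 0, 0, 0, 0, 0, 0⟩ ⟨274, 3, -3539, 6, 70, 553, 928738, 0, 0, 0, 0, 0, 0⟩))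
    (.s3
    (.leaf (.box ⟨165, 3, -2048, 8, 94, 348, 422782, 0, 0, 0, 0, 0, 0⟩ ⟨0, 0, 0, 0, 0, 0, 514557, 0, 0, 0, 0, 0, 0⟩ ⟨0, 0, 0, 0, 0, 0, 514557, 0, 0, 0, 0, 0, 0⟩ ⟨0, 0, 0, 0, 0, 0, 657221, 0, 0, 0, 0, 0, 0⟩ ⟨0, 0, 0, 0, 0, 0, 657221, 0, 0, 0, 0, 0, 0⟩ ⟨270, 2, -3290, 6, 71, 561, 909342, 0, 0, 0, 0, 0, 0⟩))
    (.leaf (.box ⟨167, 2, -2048, 8, 91, 349, 440943, 0, 0, 0, 0, 0, 0⟩ ⟨0, 0, 0, 0, 0, 0, 534556, 0, 0, 0, 0, 0, 0⟩ ⟨0, 0, 0, 0, 0, 0, 534556, 0, 0, 0, 0, 0, 0⟩ ⟨0, 0, 0, 0, 0, 0, 678630, 0, 0, 0, 0, 0, 0⟩ ⟨0, 0, 0, 0, 0, 0, 678630, 0, 0, 0, 0, 0, 0⟩ ⟨274, 2, -3330, 6, 70, 569, 929019, 0, 0, 0, 0, 0, 0⟩))))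
    (.s1
    (.leaf (.box ⟨157, 3, -2048, 7, 79, 314, 441809, 0, 0, 0, 0, 0, 0⟩ ⟨0, 0, 0, 0, 0, 0, 537639, 0, 0, 0, 0, 0, 0⟩ ⟨0, 0, 0, 0, 0, 0, 537639, 0, 0, 0, 0, 0, 0⟩ ⟨0, 0, 0, 0, 0, 0, 686553, 0, 0, 0, 0, 0, 0⟩ ⟨0, 0, 0, 0, 0, 0, 686553, 0, 0, 0, 0, 0, 0⟩ ⟨278, 2, -3709, 6, 67, 567, 949562, 0, 0, 0, 0, 0, 0⟩))
    (.leaf (.box ⟨168, 2, -2048, 8, 84, 339, 433340, 0, 0, 0, 0, 0, 0⟩ ⟨0, 0, 0, 0, 0, 0, 527703, 0, 0, 0, 0, 0, 0⟩ ⟨0, 0, 0, 0, 0, 0, 527703, 0, 0, 0, 0, 0, 0⟩ ⟨0, 0, 0, 0, 0, 0, 674602, 0, 0, 0, 0, 0, 0⟩ ⟨0, 0, 0, 0, 0, 0, 674602, 0, 0, 0, 0, 0, 0⟩ ⟨293, 2, -3676, 6, 70, 610, 934837, 0, 0, 0, 0, 0, 0⟩))))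
    (.s1
    (.s3
    (.leaf (.box ⟨180, 4, -2048, 10, 78, 318, 472627, 0, 0, 0, 0, 0, 0⟩ ⟨0, 0, 0, 0, 0, 0, 570145, 0, 0, 0, 0, 0, 0⟩ ⟨0, 0, 0, 0, 0, 0, 570145, 0, 0, 0, 0, 0, 0⟩ ⟨0, 0, 0, 0, 0, 0, 718366, 0, 0, 0, 0, 0, 0⟩ ⟨0, 0, 0, 0, 0, 0, 718366, 0, 0, 0, 0, 0, 0⟩ ⟨238, 2, -2702, 6, 50, 418, 970726, 0, 0, 0, 0, 0, 0⟩))
    (.leaf (.box ⟨186, 4, -2048, 9, 74, 318, 494615, 0, 0, 0, 0, 0, 0⟩ ⟨0, 0, 0, 0, 0, 0, 593896, 0, 0, 0, 0, 0, 0⟩ ⟨0, 0, 0, 0, 0, 0, 593896, 0, 0, 0, 0, 0, 0⟩ ⟨0, 0, 0, 0, 0, 0, 743041, 0, 0, 0, 0, 0, 0⟩ ⟨0, 0, 0, 0, 0, 0, 743041, 0, 0, 0, 0, 0, 0⟩ ⟨252, 2, -2876, 6, 52, 445, 992217, 0, 0, 0, 0, 0, 0⟩)))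
    (.s2
    (.s3
    (.leaf (.box ⟨170, 3, -2048, 8, 87, 350, 460821, 0, 0, 0, 0, 0, 0⟩ ⟨0, 0, 0, 0, 0, 0, 556264, 0, 0, 0, 0, 0, 0⟩ ⟨0, 0, 0, 0, 0, 0, 556264, 0, 0, 0, 0, 0, 0⟩ ⟨0, 0, 0, 0, 0, 0, 701570, 0, 0, 0, 0, 0, 0⟩ ⟨0, 0, 0, 0, 0, 0, 701570, 0, 0, 0, 0, 0, 0⟩ ⟨264, 2, -3158, 6, 66, 541, 949628, 0, 0, 0, 0, 0, 0⟩))
    (.leaf (.box ⟨168, 4, -2048, 12, 88, 350, 482672, 0, 0, 0, 0, 0, 0⟩ ⟨0, 0, 0, 0, 0, 0, 579911, 0, 0, 0, 0, 0, 0⟩ ⟨0, 0, 0, 0, 0, 0, 579911, 0, 0, 0, 0, 0, 0⟩ ⟨0, 0, 0, 0, 0, 0, 726212, 0, 0, 0, 0, 0, 0⟩ ⟨0, 0, 0, 0, 0, 0, 726212, 0, 0, 0, 0, 0, 0⟩ ⟨296, 2, -3488, 6, 71, 599, 971238, 0, 0, 0, 0, 0, 0⟩)))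
    (.leaf (.box ⟨162, 2, -2048, 7, 78, 340, 472856, 0, 0, 0, 0, 0, 0⟩ ⟨0, 0, 0, 0, 0, 0, 571088, 0, 0, 0, 0, 0, 0⟩ ⟨0, 0, 0, 0, 0, 0, 571088, 0, 0, 0, 0, 0, 0⟩ ⟨0, 0, 0, 0, 0, 0, 720834, 0, 0, 0, 0, 0, 0⟩ ⟨0, 0, 0, 0, 0, 0, 720834, 0, 0, 0, 0, 0, 0⟩ ⟨286, 2, -3580, 6, 66, 596, 977020, 0, 0, 0, 0, 0, 0⟩)))))
    (.s1
    (.leaf (.box ⟨165, 4, -2048, 10, 83, 332, 475708, 0, 0, 0, 0, 0, 0⟩ ⟨0, 0, 0, 0, 0, 0, 578558, 0, 0, 0, 0, 0, 0⟩ ⟨0, 0, 0, 0, 0, 0, 578558, 0, 0, 0, 0, 0, 0⟩ ⟨0, 0, 0, 0, 0, 0, 738147, 0, 0, 0, 0, 0, 0⟩ ⟨0, 0, 0, 0, 0, 0, 738147, 0, 0, 0, 0, 0, 0⟩ ⟨217, 3, -2647, 6, 49, 426, 1019314, 0, 0, 0, 0, 0, 0⟩))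
    (.s3
    (.leaf (.box ⟨181, 4, -2048, 11, 88, 357, 465100, 0, 0, 0, 0, 0, 0⟩ ⟨0, 0, 0, 0, 0, 0, 565840, 0, 0, 0, 0, 0, 0⟩ ⟨0, 0, 0, 0, 0, 0, 565840, 0, 0, 0, 0, 0, 0⟩ ⟨0, 0, 0, 0, 0, 0, 722286, 0, 0, 0, 0, 0, 0⟩ ⟨0, 0, 0, 0, 0, 0, 722286, 0, 0, 0, 0, 0, 0⟩ ⟨215, 2, -2510, 6, 50, 437, 998300, 0, 0, 0, 0, 0, 0⟩))
    (.leaf (.box ⟨177, 3, -2048, 10, 82, 358, 506288, 0, 0, 0, 0, 0, 0⟩ ⟨0, 0, 0, 0, 0, 0, 610948, 0, 0, 0, 0, 0, 0⟩ ⟨0, 0, 0, 0, 0, 0, 610948, 0, 0, 0, 0, 0, 0⟩ ⟨0, 0, 0, 0, 0, 0, 770154, 0, 0, 0, 0, 0, 0⟩ ⟨0, 0, 0, 0, 0, 0, 770154, 0, 0, 0, 0, 0, 0⟩ ⟨223, 2, -2554, 6, 49, 446, 1041575, 0, 0, 0, 0, 0, 0⟩))))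

theorem parts7 :
    (runPathS conQ supQ (fun n Qs i d x => leafR conQ seg n Qs i d x) [.d0 true, .d1 false, .d2 false, .d0 false, .d1 true, .d0 false, .d0 false, .d1 true, .d2 false, .d2 false, .d3 true, .d3 false, .d0 true, .d1 false] tree108 0 0 0
      (joinS (lay.B * lay.size) rootQ) = true) ∧
    (runPathS conQ supQ (fun n Qs i d x => leafR conQ seg n Qs i d x) [.d0 true, .d1 false, .d2 false, .d0 false, .d1 true, .d0 false, .d0 false, .d1 true, .d2 false, .d2 false, .d3 true, .d3 false, .d0 true, .d1 true] tree109 0 0 0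
      (joinS (lay.B * lay.size) rootQ) = true) ∧
    (runPathS conQ supQ (fun n Qs i d x => leafR conQ seg n Qs i d x) [.d0 true, .d1 false, .d2 false, .d0 false, .d1 true, .d0 false, .d0 false, .d1 true, .d2 false, .d2 false, .d3 true, .d3 true, .d0 false, .d1 false] tree110 0 0 0
      (joinS (lay.B * lay.size) rootQ) = true) ∧
    (runPathS conQ supQ (fun n Qs i d x => leafR conQ seg n Qs i d x) [.d0 true, .d1 false, .d2 false, .d0 false, .d1 true, .d0 false, .d0 false, .d1 true, .d2 false, .d2 false, .d3 true, .d3 true, .d0 false, .d1 true] tree111 0 0 0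
      (joinS (lay.B * lay.size) rootQ) = true) ∧
    (runPathS conQ supQ (fun n Qs i d x => leafR conQ seg n Qs i d x) [.d0 true, .d1 false, .d2 false, .d0 false, .d1 true, .d0 false, .d0 false, .d1 true, .d2 false, .d2 false, .d3 true, .d3 true, .d0 true, .d1 false] tree112 0 0 0
      (joinS (lay.B * lay.size) rootQ) = true) ∧
    (runPathS conQ supQ (fun n Qs i d x => leafR conQ seg n Qs i d x) [.d0 true, .d1 false, .d2 false, .d0 false, .d1 true, .d0 false, .d0 false, .d1 true, .d2 false, .d2 false, .d3 true, .d3 true, .d0 true, .d1 true] tree113 0 0 0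
      (joinS (lay.B * lay.size) rootQ) = true) ∧
    (runPathS conQ supQ (fun n Qs i d x => leafR conQ seg n Qs i d x) [.d0 true, .d1 false, .d2 false, .d0 false, .d1 true, .d0 false, .d0 false, .d1 true, .d2 false, .d2 true, .d3 false, .d0 false] tree114 0 0 0
      (joinS (lay.B * lay.size) rootQ) = true) ∧
    (runPathS conQ supQ (fun n Qs i d x => leafR conQ seg n Qs i d x) [.d0 true, .d1 false, .d2 false, .d0 false, .d1 true, .d0 false, .d0 false, .d1 true, .d2 false, .d2 true, .d3 false, .d0 true] tree115 0 0 0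
      (joinS (lay.B * lay.size) rootQ) = true) ∧
    (runPathS conQ supQ (fun n Qs i d x => leafR conQ seg n Qs i d x) [.d0 true, .d1 false, .d2 false, .d0 false, .d1 true, .d0 false, .d0 false, .d1 true, .d2 false, .d2 true, .d3 true, .d3 false] tree116 0 0 0
      (joinS (lay.B * lay.size) rootQ) = true) ∧
    (runPathS conQ supQ (fun n Qs i d x => leafR conQ seg n Qs i d x) [.d0 true, .d1 false, .d2 false, .d0 false, .d1 true, .d0 false, .d0 false, .d1 true, .d2 false, .d2 true, .d3 true, .d3 true] tree117 0 0 0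
      (joinS (lay.B * lay.size) rootQ) = true) ∧
    (runPathS conQ supQ (fun n Qs i d x => leafR conQ seg n Qs i d x) [.d0 true, .d1 false, .d2 false, .d0 false, .d1 true, .d0 false, .d0 false, .d1 true, .d2 true] tree118 0 0 0
      (joinS (lay.B * lay.size) rootQ) = true) ∧
    (runPathS conQ supQ (fun n Qs i d x => leafR conQ seg n Qs i d x) [.d0 true, .d1 false, .d2 false, .d0 false, .d1 true, .d0 false, .d0 true, .d1 false] tree119 0 0 0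
      (joinS (lay.B * lay.size) rootQ) = true) ∧
    (runPathS conQ supQ (fun n Qs i d x => leafR conQ seg n Qs i d x) [.d0 true, .d1 false, .d2 false, .d0 false, .d1 true, .d0 false, .d0 true, .d1 true, .d3 false, .d2 false] tree120 0 0 0
      (joinS (lay.B * lay.size) rootQ) = true) ∧
    (runPathS conQ supQ (fun n Qs i d x => leafR conQ seg n Qs i d x) [.d0 true, .d1 false, .d2 false, .d0 false, .d1 true, .d0 false, .d0 true, .d1 true, .d3 false, .d2 true] tree121 0 0 0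
      (joinS (lay.B * lay.size) rootQ) = true) ∧
    (runPathS conQ supQ (fun n Qs i d x => leafR conQ seg n Qs i d x) [.d0 true, .d1 false, .d2 false, .d0 false, .d1 true, .d0 false, .d0 true, .d1 true, .d3 true, .d2 false, .d2 false, .d3 false] tree122 0 0 0
      (joinS (lay.B * lay.size) rootQ) = true) :=
  ⟨by decide +kernel,
  by decide +kernel,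
  by decide +kernel,
  by decide +kernel,
  by decide +kernel,
  by decide +kernel,
  by decide +kernel,
  by decide +kernel,
  by decide +kernel,
  by decide +kernel,
  by decide +kernel,
  by decide +kernel,
  by decide +kernel,
  by decide +kernel,
  by decide +kernel⟩

end Vale.Agent.P098.Six.S21
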