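import Vale.Agent.P098.Six.S21.Root

/-!
# P098, six dimensions: checked pieces of the tree
-/

namespace Vale.Agent.P098.Six.S21

/-- A piece of the tree. -/
noncomputable def tree123 : Tree LeafX :=
  .s1
    (.s3
    (.s0
    (.s3
    (.leaf (.box ⟨179, 3, -2048, 8, 71, 318, 518763, 0, 0, 0, 0, 0, 0⟩ ⟨180, 3, -2048, 7, 59, 318, 620675, 0, 0, 0, 0, 0, 0⟩ ⟨180, 3, -2048, 7, 59, 318, 620675, 0, 0, 0, 0, 0, 0⟩ ⟨191, 2, -2163, 6, 50, 335, 773593, 0, 0, 0, 0, 0, 0⟩ ⟨191, 2, -2163, 6, 50, 335, 773593, 0, 0, 0, 0, 0, 0⟩ ⟨258, 2, -2830, 6, 50, 439, 1014290, 0, 0, 0, 0, 0, 0⟩))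
    (.leaf (.box ⟨178, 3, -2048, 8, 68, 318, 545805, 0, 0, 0, 0, 0, 0⟩ ⟨0, 0, 0, 0, 0, 0, 648307, 0, 0, 0, 0, 0, 0⟩ ⟨0, 0, 0, 0, 0, 0, 648307, 0, 0, 0, 0, 0, 0⟩ ⟨0, 0, 0, 0, 0, 0, 798209, 0, 0, 0, 0, 0, 0⟩ ⟨0, 0, 0, 0, 0, 0, 798209, 0, 0, 0, 0, 0, 0⟩ ⟨261, 3, -2910, 6, 50, 452, 1038282, 0, 0, 0, 0, 0, 0⟩)))
    (.leaf (.box ⟨168, 4, -2048, 8, 69, 332, 570827, 0, 0, 0, 0, 0, 0⟩ ⟨0, 0, 0, 0, 0, 0, 681719, 0, 0, 0, 0, 0, 0⟩ ⟨0, 0, 0, 0, 0, 0, 681719, 0, 0, 0, 0, 0, 0⟩ ⟨0, 0, 0, 0, 0, 0, 846083, 0, 0, 0, 0, 0, 0⟩ ⟨0, 0, 0, 0, 0, 0, 846083, 0, 0, 0, 0, 0, 0⟩ ⟨262, 3, -3266, 6, 56, 526, 1114883, 0, 0, 0, 0, 0, 0⟩)))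
    (.s0
    (.s3
    (.leaf (.box ⟨184, 3, -2048, 8, 64, 319, 575401, 0, 0, 0, 0, 0, 0⟩ ⟨0, 0, 0, 0, 0, 0, 679057, 0, 0, 0, 0, 0, 0⟩ ⟨0, 0, 0, 0, 0, 0, 679057, 0, 0, 0, 0, 0, 0⟩ ⟨0, 0, 0, 0, 0, 0, 828266, 0, 0, 0, 0, 0, 0⟩ ⟨0, 0, 0, 0, 0, 0, 828266, 0, 0, 0, 0, 0, 0⟩ ⟨256, 3, -2799, 6, 48, 435, 1061509, 0, 0, 0, 0, 0, 0⟩))
    (.leaf (.box ⟨182, 3, -2048, 7, 61, 319, 608344, 0, 0, 0, 0, 0, 0⟩ ⟨0, 0, 0, 0, 0, 0, 712725, 0, 0, 0, 0, 0, 0⟩ ⟨0, 0, 0, 0, 0, 0, 712725, 0, 0, 0, 0, 0, 0⟩ ⟨0, 0, 0, 0, 0, 0, 860343, 0, 0, 0, 0, 0, 0⟩ ⟨0, 0, 0, 0, 0, 0, 860343, 0, 0, 0, 0, 0, 0⟩ ⟨258, 3, -2813, 6, 47, 437, 1085083, 0, 0, 0, 0, 0, 0⟩)))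
    (.leaf (.box ⟨168, 3, -2048, 7, 63, 332, 631973, 0, 0, 0, 0, 0, 0⟩ ⟨0, 0, 0, 0, 0, 0, 745675, 0, 0, 0, 0, 0, 0⟩ ⟨0, 0, 0, 0, 0, 0, 745675, 0, 0, 0, 0, 0, 0⟩ ⟨0, 0, 0, 0, 0, 0, 909267, 0, 0, 0, 0, 0, 0⟩ ⟨0, 0, 0, 0, 0, 0, 909267, 0, 0, 0, 0, 0, 0⟩ ⟨271, 3, -3400, 6, 56, 548, 1164810, 0, 0, 0, 0, 0, 0⟩))))
    (.s3
    (.s0
    (.s2
    (.s3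
    (.s1
    (.leaf (.box ⟨125, 2, -2130, 6, 81, 357, 511611, 0, 0, 0, 0, 0, 0⟩ ⟨0, 0, 0, 0, 0, 0, 611338, 0, 0, 0, 0, 0, 0⟩ ⟨0, 0, 0, 0, 0, 0, 611338, 0, 0, 0, 0, 0, 0⟩ ⟨0, 0, 0, 0, 0, 0, 759355, 0, 0, 0, 0, 0, 0⟩ ⟨0, 0, 0, 0, 0, 0, 759355, 0, 0, 0, 0, 0, 0⟩ ⟨253, 2, -4278, 6, 84, 719, 1001948, 0, 0, 0, 0, 0, 0⟩))
    (.leaf (.box ⟨128, 2, -2048, 7, 82, 360, 506806, 0, 0, 0, 0, 0, 0⟩ ⟨0, 0, 0, 0, 0, 0, 605767, 0, 0, 0, 0, 0, 0⟩ ⟨0, 0, 0, 0, 0, 0, 605767, 0, 0, 0, 0, 0, 0⟩ ⟨0, 0, 0, 0, 0, 0, 752753, 0, 0, 0, 0, 0, 0⟩ ⟨0, 0, 0, 0, 0, 0, 752753, 0, 0, 0, 0, 0, 0⟩ ⟨228, 2, -3769, 6, 77, 665, 993921, 0, 0, 0, 0, 0, 0⟩)))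
    (.s1
    (.leaf (.box ⟨138, 2, -2357, 6, 86, 396, 538322, 0, 0, 0, 0, 0, 0⟩ ⟨157, 2, -2642, 6, 81, 444, 639877, 0, 0, 0, 0, 0, 0⟩ ⟨157, 2, -2642, 6, 81, 444, 639877, 0, 0, 0, 0, 0, 0⟩ ⟨206, 2, -3430, 6, 85, 577, 791766, 0, 0, 0, 0, 0, 0⟩ ⟨206, 2, -3430, 6, 85, 577, 791766, 0, 0, 0, 0, 0, 0⟩ ⟨254, 2, -4280, 6, 82, 720, 1025318, 0, 0, 0, 0, 0, 0⟩))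
    (.leaf (.box ⟨131, 2, -2111, 6, 80, 372, 533600, 0, 0, 0, 0, 0, 0⟩ ⟨0, 0, 0, 0, 0, 0, 634160, 0, 0, 0, 0, 0, 0⟩ ⟨0, 0, 0, 0, 0, 0, 634160, 0, 0, 0, 0, 0, 0⟩ ⟨0, 0, 0, 0, 0, 0, 781422, 0, 0, 0, 0, 0, 0⟩ ⟨0, 0, 0, 0, 0, 0, 781422, 0, 0, 0, 0, 0, 0⟩ ⟨247, 2, -4108, 6, 82, 726, 1017762, 0, 0, 0, 0, 0, 0⟩))))
    (.leaf (.box ⟨175, 2, -2048, 7, 71, 342, 520628, 0, 0, 0, 0, 0, 0⟩ ⟨0, 0, 0, 0, 0, 0, 622581, 0, 0, 0, 0, 0, 0⟩ ⟨0, 0, 0, 0, 0, 0, 622581, 0, 0, 0, 0, 0, 0⟩ ⟨0, 0, 0, 0, 0, 0, 774188, 0, 0, 0, 0, 0, 0⟩ ⟨0, 0, 0, 0, 0, 0, 774188, 0, 0, 0, 0, 0, 0⟩ ⟨297, 2, -3666, 6, 65, 612, 1023399, 0, 0, 0, 0, 0, 0⟩)))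
    (.leaf (.box ⟨179, 3, -2048, 9, 75, 359, 556082, 0, 0, 0, 0, 0, 0⟩ ⟨0, 0, 0, 0, 0, 0, 664491, 0, 0, 0, 0, 0, 0⟩ ⟨0, 0, 0, 0, 0, 0, 664491, 0, 0, 0, 0, 0, 0⟩ ⟨0, 0, 0, 0, 0, 0, 825405, 0, 0, 0, 0, 0, 0⟩ ⟨0, 0, 0, 0, 0, 0, 825405, 0, 0, 0, 0, 0, 0⟩ ⟨231, 2, -2624, 6, 49, 459, 1089154, 0, 0, 0, 0, 0, 0⟩)))
    (.s2
    (.s0
    (.s3
    (.s1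
    (.leaf (.box ⟨152, 2, -2420, 6, 84, 408, 567882, 0, 0, 0, 0, 0, 0⟩ ⟨0, 0, 0, 0, 0, 0, 670364, 0, 0, 0, 0, 0, 0⟩ ⟨0, 0, 0, 0, 0, 0, 670364, 0, 0, 0, 0, 0, 0⟩ ⟨0, 0, 0, 0, 0, 0, 817979, 0, 0, 0, 0, 0, 0⟩ ⟨0, 0, 0, 0, 0, 0, 817979, 0, 0, 0, 0, 0, 0⟩ ⟨265, 2, -4522, 6, 85, 762, 1048961, 0, 0, 0, 0, 0, 0⟩))
    (.leaf (.box ⟨131, 2, -2048, 6, 74, 362, 563096, 0, 0, 0, 0, 0, 0⟩ ⟨0, 0, 0, 0, 0, 0, 664889, 0, 0, 0, 0, 0, 0⟩ ⟨0, 0, 0, 0, 0, 0, 664889, 0, 0, 0, 0, 0, 0⟩ ⟨0, 0, 0, 0, 0, 0, 811605, 0, 0, 0, 0, 0, 0⟩ ⟨0, 0, 0, 0, 0, 0, 811605, 0, 0, 0, 0, 0, 0⟩ ⟨242, 2, -4019, 6, 79, 712, 1041403, 0, 0, 0, 0, 0, 0⟩)))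
    (.s1
    (.leaf (.box ⟨144, 2, -2398, 6, 79, 405, 600651, 0, 0, 0, 0, 0, 0⟩ ⟨0, 0, 0, 0, 0, 0, 703882, 0, 0, 0, 0, 0, 0⟩ ⟨0, 0, 0, 0, 0, 0, 703882, 0, 0, 0, 0, 0, 0⟩ ⟨0, 0, 0, 0, 0, 0, 849960, 0, 0, 0, 0, 0, 0⟩ ⟨0, 0, 0, 0, 0, 0, 849960, 0, 0, 0, 0, 0, 0⟩ ⟨258, 2, -4245, 6, 78, 717, 1072547, 0, 0, 0, 0, 0, 0⟩))
    (.leaf (.box ⟨148, 2, -2268, 6, 78, 402, 595836, 0, 0, 0, 0, 0, 0⟩ ⟨0, 0, 0, 0, 0, 0, 698404, 0, 0, 0, 0, 0, 0⟩ ⟨0, 0, 0, 0, 0, 0, 698404, 0, 0, 0, 0, 0, 0⟩ ⟨0, 0, 0, 0, 0, 0, 843628, 0, 0, 0, 0, 0, 0⟩ ⟨0, 0, 0, 0, 0, 0, 843628, 0, 0, 0, 0, 0, 0⟩ ⟨228, 2, -3759, 6, 73, 668, 1065099, 0, 0, 0, 0, 0, 0⟩))))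
    (.leaf (.box ⟨175, 2, -2200, 6, 77, 392, 616971, 0, 0, 0, 0, 0, 0⟩ ⟨0, 0, 0, 0, 0, 0, 728354, 0, 0, 0, 0, 0, 0⟩ ⟨0, 0, 0, 0, 0, 0, 728354, 0, 0, 0, 0, 0, 0⟩ ⟨0, 0, 0, 0, 0, 0, 888811, 0, 0, 0, 0, 0, 0⟩ ⟨0, 0, 0, 0, 0, 0, 888811, 0, 0, 0, 0, 0, 0⟩ ⟨318, 2, -4022, 6, 76, 715, 1139941, 0, 0, 0, 0, 0, 0⟩)))
    (.leaf (.box ⟨196, 3, -2048, 9, 68, 346, 579225, 0, 0, 0, 0, 0, 0⟩ ⟨0, 0, 0, 0, 0, 0, 684246, 0, 0, 0, 0, 0, 0⟩ ⟨0, 0, 0, 0, 0, 0, 684246, 0, 0, 0, 0, 0, 0⟩ ⟨0, 0, 0, 0, 0, 0, 835785, 0, 0, 0, 0, 0, 0⟩ ⟨0, 0, 0, 0, 0, 0, 835785, 0, 0, 0, 0, 0, 0⟩ ⟨337, 2, -3313, 6, 58, 566, 1073538, 0, 0, 0, 0, 0, 0⟩))))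

/-- A piece of the tree. -/
noncomputable def tree124 : Tree LeafX :=
  .s3
    (.s3
    (.leaf (.box ⟨283, 3, -2048, 14, 74, 322, 446466, 0, 0, 0, 0, 0, 0⟩ ⟨0, 0, 0, 0, 0, 0, 543870, 0, 0, 0, 0, 0, 0⟩ ⟨0, 0, 0, 0, 0, 0, 543870, 0, 0, 0, 0, 0, 0⟩ ⟨0, 0, 0, 0, 0, 0, 695632, 0, 0, 0, 0, 0, 0⟩ ⟨0, 0, 0, 0, 0, 0, 695632, 0, 0, 0, 0, 0, 0⟩ ⟨306, 2, -2048, 7, 34, 325, 964872, 0, 0, 0, 0, 0, 0⟩))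
    (.s1
    (.leaf (.box ⟨229, 3, -2048, 10, 67, 315, 492972, 0, 0, 0, 0, 0, 0⟩ ⟨0, 0, 0, 0, 0, 0, 595212, 0, 0, 0, 0, 0, 0⟩ ⟨0, 0, 0, 0, 0, 0, 595212, 0, 0, 0, 0, 0, 0⟩ ⟨0, 0, 0, 0, 0, 0, 750956, 0, 0, 0, 0, 0, 0⟩ ⟨0, 0, 0, 0, 0, 0, 750956, 0, 0, 0, 0, 0, 0⟩ ⟨311, 2, -2832, 6, 44, 434, 1017089, 0, 0, 0, 0, 0, 0⟩))
    (.leaf (.box ⟨225, 2, -2048, 10, 69, 338, 487611, 0, 0, 0, 0, 0, 0⟩ ⟨232, 2, -2048, 9, 57, 338, 592005, 0, 0, 0, 0, 0, 0⟩ ⟨232, 2, -2048, 9, 57, 338, 592005, 0, 0, 0, 0, 0, 0⟩ ⟨230, 1, -2048, 7, 45, 338, 749756, 0, 0, 0, 0, 0, 0⟩ ⟨230, 1, -2048, 7, 45, 338, 749756, 0, 0, 0, 0, 0, 0⟩ ⟨275, 1, -2515, 6, 41, 415, 1008764, 0, 0, 0, 0, 0, 0⟩))))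
    (.s1
    (.leaf (.box ⟨231, 3, -2048, 9, 61, 315, 540122, 0, 0, 0, 0, 0, 0⟩ ⟨222, 2, -2048, 7, 51, 314, 647346, 0, 0, 0, 0, 0, 0⟩ ⟨222, 2, -2048, 7, 51, 314, 647346, 0, 0, 0, 0, 0, 0⟩ ⟨233, 2, -2048, 6, 41, 314, 808240, 0, 0, 0, 0, 0, 0⟩ ⟨233, 2, -2048, 6, 41, 314, 808240, 0, 0, 0, 0, 0, 0⟩ ⟨323, 2, -2921, 6, 44, 448, 1061590, 0, 0, 0, 0, 0, 0⟩))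
    (.s3
    (.leaf (.box ⟨228, 2, -2048, 9, 63, 339, 537405, 0, 0, 0, 0, 0, 0⟩ ⟨0, 0, 0, 0, 0, 0, 642767, 0, 0, 0, 0, 0, 0⟩ ⟨0, 0, 0, 0, 0, 0, 642767, 0, 0, 0, 0, 0, 0⟩ ⟨0, 0, 0, 0, 0, 0, 799518, 0, 0, 0, 0, 0, 0⟩ ⟨0, 0, 0, 0, 0, 0, 799518, 0, 0, 0, 0, 0, 0⟩ ⟨300, 1, -2747, 6, 43, 454, 1057380, 0, 0, 0, 0, 0, 0⟩))
    (.leaf (.box ⟨224, 2, -2048, 8, 57, 339, 598323, 0, 0, 0, 0, 0, 0⟩ ⟨0, 0, 0, 0, 0, 0, 706930, 0, 0, 0, 0, 0, 0⟩ ⟨0, 0, 0, 0, 0, 0, 706930, 0, 0, 0, 0, 0, 0⟩ ⟨0, 0, 0, 0, 0, 0, 863708, 0, 0, 0, 0, 0, 0⟩ ⟨0, 0, 0, 0, 0, 0, 863708, 0, 0, 0, 0, 0, 0⟩ ⟨293, 1, -2680, 6, 40, 444, 1109840, 0, 0, 0, 0, 0, 0⟩))))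

/-- A piece of the tree. -/
noncomputable def tree125 : Tree LeafX :=
  .s3
    (.leaf (.box ⟨287, 2, -2048, 16, 62, 318, 474921, 0, 0, 0, 0, 0, 0⟩ ⟨0, 0, 0, 0, 0, 0, 578674, 0, 0, 0, 0, 0, 0⟩ ⟨0, 0, 0, 0, 0, 0, 578674, 0, 0, 0, 0, 0, 0⟩ ⟨0, 0, 0, 0, 0, 0, 740432, 0, 0, 0, 0, 0, 0⟩ ⟨0, 0, 0, 0, 0, 0, 740432, 0, 0, 0, 0, 0, 0⟩ ⟨312, 1, -2048, 8, 27, 321, 1027707, 0, 0, 0, 0, 0, 0⟩))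
    (.s3
    (.leaf (.box ⟨318, 2, -2048, 15, 48, 322, 573047, 0, 0, 0, 0, 0, 0⟩ ⟨0, 0, 0, 0, 0, 0, 685513, 0, 0, 0, 0, 0, 0⟩ ⟨0, 0, 0, 0, 0, 0, 685513, 0, 0, 0, 0, 0, 0⟩ ⟨0, 0, 0, 0, 0, 0, 852902, 0, 0, 0, 0, 0, 0⟩ ⟨0, 0, 0, 0, 0, 0, 852902, 0, 0, 0, 0, 0, 0⟩ ⟨312, 1, -2048, 7, 25, 321, 1128446, 0, 0, 0, 0, 0, 0⟩))
    (.leaf (.box ⟨296, 1, -2048, 12, 47, 319, 638410, 0, 0, 0, 0, 0, 0⟩ ⟨0, 0, 0, 0, 0, 0, 754408, 0, 0, 0, 0, 0, 0⟩ ⟨0, 0, 0, 0, 0, 0, 754408, 0, 0, 0, 0, 0, 0⟩ ⟨0, 0, 0, 0, 0, 0, 921918, 0, 0, 0, 0, 0, 0⟩ ⟨0, 0, 0, 0, 0, 0, 921918, 0, 0, 0, 0, 0, 0⟩ ⟨313, 1, -2048, 7, 23, 321, 1185047, 0, 0, 0, 0, 0, 0⟩)))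

/-- A piece of the tree. -/
noncomputable def tree126 : Tree LeafX :=
  .s2
    (.s1
    (.s3
    (.leaf (.box ⟨416, 21, -2048, 36, 94, 344, 421200, 0, 0, 0, 0, 0, 0⟩ ⟨0, 0, 0, 0, 0, 0, 523263, 0, 0, 0, 0, 0, 0⟩ ⟨0, 0, 0, 0, 0, 0, 523263, 0, 0, 0, 0, 0, 0⟩ ⟨0, 0, 0, 0, 0, 0, 690606, 0, 0, 0, 0, 0, 0⟩ ⟨0, 0, 0, 0, 0, 0, 690606, 0, 0, 0, 0, 0, 0⟩ ⟨409, 9, -2048, 15, 37, 337, 1015309, 0, 0, 0, 0, 0, 0⟩))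
    (.leaf (.box ⟨419, 19, -2048, 30, 70, 337, 542412, 0, 0, 0, 0, 0, 0⟩ ⟨0, 0, 0, 0, 0, 0, 659702, 0, 0, 0, 0, 0, 0⟩ ⟨0, 0, 0, 0, 0, 0, 659702, 0, 0, 0, 0, 0, 0⟩ ⟨0, 0, 0, 0, 0, 0, 841710, 0, 0, 0, 0, 0, 0⟩ ⟨0, 0, 0, 0, 0, 0, 841710, 0, 0, 0, 0, 0, 0⟩ ⟨414, 9, -2048, 13, 31, 332, 1162415, 0, 0, 0, 0, 0, 0⟩)))
    (.s3
    (.s3
    (.leaf (.box ⟨410, 14, -2048, 36, 103, 383, 391344, 0, 0, 0, 0, 0, 0⟩ ⟨0, 0, 0, 0, 0, 0, 486643, 0, 0, 0, 0, 0, 0⟩ ⟨0, 0, 0, 0, 0, 0, 486643, 0, 0, 0, 0, 0, 0⟩ ⟨0, 0, 0, 0, 0, 0, 643295, 0, 0, 0, 0, 0, 0⟩ ⟨0, 0, 0, 0, 0, 0, 643295, 0, 0, 0, 0, 0, 0⟩ ⟨400, 6, -2048, 15, 42, 378, 948677, 0, 0, 0, 0, 0, 0⟩))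
    (.leaf (.box ⟨374, 13, -2048, 31, 90, 376, 442982, 0, 0, 0, 0, 0, 0⟩ ⟨0, 0, 0, 0, 0, 0, 545702, 0, 0, 0, 0, 0, 0⟩ ⟨0, 0, 0, 0, 0, 0, 545702, 0, 0, 0, 0, 0, 0⟩ ⟨0, 0, 0, 0, 0, 0, 710439, 0, 0, 0, 0, 0, 0⟩ ⟨0, 0, 0, 0, 0, 0, 710439, 0, 0, 0, 0, 0, 0⟩ ⟨398, 6, -2048, 14, 39, 377, 1017649, 0, 0, 0, 0, 0, 0⟩)))
    (.s0
    (.s2
    (.s3
    (.leaf (.box ⟨262, 7, -2048, 17, 89, 364, 512467, 0, 0, 0, 0, 0, 0⟩ ⟨0, 0, 0, 0, 0, 0, 623374, 0, 0, 0, 0, 0, 0⟩ ⟨0, 0, 0, 0, 0, 0, 623374, 0, 0, 0, 0, 0, 0⟩ ⟨0, 0, 0, 0, 0, 0, 795542, 0, 0, 0, 0, 0, 0⟩ ⟨0, 0, 0, 0, 0, 0, 795542, 0, 0, 0, 0, 0, 0⟩ ⟨297, 3, -2228, 6, 42, 394, 1099100, 0, 0, 0, 0, 0, 0⟩))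
    (.s3
    (.leaf (.box ⟨279, 5, -2048, 11, 71, 365, 615256, 0, 0, 0, 0, 0, 0⟩ ⟨0, 0, 0, 0, 0, 0, 734896, 0, 0, 0, 0, 0, 0⟩ ⟨0, 0, 0, 0, 0, 0, 734896, 0, 0, 0, 0, 0, 0⟩ ⟨0, 0, 0, 0, 0, 0, 912295, 0, 0, 0, 0, 0, 0⟩ ⟨0, 0, 0, 0, 0, 0, 912295, 0, 0, 0, 0, 0, 0⟩ ⟨338, 3, -2483, 6, 43, 440, 1202594, 0, 0, 0, 0, 0, 0⟩))
    (.leaf (.box ⟨278, 6, -2048, 13, 68, 365, 681565, 0, 0, 0, 0, 0, 0⟩ ⟨0, 0, 0, 0, 0, 0, 804305, 0, 0, 0, 0, 0, 0⟩ ⟨0, 0, 0, 0, 0, 0, 804305, 0, 0, 0, 0, 0, 0⟩ ⟨0, 0, 0, 0, 0, 0, 980962, 0, 0, 0, 0, 0, 0⟩ ⟨0, 0, 0, 0, 0, 0, 980962, 0, 0, 0, 0, 0, 0⟩ ⟨337, 3, -2446, 6, 41, 433, 1257060, 0, 0, 0, 0, 0, 0⟩))))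
    (.leaf (.box ⟨271, 5, -2048, 14, 67, 358, 547413, 0, 0, 0, 0, 0, 0⟩ ⟨0, 0, 0, 0, 0, 0, 666759, 0, 0, 0, 0, 0, 0⟩ ⟨0, 0, 0, 0, 0, 0, 666759, 0, 0, 0, 0, 0, 0⟩ ⟨0, 0, 0, 0, 0, 0, 852651, 0, 0, 0, 0, 0, 0⟩ ⟨0, 0, 0, 0, 0, 0, 852651, 0, 0, 0, 0, 0, 0⟩ ⟨269, 2, -2048, 6, 31, 355, 1182265, 0, 0, 0, 0, 0, 0⟩)))
    (.leaf (.box ⟨254, 10, -2048, 22, 64, 392, 625991, 0, 0, 0, 0, 0, 0⟩ ⟨0, 0, 0, 0, 0, 0, 761583, 0, 0, 0, 0, 0, 0⟩ ⟨0, 0, 0, 0, 0, 0, 761583, 0, 0, 0, 0, 0, 0⟩ ⟨0, 0, 0, 0, 0, 0, 972153, 0, 0, 0, 0, 0, 0⟩ ⟨0, 0, 0, 0, 0, 0, 972153, 0, 0, 0, 0, 0, 0⟩ ⟨253, 5, -2048, 10, 29, 388, 1343664, 0, 0, 0, 0, 0, 0⟩)))))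
    (.s3
    (.leaf (.box ⟨684, 23, -2048, 76, 64, 375, 445580, 0, 0, 0, 0, 0, 0⟩ ⟨0, 0, 0, 0, 0, 0, 555170, 0, 0, 0, 0, 0, 0⟩ ⟨0, 0, 0, 0, 0, 0, 555170, 0, 0, 0, 0, 0, 0⟩ ⟨0, 0, 0, 0, 0, 0, 736247, 0, 0, 0, 0, 0, 0⟩ ⟨0, 0, 0, 0, 0, 0, 736247, 0, 0, 0, 0, 0, 0⟩ ⟨662, 10, -2048, 31, 25, 369, 1092624, 0, 0, 0, 0, 0, 0⟩))
    (.leaf (.box ⟨620, 20, -2048, 62, 48, 359, 590698, 0, 0, 0, 0, 0, 0⟩ ⟨0, 0, 0, 0, 0, 0, 719611, 0, 0, 0, 0, 0, 0⟩ ⟨0, 0, 0, 0, 0, 0, 719611, 0, 0, 0, 0, 0, 0⟩ ⟨0, 0, 0, 0, 0, 0, 920499, 0, 0, 0, 0, 0, 0⟩ ⟨0, 0, 0, 0, 0, 0, 920499, 0, 0, 0, 0, 0, 0⟩ ⟨673, 9, -2048, 28, 21, 364, 1276982, 0, 0, 0, 0, 0, 0⟩)))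

/-- A piece of the tree. -/
noncomputable def tree127 : Tree LeafX :=
  .s1
    (.leaf (.skip 0 8))
    (.s0
    (.s2
    (.leaf (.box ⟨569, 69, -2048, 116, 45, 424, 583677, 0, 0, 0, 0, 0, 0⟩ ⟨0, 0, 0, 0, 0, 0, 726506, 0, 0, 0, 0, 0, 0⟩ ⟨0, 0, 0, 0, 0, 0, 726506, 0, 0, 0, 0, 0, 0⟩ ⟨0, 0, 0, 0, 0, 0, 961884, 0, 0, 0, 0, 0, 0⟩ ⟨0, 0, 0, 0, 0, 0, 961884, 0, 0, 0, 0, 0, 0⟩ ⟨540, 28, -2048, 44, 17, 416, 1422876, 0, 0, 0, 0, 0, 0⟩))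
    (.leaf (.box ⟨942, 65, -2048, 154, 3, 494, 698959, 0, 0, 0, 0, 0, 0⟩ ⟨0, 0, 0, 0, 0, 0, 870626, 0, 0, 0, 0, 0, 0⟩ ⟨0, 0, 0, 0, 0, 0, 870626, 0, 0, 0, 0, 0, 0⟩ ⟨0, 0, 0, 0, 0, 0, 1154070, 0, 0, 0, 0, 0, 0⟩ ⟨0, 0, 0, 0, 0, 0, 1154070, 0, 0, 0, 0, 0, 0⟩ ⟨897, 26, -2048, 60, 1, 487, 1711161, 0, 0, 0, 0, 0, 0⟩)))
    (.leaf (.skip 0 8)))

/-- A piece of the tree. -/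
noncomputable def tree128 : Tree LeafX :=
  .s1
    (.leaf (.skip 0 8))
    (.s2
    (.s0
    (.leaf (.box ⟨713, 15, -2048, 64, 46, 223, 334255, 0, 0, 0, 0, 0, 0⟩ ⟨0, 0, 0, 0, 0, 0, 416882, 0, 0, 0, 0, 0, 0⟩ ⟨0, 0, 0, 0, 0, 0, 416882, 0, 0, 0, 0, 0, 0⟩ ⟨0, 0, 0, 0, 0, 0, 553773, 0, 0, 0, 0, 0, 0⟩ ⟨0, 0, 0, 0, 0, 0, 553773, 0, 0, 0, 0, 0, 0⟩ ⟨700, 6, -2048, 27, 19, 232, 824517, 0, 0, 0, 0, 0, 0⟩))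
    (.leaf (.box ⟨1944, 74, -2048, 180, 0, 382, 516534, 0, 0, 0, 0, 0, 0⟩ ⟨0, 0, 0, 0, 0, 0, 643794, 0, 0, 0, 0, 0, 0⟩ ⟨0, 0, 0, 0, 0, 0, 643794, 0, 0, 0, 0, 0, 0⟩ ⟨0, 0, 0, 0, 0, 0, 854260, 0, 0, 0, 0, 0, 0⟩ ⟨0, 0, 0, 0, 0, 0, 854260, 0, 0, 0, 0, 0, 0⟩ ⟨1901, 30, -2048, 70, -1, 373, 1269171, 0, 0, 0, 0, 0, 0⟩)))
    (.s0
    (.s2
    (.leaf (.box ⟨823, 1, -2048, 80, 14, 244, 377211, 0, 0, 0, 0, 0, 0⟩ ⟨0, 0, 0, 0, 0, 0, 470693, 0, 0, 0, 0, 0, 0⟩ ⟨0, 0, 0, 0, 0, 0, 470693, 0, 0, 0, 0, 0, 0⟩ ⟨0, 0, 0, 0, 0, 0, 625774, 0, 0, 0, 0, 0, 0⟩ ⟨0, 0, 0, 0, 0, 0, 625774, 0, 0, 0, 0, 0, 0⟩ ⟨790, 0, -2048, 31, 5, 240, 933259, 0, 0, 0, 0, 0, 0⟩))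
    (.leaf (.box ⟨937, -15, -2048, 118, -14, 257, 401900, 0, 0, 0, 0, 148410780743, 0⟩ ⟨0, 0, 0, 0, 0, 0, 501832, 0, 0, 0, 0, 0, 0⟩ ⟨0, 0, 0, 0, 0, 0, 501832, 0, 0, 0, 0, 0, 0⟩ ⟨0, 0, 0, 0, 0, 0, 667903, 0, 0, 0, 0, 0, 0⟩ ⟨0, 0, 0, 0, 0, 0, 667903, 0, 0, 0, 0, 0, 0⟩ ⟨886, -6, -2048, 47, -5, 252, 998258, 0, 0, 0, 0, 131070389134, 0⟩)))
    (.s2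
    (.leaf (.box ⟨2048, 13, -570, 86, -39, 171, 580294, 0, 0, 0, 0, 0, 0⟩ ⟨0, 0, 0, 0, 0, 0, 723898, 0, 0, 0, 0, 0, 0⟩ ⟨0, 0, 0, 0, 0, 0, 723898, 0, 0, 0, 0, 0, 0⟩ ⟨0, 0, 0, 0, 0, 0, 961948, 0, 0, 0, 0, 0, 0⟩ ⟨0, 0, 0, 0, 0, 0, 961948, 0, 0, 0, 0, 0, 0⟩ ⟨2048, 6, -594, 36, -14, 167, 1433273, 0, 0, 0, 0, 0, 15101822147⟩))
    (.leaf (.skip 8 0)))))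

/-- A piece of the tree. -/
noncomputable def tree129 : Tree LeafX :=
  .s0
    (.s1
    (.s0
    (.s1
    (.leaf (.box ⟨317, 2, -2048, 19, 54, 239, 324012, 0, 0, 0, 0, 0, 0⟩ ⟨0, 0, 0, 0, 0, 0, 404196, 0, 0, 0, 0, 0, 0⟩ ⟨0, 0, 0, 0, 0, 0, 404196, 0, 0, 0, 0, 0, 0⟩ ⟨0, 0, 0, 0, 0, 0, 537115, 0, 0, 0, 0, 0, 0⟩ ⟨0, 0, 0, 0, 0, 0, 537115, 0, 0, 0, 0, 0, 0⟩ ⟨312, 1, -2048, 8, 22, 238, 800291, 0, 0, 0, 0, 0, 0⟩))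
    (.s2
    (.leaf (.box ⟨257, 1, -2048, 15, 63, 254, 318297, 0, 0, 0, 0, 0, 0⟩ ⟨271, 1, -2048, 10, 47, 256, 400600, 0, 0, 0, 0, 0, 0⟩ ⟨271, 1, -2048, 10, 47, 256, 400600, 0, 0, 0, 0, 0, 0⟩ ⟨268, 0, -2048, 8, 35, 256, 535105, 0, 0, 0, 0, 0, 0⟩ ⟨268, 0, -2048, 8, 35, 256, 535105, 0, 0, 0, 0, 0, 0⟩ ⟨295, 0, -2155, 6, 25, 269, 787150, 0, 0, 0, 0, 0, 0⟩))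
    (.leaf (.box ⟨302, 0, -2048, 11, 48, 263, 337615, 0, 0, 0, 0, 0, 0⟩ ⟨0, 0, 0, 0, 0, 0, 421345, 0, 0, 0, 0, 0, 0⟩ ⟨0, 0, 0, 0, 0, 0, 421345, 0, 0, 0, 0, 0, 0⟩ ⟨0, 0, 0, 0, 0, 0, 560300, 0, 0, 0, 0, 0, 0⟩ ⟨0, 0, 0, 0, 0, 0, 560300, 0, 0, 0, 0, 0, 0⟩ ⟨398, 0, -2705, 6, 26, 347, 836008, 0, 0, 0, 0, 0, 0⟩))))
    (.leaf (.box ⟨471, 4, -2048, 36, 46, 295, 403679, 0, 0, 0, 0, 0, 0⟩ ⟨0, 0, 0, 0, 0, 0, 503561, 0, 0, 0, 0, 0, 0⟩ ⟨0, 0, 0, 0, 0, 0, 503561, 0, 0, 0, 0, 0, 0⟩ ⟨0, 0, 0, 0, 0, 0, 669118, 0, 0, 0, 0, 0, 0⟩ ⟨0, 0, 0, 0, 0, 0, 669118, 0, 0, 0, 0, 0, 0⟩ ⟨459, 2, -2048, 15, 18, 292, 996860, 0, 0, 0, 0, 0, 0⟩)))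
    (.s0
    (.s1
    (.s0
    (.s2
    (.leaf (.box ⟨205, 0, -2048, 10, 58, 269, 316429, 0, 0, 0, 0, 0, 0⟩ ⟨0, 0, 0, 0, 0, 0, 394967, 0, 0, 0, 0, 0, 0⟩ ⟨0, 0, 0, 0, 0, 0, 394967, 0, 0, 0, 0, 0, 0⟩ ⟨0, 0, 0, 0, 0, 0, 525360, 0, 0, 0, 0, 0, 0⟩ ⟨0, 0, 0, 0, 0, 0, 525360, 0, 0, 0, 0, 0, 0⟩ ⟨268, 0, -2814, 6, 32, 371, 784281, 0, 0, 0, 0, 0, 0⟩))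
    (.leaf (.box ⟨215, 0, -2048, 8, 49, 276, 336279, 0, 0, 0, 0, 0, 0⟩ ⟨0, 0, 0, 0, 0, 0, 419780, 0, 0, 0, 0, 0, 0⟩ ⟨0, 0, 0, 0, 0, 0, 419780, 0, 0, 0, 0, 0, 0⟩ ⟨0, 0, 0, 0, 0, 0, 558445, 0, 0, 0, 0, 0, 0⟩ ⟨0, 0, 0, 0, 0, 0, 558445, 0, 0, 0, 0, 0, 0⟩ ⟨413, 0, -3934, 6, 38, 532, 833910, 0, 0, 0, 0, 0, 0⟩)))
    (.s2
    (.leaf (.box ⟨188, 0, -2048, 8, 57, 286, 357972, 0, 0, 0, 0, 0, 0⟩ ⟨0, 0, 0, 0, 0, 0, 446645, 0, 0, 0, 0, 0, 0⟩ ⟨0, 0, 0, 0, 0, 0, 446645, 0, 0, 0, 0, 0, 0⟩ ⟨0, 0, 0, 0, 0, 0, 593711, 0, 0, 0, 0, 0, 0⟩ ⟨0, 0, 0, 0, 0, 0, 593711, 0, 0, 0, 0, 0, 0⟩ ⟨331, 0, -3635, 6, 41, 509, 885169, 0, 0, 0, 0, 0, 0⟩))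
    (.leaf (.box ⟨212, 0, -2048, 8, 47, 295, 382962, 0, 0, 0, 0, 0, 0⟩ ⟨0, 0, 0, 0, 0, 0, 477935, 0, 0, 0, 0, 0, 0⟩ ⟨0, 0, 0, 0, 0, 0, 477935, 0, 0, 0, 0, 0, 0⟩ ⟨0, 0, 0, 0, 0, 0, 635546, 0, 0, 0, 0, 0, 0⟩ ⟨0, 0, 0, 0, 0, 0, 635546, 0, 0, 0, 0, 0, 0⟩ ⟨388, 0, -3960, 6, 37, 571, 948260, 0, 0, 0, 0, 0, 0⟩))))
    (.s0
    (.leaf (.box ⟨239, -1, -2048, 12, 59, 297, 316544, 0, 0, 0, 0, 0, 0⟩ ⟨0, 0, 0, 0, 0, 0, 395174, 0, 0, 0, 0, 0, 0⟩ ⟨0, 0, 0, 0, 0, 0, 395174, 0, 0, 0, 0, 0, 0⟩ ⟨0, 0, 0, 0, 0, 0, 525775, 0, 0, 0, 0, 0, 0⟩ ⟨0, 0, 0, 0, 0, 0, 525775, 0, 0, 0, 0, 0, 0⟩ ⟨257, -1, -2359, 6, 28, 344, 785316, 0, 0, 0, 0, 0, 0⟩))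
    (.s2
    (.s3
    (.leaf (.box ⟨188, 0, -2048, 7, 59, 308, 358756, 0, 0, 0, 0, 0, 0⟩ ⟨0, 0, 0, 0, 0, 0, 447773, 0, 0, 0, 0, 0, 0⟩ ⟨0, 0, 0, 0, 0, 0, 447773, 0, 0, 0, 0, 0, 0⟩ ⟨0, 0, 0, 0, 0, 0, 595542, 0, 0, 0, 0, 0, 0⟩ ⟨0, 0, 0, 0, 0, 0, 595542, 0, 0, 0, 0, 0, 0⟩ ⟨411, 0, -4627, 6, 54, 700, 888881, 0, 0, 0, 0, 0, 0⟩))
    (.leaf (.box ⟨217, 0, -2357, 6, 52, 358, 483535, 0, 0, 0, 0, 0, 0⟩ ⟨0, 0, 0, 0, 0, 0, 589650, 0, 0, 0, 0, 0, 0⟩ ⟨0, 0, 0, 0, 0, 0, 589650, 0, 0, 0, 0, 0, 0⟩ ⟨0, 0, 0, 0, 0, 0, 755434, 0, 0, 0, 0, 0, 0⟩ ⟨0, 0, 0, 0, 0, 0, 755434, 0, 0, 0, 0, 0, 0⟩ ⟨468, 0, -5314, 6, 54, 810, 1050903, 0, 0, 0, 0, 0, 0⟩)))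
    (.s3
    (.leaf (.box ⟨199, -1, -2048, 8, 52, 317, 384870, 0, 0, 0, 0, 0, 0⟩ ⟨0, 0, 0, 0, 0, 0, 480502, 0, 0, 0, 0, 0, 0⟩ ⟨0, 0, 0, 0, 0, 0, 480502, 0, 0, 0, 0, 0, 0⟩ ⟨0, 0, 0, 0, 0, 0, 639371, 0, 0, 0, 0, 0, 0⟩ ⟨0, 0, 0, 0, 0, 0, 639371, 0, 0, 0, 0, 0, 0⟩ ⟨376, 0, -3891, 6, 40, 606, 955186, 0, 0, 0, 0, 0, 0⟩))
    (.leaf (.box ⟨220, 0, -2228, 6, 43, 348, 519695, 0, 0, 0, 0, 0, 0⟩ ⟨0, 0, 0, 0, 0, 0, 633876, 0, 0, 0, 0, 0, 0⟩ ⟨0, 0, 0, 0, 0, 0, 633876, 0, 0, 0, 0, 0, 0⟩ ⟨0, 0, 0, 0, 0, 0, 812358, 0, 0, 0, 0, 0, 0⟩ ⟨0, 0, 0, 0, 0, 0, 812358, 0, 0, 0, 0, 0, 0⟩ ⟨436, 0, -4579, 6, 41, 716, 1130741, 0, 0, 0, 0, 0, 0⟩))))))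
    (.s1
    (.leaf (.box ⟨360, 0, -2048, 24, 50, 321, 403610, 0, 0, 0, 0, 0, 0⟩ ⟨0, 0, 0, 0, 0, 0, 503513, 0, 0, 0, 0, 0, 0⟩ ⟨0, 0, 0, 0, 0, 0, 503513, 0, 0, 0, 0, 0, 0⟩ ⟨0, 0, 0, 0, 0, 0, 669139, 0, 0, 0, 0, 0, 0⟩ ⟨0, 0, 0, 0, 0, 0, 669139, 0, 0, 0, 0, 0, 0⟩ ⟨341, 0, -2048, 10, 20, 326, 997140, 0, 0, 0, 0, 0, 0⟩))
    (.s0
    (.s2
    (.leaf (.box ⟨173, 0, -2048, 7, 56, 327, 406989, 0, 0, 0, 0, 0, 0⟩ ⟨0, 0, 0, 0, 0, 0, 507846, 0, 0, 0, 0, 0, 0⟩ ⟨0, 0, 0, 0, 0, 0, 507846, 0, 0, 0, 0, 0, 0⟩ ⟨0, 0, 0, 0, 0, 0, 675158, 0, 0, 0, 0, 0, 0⟩ ⟨0, 0, 0, 0, 0, 0, 675158, 0, 0, 0, 0, 0, 0⟩ ⟨377, 0, -4253, 6, 48, 685, 1006877, 0, 0, 0, 0, 0, 0⟩))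
    (.leaf (.box ⟨193, -1, -2048, 11, 49, 340, 438821, 0, 0, 0, 0, 0, 0⟩ ⟨0, 0, 0, 0, 0, 0, 547775, 0, 0, 0, 0, 0, 0⟩ ⟨0, 0, 0, 0, 0, 0, 547775, 0, 0, 0, 0, 0, 0⟩ ⟨0, 0, 0, 0, 0, 0, 728701, 0, 0, 0, 0, 0, 0⟩ ⟨0, 0, 0, 0, 0, 0, 728701, 0, 0, 0, 0, 0, 0⟩ ⟨288, 0, -3044, 6, 29, 506, 1088090, 0, 0, 0, 0, 0, 0⟩)))
    (.leaf (.box ⟨230, -1, -2048, 18, 50, 360, 459922, 0, 0, 0, 0, 0, 0⟩ ⟨0, 0, 0, 0, 0, 0, 573842, 0, 0, 0, 0, 0, 0⟩ ⟨0, 0, 0, 0, 0, 0, 573842, 0, 0, 0, 0, 0, 0⟩ ⟨0, 0, 0, 0, 0, 0, 762775, 0, 0, 0, 0, 0, 0⟩ ⟨0, 0, 0, 0, 0, 0, 762775, 0, 0, 0, 0, 0, 0⟩ ⟨229, 0, -2048, 7, 20, 360, 1137186, 0, 0, 0, 0, 0, 0⟩))))))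
    (.s0
    (.leaf (.box ⟨667, 7, -2048, 71, 32, 370, 505916, 0, 0, 0, 0, 0, 0⟩ ⟨0, 0, 0, 0, 0, 0, 630894, 0, 0, 0, 0, 0, 0⟩ ⟨0, 0, 0, 0, 0, 0, 630894, 0, 0, 0, 0, 0, 0⟩ ⟨0, 0, 0, 0, 0, 0, 837876, 0, 0, 0, 0, 0, 0⟩ ⟨0, 0, 0, 0, 0, 0, 837876, 0, 0, 0, 0, 0, 0⟩ ⟨738, 3, -2048, 30, 13, 378, 1246983, 0, 0, 0, 0, 0, 0⟩))
    (.leaf (.box ⟨1434, 18, -2048, 118, 4, 457, 631347, 0, 0, 0, 0, 0, 0⟩ ⟨0, 0, 0, 0, 0, 0, 786844, 0, 0, 0, 0, 0, 0⟩ ⟨0, 0, 0, 0, 0, 0, 786844, 0, 0, 0, 0, 0, 0⟩ ⟨0, 0, 0, 0, 0, 0, 1043965, 0, 0, 0, 0, 0, 0⟩ ⟨0, 0, 0, 0, 0, 0, 1043965, 0, 0, 0, 0, 0, 0⟩ ⟨1323, 7, -2048, 48, 1, 466, 1550694, 0, 0, 0, 0, 0, 0⟩)))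

/-- A piece of the tree. -/
noncomputable def tree130 : Tree LeafX :=
  .s0
    (.s2
    (.s0
    (.s1
    (.leaf (.box ⟨436, -1, -2048, 20, 34, 258, 360000, 0, 0, 0, 0, 0, 0⟩ ⟨0, 0, 0, 0, 0, 0, 449390, 0, 0, 0, 0, 0, 0⟩ ⟨0, 0, 0, 0, 0, 0, 449390, 0, 0, 0, 0, 0, 0⟩ ⟨0, 0, 0, 0, 0, 0, 597835, 0, 0, 0, 0, 0, 0⟩ ⟨0, 0, 0, 0, 0, 0, 597835, 0, 0, 0, 0, 0, 0⟩ ⟨469, 0, -2048, 9, 14, 261, 892723, 0, 0, 0, 0, 0, 0⟩))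
    (.s1
    (.leaf (.box ⟨275, -1, -2048, 13, 42, 292, 359500, 0, 0, 0, 0, 0, 0⟩ ⟨0, 0, 0, 0, 0, 0, 448803, 0, 0, 0, 0, 0, 0⟩ ⟨0, 0, 0, 0, 0, 0, 448803, 0, 0, 0, 0, 0, 0⟩ ⟨0, 0, 0, 0, 0, 0, 597135, 0, 0, 0, 0, 0, 0⟩ ⟨0, 0, 0, 0, 0, 0, 597135, 0, 0, 0, 0, 0, 0⟩ ⟨387, 0, -2703, 6, 22, 392, 891919, 0, 0, 0, 0, 0, 0⟩))
    (.leaf (.box ⟨284, -1, -2048, 10, 50, 320, 361625, 0, 0, 0, 0, 0, 0⟩ ⟨0, 0, 0, 0, 0, 0, 451552, 0, 0, 0, 0, 0, 0⟩ ⟨0, 0, 0, 0, 0, 0, 451552, 0, 0, 0, 0, 0, 0⟩ ⟨0, 0, 0, 0, 0, 0, 601005, 0, 0, 0, 0, 0, 0⟩ ⟨0, 0, 0, 0, 0, 0, 601005, 0, 0, 0, 0, 0, 0⟩ ⟨344, 0, -2601, 6, 26, 407, 898332, 0, 0, 0, 0, 0, 0⟩))))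
    (.leaf (.box ⟨624, -2, -2048, 59, 36, 325, 462297, 0, 0, 0, 0, 0, 0⟩ ⟨0, 0, 0, 0, 0, 0, 576909, 0, 0, 0, 0, 0, 0⟩ ⟨0, 0, 0, 0, 0, 0, 576909, 0, 0, 0, 0, 0, 0⟩ ⟨0, 0, 0, 0, 0, 0, 767083, 0, 0, 0, 0, 0, 0⟩ ⟨0, 0, 0, 0, 0, 0, 767083, 0, 0, 0, 0, 0, 0⟩ ⟨660, -1, -2048, 21, 11, 328, 1144290, 0, 0, 0, 0, 0, 0⟩)))
    (.leaf (.box ⟨1029, -7, -2048, 110, 23, 331, 382510, 0, 0, 0, 0, 106113503773, 0⟩ ⟨0, 0, 0, 0, 0, 0, 477532, 0, 0, 0, 0, 0, 0⟩ ⟨0, 0, 0, 0, 0, 0, 477532, 0, 0, 0, 0, 0, 0⟩ ⟨0, 0, 0, 0, 0, 0, 635367, 0, 0, 0, 0, 0, 0⟩ ⟨0, 0, 0, 0, 0, 0, 635367, 0, 0, 0, 0, 0, 0⟩ ⟨1008, -3, -2048, 43, 9, 328, 949048, 0, 0, 0, 0, 76285027083, 0⟩)))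
    (.s2
    (.s1
    (.leaf (.box ⟨2048, 6, -1253, 125, -36, 355, 579815, 0, 0, 0, 0, 26774981013, 0⟩ ⟨0, 0, 0, 0, 0, 0, 723339, 0, 0, 0, 0, 0, 0⟩ ⟨0, 0, 0, 0, 0, 0, 723339, 0, 0, 0, 0, 0, 0⟩ ⟨0, 0, 0, 0, 0, 0, 961290, 0, 0, 0, 0, 0, 0⟩ ⟨0, 0, 0, 0, 0, 0, 961290, 0, 0, 0, 0, 0, 0⟩ ⟨2048, 3, -1351, 53, -15, 368, 1432540, 0, 0, 0, 0, 0, 0⟩))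
    (.leaf (.box ⟨1677, -4, -2048, 139, -9, 545, 595043, 0, 0, 0, 0, 33944205256, 0⟩ ⟨0, 0, 0, 0, 0, 0, 742495, 0, 0, 0, 0, 0, 0⟩ ⟨0, 0, 0, 0, 0, 0, 742495, 0, 0, 0, 0, 0, 0⟩ ⟨0, 0, 0, 0, 0, 0, 987098, 0, 0, 0, 0, 0, 0⟩ ⟨0, 0, 0, 0, 0, 0, 987098, 0, 0, 0, 0, 0, 0⟩ ⟨1539, -2, -2048, 55, -4, 533, 1472037, 0, 0, 0, 0, 0, 0⟩)))
    (.leaf (.skip 8 0)))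

/-- A piece of the tree. -/
noncomputable def tree131 : Tree LeafX :=
  .s1
    (.leaf (.skip 0 8))
    (.s0
    (.s2
    (.s2
    (.leaf (.box ⟨2048, 67, -1838, 226, -53, 662, 771954, 0, 0, 0, 0, 0, 0⟩ ⟨0, 0, 0, 0, 0, 0, 961370, 0, 0, 0, 0, 0, 0⟩ ⟨0, 0, 0, 0, 0, 0, 961370, 0, 0, 0, 0, 0, 0⟩ ⟨0, 0, 0, 0, 0, 0, 1273964, 0, 0, 0, 0, 0, 0⟩ ⟨0, 0, 0, 0, 0, 0, 1273964, 0, 0, 0, 0, 0, 0⟩ ⟨2048, 27, -1823, 90, -21, 630, 1887788, 0, 0, 0, 0, 0, 0⟩))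
    (.s2
    (.leaf (.box ⟨2048, 39, -746, 169, -59, 425, 790130, 0, 0, 0, 0, 0, 0⟩ ⟨0, 0, 0, 0, 0, 0, 984600, 0, 0, 0, 0, 0, 0⟩ ⟨0, 0, 0, 0, 0, 0, 984600, 0, 0, 0, 0, 0, 0⟩ ⟨0, 0, 0, 0, 0, 0, 1306051, 0, 0, 0, 0, 0, 0⟩ ⟨0, 0, 0, 0, 0, 0, 1306051, 0, 0, 0, 0, 0, 0⟩ ⟨2048, 16, -759, 67, -24, 418, 1939135, 0, 0, 0, 1045284823, 0, 0⟩))
    (.leaf (.box ⟨2048, 23, -195, 124, -42, 225, 799993, 0, 0, 0, 0, 39662019556, 0⟩ ⟨0, 0, 0, 0, 0, 0, 997186, 0, 0, 0, 0, 0, 0⟩ ⟨0, 0, 0, 0, 0, 0, 997186, 0, 0, 0, 0, 0, 0⟩ ⟨0, 0, 0, 0, 0, 0, 1323394, 0, 0, 0, 0, 0, 0⟩ ⟨0, 0, 0, 0, 0, 0, 1323394, 0, 0, 0, 0, 0, 0⟩ ⟨2048, 9, -206, 50, -17, 220, 1966783, 0, 0, 0, 36130482, 38379777868, 0⟩))))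
    (.s2
    (.s0
    (.leaf (.box ⟨2048, 5, -90, 67, -34, 166, 810372, 0, 0, 0, 0, 271776411070, 0⟩ ⟨0, 0, 0, 0, 0, 0, 1010419, 0, 0, 0, 0, 0, 0⟩ ⟨0, 0, 0, 0, 0, 0, 1010419, 0, 0, 0, 0, 0, 0⟩ ⟨0, 0, 0, 0, 0, 0, 1341602, 0, 0, 0, 0, 0, 0⟩ ⟨0, 0, 0, 0, 0, 0, 1341602, 0, 0, 0, 0, 0, 0⟩ ⟨2048, 2, -111, 27, -14, 164, 1995746, 0, 0, 0, 0, 270274324161, 0⟩))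
    (.leaf (.skip 5 3)))
    (.leaf (.skip 8 0))))
    (.leaf (.skip 0 8)))

/-- A piece of the tree. -/
noncomputable def tree132 : Tree LeafX :=
  .s3
    (.s2
    (.s0
    (.leaf (.box ⟨252, 1, -2048, 16, 119, 345, 264425, 0, 0, 0, 0, 0, 0⟩ ⟨0, 0, 0, 0, 0, 0, 329725, 0, 0, 0, 0, 0, 0⟩ ⟨0, 0, 0, 0, 0, 0, 329725, 0, 0, 0, 0, 0, 0⟩ ⟨0, 0, 0, 0, 0, 0, 437853, 0, 0, 0, 0, 0, 0⟩ ⟨0, 0, 0, 0, 0, 0, 437853, 0, 0, 0, 0, 0, 0⟩ ⟨263, 0, -2048, 8, 49, 352, 651502, 0, 0, 0, 0, 0, 0⟩))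
    (.s3
    (.leaf (.box ⟨220, 1, -2048, 15, 119, 346, 275667, 0, 0, 0, 0, 0, 0⟩ ⟨0, 0, 0, 0, 0, 0, 343664, 0, 0, 0, 0, 0, 0⟩ ⟨0, 0, 0, 0, 0, 0, 343664, 0, 0, 0, 0, 0, 0⟩ ⟨0, 0, 0, 0, 0, 0, 456188, 0, 0, 0, 0, 0, 0⟩ ⟨0, 0, 0, 0, 0, 0, 456188, 0, 0, 0, 0, 0, 0⟩ ⟨238, 1, -2048, 7, 50, 354, 678269, 0, 0, 0, 0, 0, 0⟩))
    (.leaf (.box ⟨227, 1, -2048, 15, 113, 349, 294109, 0, 0, 0, 0, 0, 0⟩ ⟨0, 0, 0, 0, 0, 0, 364976, 0, 0, 0, 0, 0, 0⟩ ⟨0, 0, 0, 0, 0, 0, 364976, 0, 0, 0, 0, 0, 0⟩ ⟨0, 0, 0, 0, 0, 0, 480836, 0, 0, 0, 0, 0, 0⟩ ⟨0, 0, 0, 0, 0, 0, 480836, 0, 0, 0, 0, 0, 0⟩ ⟨238, 1, -2048, 6, 48, 356, 704463, 0, 0, 0, 0, 0, 0⟩))))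
    (.s3
    (.leaf (.box ⟨202, -1, -2048, 17, 103, 319, 273828, 0, 0, 0, 0, 0, 0⟩ ⟨0, 0, 0, 0, 0, 0, 341649, 0, 0, 0, 0, 0, 0⟩ ⟨0, 0, 0, 0, 0, 0, 341649, 0, 0, 0, 0, 0, 0⟩ ⟨0, 0, 0, 0, 0, 0, 454126, 0, 0, 0, 0, 0, 0⟩ ⟨0, 0, 0, 0, 0, 0, 454126, 0, 0, 0, 0, 0, 0⟩ ⟨215, 0, -2198, 6, 43, 352, 677008, 0, 0, 0, 0, 0, 0⟩))
    (.leaf (.box ⟨199, -1, -2048, 13, 92, 323, 292585, 0, 0, 0, 0, 0, 0⟩ ⟨0, 0, 0, 0, 0, 0, 363350, 0, 0, 0, 0, 0, 0⟩ ⟨0, 0, 0, 0, 0, 0, 363350, 0, 0, 0, 0, 0, 0⟩ ⟨0, 0, 0, 0, 0, 0, 479264, 0, 0, 0, 0, 0, 0⟩ ⟨0, 0, 0, 0, 0, 0, 479264, 0, 0, 0, 0, 0, 0⟩ ⟨243, 0, -2463, 6, 47, 396, 703782, 0, 0, 0, 0, 0, 0⟩))))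
    (.s2
    (.s2
    (.leaf (.box ⟨322, 2, -2048, 13, 110, 342, 302594, 0, 0, 0, 0, 0, 0⟩ ⟨0, 0, 0, 0, 0, 0, 373609, 0, 0, 0, 0, 0, 0⟩ ⟨0, 0, 0, 0, 0, 0, 373609, 0, 0, 0, 0, 0, 0⟩ ⟨0, 0, 0, 0, 0, 0, 488177, 0, 0, 0, 0, 0, 0⟩ ⟨0, 0, 0, 0, 0, 0, 488177, 0, 0, 0, 0, 0, 0⟩ ⟨236, 1, -2113, 6, 53, 380, 704088, 0, 0, 0, 0, 0, 0⟩))
    (.s3
    (.leaf (.box ⟨196, 0, -2048, 11, 101, 342, 308189, 0, 0, 0, 0, 0, 0⟩ ⟨0, 0, 0, 0, 0, 0, 380607, 0, 0, 0, 0, 0, 0⟩ ⟨0, 0, 0, 0, 0, 0, 380607, 0, 0, 0, 0, 0, 0⟩ ⟨0, 0, 0, 0, 0, 0, 497509, 0, 0, 0, 0, 0, 0⟩ ⟨0, 0, 0, 0, 0, 0, 497509, 0, 0, 0, 0, 0, 0⟩ ⟨257, 0, -2535, 6, 55, 432, 718060, 0, 0, 0, 0, 0, 0⟩))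
    (.leaf (.box ⟨205, 0, -2048, 11, 95, 345, 332442, 0, 0, 0, 0, 0, 0⟩ ⟨0, 0, 0, 0, 0, 0, 408066, 0, 0, 0, 0, 0, 0⟩ ⟨0, 0, 0, 0, 0, 0, 408066, 0, 0, 0, 0, 0, 0⟩ ⟨0, 0, 0, 0, 0, 0, 528225, 0, 0, 0, 0, 0, 0⟩ ⟨0, 0, 0, 0, 0, 0, 528225, 0, 0, 0, 0, 0, 0⟩ ⟨265, 0, -2697, 6, 57, 463, 748683, 0, 0, 0, 0, 0, 0⟩))))
    (.s3
    (.leaf (.box ⟨204, -1, -2048, 12, 87, 326, 314105, 0, 0, 0, 0, 0, 0⟩ ⟨0, 0, 0, 0, 0, 0, 388000, 0, 0, 0, 0, 0, 0⟩ ⟨0, 0, 0, 0, 0, 0, 388000, 0, 0, 0, 0, 0, 0⟩ ⟨0, 0, 0, 0, 0, 0, 507358, 0, 0, 0, 0, 0, 0⟩ ⟨0, 0, 0, 0, 0, 0, 507358, 0, 0, 0, 0, 0, 0⟩ ⟨248, 0, -2530, 6, 47, 409, 732776, 0, 0, 0, 0, 0, 0⟩))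
    (.leaf (.box ⟨204, -1, -2048, 11, 82, 328, 338979, 0, 0, 0, 0, 0, 0⟩ ⟨0, 0, 0, 0, 0, 0, 416176, 0, 0, 0, 0, 0, 0⟩ ⟨0, 0, 0, 0, 0, 0, 416176, 0, 0, 0, 0, 0, 0⟩ ⟨0, 0, 0, 0, 0, 0, 538903, 0, 0, 0, 0, 0, 0⟩ ⟨0, 0, 0, 0, 0, 0, 538903, 0, 0, 0, 0, 0, 0⟩ ⟨250, 0, -2505, 6, 45, 407, 764281, 0, 0, 0, 0, 0, 0⟩))))

/-- A piece of the tree. -/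
noncomputable def tree133 : Tree LeafX :=
  .s3
    (.s3
    (.s2
    (.s0
    (.s2
    (.leaf (.box ⟨173, 2, -2048, 10, 126, 358, 287565, 0, 0, 0, 0, 0, 0⟩ ⟨0, 0, 0, 0, 0, 0, 358430, 0, 0, 0, 0, 0, 0⟩ ⟨0, 0, 0, 0, 0, 0, 358430, 0, 0, 0, 0, 0, 0⟩ ⟨0, 0, 0, 0, 0, 0, 475644, 0, 0, 0, 0, 0, 0⟩ ⟨0, 0, 0, 0, 0, 0, 475644, 0, 0, 0, 0, 0, 0⟩ ⟨244, 1, -2757, 6, 71, 492, 706770, 0, 0, 0, 0, 0, 0⟩))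
    (.leaf (.box ⟨160, 1, -2048, 9, 111, 345, 293938, 0, 0, 0, 0, 0, 0⟩ ⟨0, 0, 0, 0, 0, 0, 366517, 0, 0, 0, 0, 0, 0⟩ ⟨0, 0, 0, 0, 0, 0, 366517, 0, 0, 0, 0, 0, 0⟩ ⟨0, 0, 0, 0, 0, 0, 486689, 0, 0, 0, 0, 0, 0⟩ ⟨0, 0, 0, 0, 0, 0, 486689, 0, 0, 0, 0, 0, 0⟩ ⟨233, 0, -2829, 6, 64, 485, 724104, 0, 0, 0, 0, 0, 0⟩)))
    (.leaf (.box ⟨197, 2, -2048, 15, 120, 357, 300630, 0, 0, 0, 0, 0, 0⟩ ⟨0, 0, 0, 0, 0, 0, 374638, 0, 0, 0, 0, 0, 0⟩ ⟨0, 0, 0, 0, 0, 0, 374638, 0, 0, 0, 0, 0, 0⟩ ⟨0, 0, 0, 0, 0, 0, 496981, 0, 0, 0, 0, 0, 0⟩ ⟨0, 0, 0, 0, 0, 0, 496981, 0, 0, 0, 0, 0, 0⟩ ⟨205, 1, -2048, 6, 50, 363, 737980, 0, 0, 0, 0, 0, 0⟩)))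
    (.s2
    (.leaf (.box ⟨168, 0, -2048, 10, 102, 338, 301152, 0, 0, 0, 0, 0, 0⟩ ⟨0, 0, 0, 0, 0, 0, 375623, 0, 0, 0, 0, 0, 0⟩ ⟨0, 0, 0, 0, 0, 0, 375623, 0, 0, 0, 0, 0, 0⟩ ⟨0, 0, 0, 0, 0, 0, 499024, 0, 0, 0, 0, 0, 0⟩ ⟨0, 0, 0, 0, 0, 0, 499024, 0, 0, 0, 0, 0, 0⟩ ⟨251, 0, -3007, 6, 62, 504, 743174, 0, 0, 0, 0, 0, 0⟩))
    (.leaf (.box ⟨158, 0, -2048, 8, 92, 331, 309170, 0, 0, 0, 0, 0, 0⟩ ⟨0, 0, 0, 0, 0, 0, 385707, 0, 0, 0, 0, 0, 0⟩ ⟨0, 0, 0, 0, 0, 0, 385707, 0, 0, 0, 0, 0, 0⟩ ⟨0, 0, 0, 0, 0, 0, 512604, 0, 0, 0, 0, 0, 0⟩ ⟨0, 0, 0, 0, 0, 0, 512604, 0, 0, 0, 0, 0, 0⟩ ⟨299, 0, -3882, 6, 72, 636, 763938, 0, 0, 0, 0, 0, 0⟩))))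
    (.s2
    (.s0
    (.leaf (.box ⟨210, 2, -2048, 17, 111, 355, 306725, 0, 0, 0, 0, 0, 0⟩ ⟨0, 0, 0, 0, 0, 0, 380555, 0, 0, 0, 0, 0, 0⟩ ⟨0, 0, 0, 0, 0, 0, 380555, 0, 0, 0, 0, 0, 0⟩ ⟨0, 0, 0, 0, 0, 0, 501195, 0, 0, 0, 0, 0, 0⟩ ⟨0, 0, 0, 0, 0, 0, 501195, 0, 0, 0, 0, 0, 0⟩ ⟨232, 1, -2048, 7, 49, 360, 733824, 0, 0, 0, 0, 0, 0⟩))
    (.leaf (.box ⟨200, 2, -2048, 14, 114, 360, 320504, 0, 0, 0, 0, 0, 0⟩ ⟨0, 0, 0, 0, 0, 0, 397577, 0, 0, 0, 0, 0, 0⟩ ⟨0, 0, 0, 0, 0, 0, 397577, 0, 0, 0, 0, 0, 0⟩ ⟨0, 0, 0, 0, 0, 0, 523453, 0, 0, 0, 0, 0, 0⟩ ⟨0, 0, 0, 0, 0, 0, 523453, 0, 0, 0, 0, 0, 0⟩ ⟨209, 1, -2048, 6, 49, 365, 765964, 0, 0, 0, 0, 0, 0⟩)))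
    (.s2
    (.leaf (.box ⟨169, 0, -2048, 9, 97, 340, 321641, 0, 0, 0, 0, 0, 0⟩ ⟨0, 0, 0, 0, 0, 0, 399312, 0, 0, 0, 0, 0, 0⟩ ⟨0, 0, 0, 0, 0, 0, 399312, 0, 0, 0, 0, 0, 0⟩ ⟨0, 0, 0, 0, 0, 0, 526439, 0, 0, 0, 0, 0, 0⟩ ⟨0, 0, 0, 0, 0, 0, 526439, 0, 0, 0, 0, 0, 0⟩ ⟨254, 0, -3053, 6, 61, 514, 772314, 0, 0, 0, 0, 0, 0⟩))
    (.leaf (.box ⟨161, 0, -2048, 8, 87, 333, 330304, 0, 0, 0, 0, 0, 0⟩ ⟨0, 0, 0, 0, 0, 0, 410157, 0, 0, 0, 0, 0, 0⟩ ⟨0, 0, 0, 0, 0, 0, 410157, 0, 0, 0, 0, 0, 0⟩ ⟨0, 0, 0, 0, 0, 0, 540930, 0, 0, 0, 0, 0, 0⟩ ⟨0, 0, 0, 0, 0, 0, 540930, 0, 0, 0, 0, 0, 0⟩ ⟨300, 0, -3828, 6, 69, 630, 794126, 0, 0, 0, 0, 0, 0⟩)))))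
    (.s2
    (.s1
    (.s3
    (.s2
    (.leaf (.box ⟨139, 2, -2048, 10, 114, 358, 329034, 0, 0, 0, 0, 0, 0⟩ ⟨0, 0, 0, 0, 0, 0, 406065, 0, 0, 0, 0, 0, 0⟩ ⟨0, 0, 0, 0, 0, 0, 406065, 0, 0, 0, 0, 0, 0⟩ ⟨0, 0, 0, 0, 0, 0, 530189, 0, 0, 0, 0, 0, 0⟩ ⟨0, 0, 0, 0, 0, 0, 530189, 0, 0, 0, 0, 0, 0⟩ ⟨177, 1, -2594, 6, 63, 460, 763602, 0, 0, 0, 0, 0, 0⟩))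
    (.leaf (.box ⟨132, 1, -2048, 9, 101, 345, 336610, 0, 0, 0, 0, 0, 0⟩ ⟨0, 0, 0, 0, 0, 0, 415571, 0, 0, 0, 0, 0, 0⟩ ⟨0, 0, 0, 0, 0, 0, 415571, 0, 0, 0, 0, 0, 0⟩ ⟨0, 0, 0, 0, 0, 0, 542928, 0, 0, 0, 0, 0, 0⟩ ⟨0, 0, 0, 0, 0, 0, 542928, 0, 0, 0, 0, 0, 0⟩ ⟨207, 1, -3261, 6, 70, 556, 782839, 0, 0, 0, 0, 0, 0⟩)))
    (.s2
    (.leaf (.box ⟨141, 2, -2048, 10, 107, 361, 354387, 0, 0, 0, 0, 0, 0⟩ ⟨0, 0, 0, 0, 0, 0, 434732, 0, 0, 0, 0, 0, 0⟩ ⟨0, 0, 0, 0, 0, 0, 434732, 0, 0, 0, 0, 0, 0⟩ ⟨0, 0, 0, 0, 0, 0, 562187, 0, 0, 0, 0, 0, 0⟩ ⟨0, 0, 0, 0, 0, 0, 562187, 0, 0, 0, 0, 0, 0⟩ ⟨183, 1, -2700, 6, 64, 482, 795376, 0, 0, 0, 0, 0, 0⟩))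
    (.leaf (.box ⟨131, 1, -2048, 8, 94, 347, 362863, 0, 0, 0, 0, 0, 0⟩ ⟨0, 0, 0, 0, 0, 0, 445263, 0, 0, 0, 0, 0, 0⟩ ⟨0, 0, 0, 0, 0, 0, 445263, 0, 0, 0, 0, 0, 0⟩ ⟨0, 0, 0, 0, 0, 0, 576081, 0, 0, 0, 0, 0, 0⟩ ⟨0, 0, 0, 0, 0, 0, 576081, 0, 0, 0, 0, 0, 0⟩ ⟨214, 1, -3374, 6, 70, 579, 815746, 0, 0, 0, 0, 0, 0⟩))))
    (.s3
    (.leaf (.box ⟨179, 1, -2048, 15, 112, 369, 328788, 0, 0, 0, 0, 0, 0⟩ ⟨0, 0, 0, 0, 0, 0, 405807, 0, 0, 0, 0, 0, 0⟩ ⟨0, 0, 0, 0, 0, 0, 405807, 0, 0, 0, 0, 0, 0⟩ ⟨0, 0, 0, 0, 0, 0, 529948, 0, 0, 0, 0, 0, 0⟩ ⟨0, 0, 0, 0, 0, 0, 529948, 0, 0, 0, 0, 0, 0⟩ ⟨177, 1, -2048, 7, 49, 375, 763515, 0, 0, 0, 0, 0, 0⟩))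
    (.leaf (.box ⟨179, 1, -2048, 14, 105, 372, 354224, 0, 0, 0, 0, 0, 0⟩ ⟨0, 0, 0, 0, 0, 0, 434567, 0, 0, 0, 0, 0, 0⟩ ⟨0, 0, 0, 0, 0, 0, 434567, 0, 0, 0, 0, 0, 0⟩ ⟨0, 0, 0, 0, 0, 0, 562047, 0, 0, 0, 0, 0, 0⟩ ⟨0, 0, 0, 0, 0, 0, 562047, 0, 0, 0, 0, 0, 0⟩ ⟨186, 1, -2048, 7, 48, 378, 795365, 0, 0, 0, 0, 0, 0⟩))))
    (.s3
    (.leaf (.box ⟨191, 0, -2048, 12, 90, 338, 345042, 0, 0, 0, 0, 0, 0⟩ ⟨0, 0, 0, 0, 0, 0, 426102, 0, 0, 0, 0, 0, 0⟩ ⟨0, 0, 0, 0, 0, 0, 426102, 0, 0, 0, 0, 0, 0⟩ ⟨0, 0, 0, 0, 0, 0, 556943, 0, 0, 0, 0, 0, 0⟩ ⟨0, 0, 0, 0, 0, 0, 556943, 0, 0, 0, 0, 0, 0⟩ ⟨236, 0, -2519, 6, 47, 421, 803743, 0, 0, 0, 0, 0, 0⟩))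
    (.leaf (.box ⟨187, 0, -2048, 11, 82, 340, 372163, 0, 0, 0, 0, 0, 0⟩ ⟨0, 0, 0, 0, 0, 0, 456793, 0, 0, 0, 0, 0, 0⟩ ⟨0, 0, 0, 0, 0, 0, 456793, 0, 0, 0, 0, 0, 0⟩ ⟨0, 0, 0, 0, 0, 0, 591240, 0, 0, 0, 0, 0, 0⟩ ⟨0, 0, 0, 0, 0, 0, 591240, 0, 0, 0, 0, 0, 0⟩ ⟨238, 0, -2563, 6, 46, 431, 837840, 0, 0, 0, 0, 0, 0⟩))))

/-- A piece of the tree. -/
noncomputable def tree134 : Tree LeafX :=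
  .s0
    (.s2
    (.s2
    (.leaf (.box ⟨293, 0, -2048, 18, 142, 403, 264625, 0, 0, 0, 0, 0, 0⟩ ⟨0, 0, 0, 0, 0, 0, 330103, 0, 0, 0, 0, 0, 0⟩ ⟨0, 0, 0, 0, 0, 0, 330103, 0, 0, 0, 0, 0, 0⟩ ⟨0, 0, 0, 0, 0, 0, 438638, 0, 0, 0, 0, 0, 0⟩ ⟨0, 0, 0, 0, 0, 0, 438638, 0, 0, 0, 0, 0, 0⟩ ⟨297, 0, -2048, 8, 59, 416, 653504, 0, 0, 0, 0, 0, 0⟩))
    (.leaf (.box ⟨286, -1, -2048, 13, 120, 368, 270013, 0, 0, 0, 0, 0, 0⟩ ⟨0, 0, 0, 0, 0, 0, 336967, 0, 0, 0, 0, 0, 0⟩ ⟨0, 0, 0, 0, 0, 0, 336967, 0, 0, 0, 0, 0, 0⟩ ⟨0, 0, 0, 0, 0, 0, 448072, 0, 0, 0, 0, 0, 0⟩ ⟨0, 0, 0, 0, 0, 0, 448072, 0, 0, 0, 0, 0, 0⟩ ⟨239, -1, -2048, 7, 51, 391, 668485, 0, 0, 0, 0, 0, 0⟩)))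
    (.s2
    (.leaf (.box ⟨252, -2, -2048, 11, 107, 353, 275637, 0, 0, 0, 0, 0, 0⟩ ⟨0, 0, 0, 0, 0, 0, 344154, 0, 0, 0, 0, 0, 0⟩ ⟨0, 0, 0, 0, 0, 0, 344154, 0, 0, 0, 0, 0, 0⟩ ⟨0, 0, 0, 0, 0, 0, 458003, 0, 0, 0, 0, 0, 0⟩ ⟨0, 0, 0, 0, 0, 0, 458003, 0, 0, 0, 0, 0, 0⟩ ⟨257, -1, -2517, 6, 56, 458, 684410, 0, 0, 0, 0, 0, 0⟩))
    (.leaf (.box ⟨194, -2, -2048, 9, 100, 352, 282299, 0, 0, 0, 0, 0, 0⟩ ⟨0, 0, 0, 0, 0, 0, 352616, 0, 0, 0, 0, 0, 0⟩ ⟨0, 0, 0, 0, 0, 0, 352616, 0, 0, 0, 0, 0, 0⟩ ⟨0, 0, 0, 0, 0, 0, 469580, 0, 0, 0, 0, 0, 0⟩ ⟨0, 0, 0, 0, 0, 0, 469580, 0, 0, 0, 0, 0, 0⟩ ⟨308, -1, -3282, 6, 65, 576, 702655, 0, 0, 0, 0, 0, 0⟩))))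
    (.s3
    (.s2
    (.s2
    (.leaf (.box ⟨211, 1, -2048, 15, 140, 402, 287253, 0, 0, 0, 0, 0, 0⟩ ⟨0, 0, 0, 0, 0, 0, 358152, 0, 0, 0, 0, 0, 0⟩ ⟨0, 0, 0, 0, 0, 0, 358152, 0, 0, 0, 0, 0, 0⟩ ⟨0, 0, 0, 0, 0, 0, 475516, 0, 0, 0, 0, 0, 0⟩ ⟨0, 0, 0, 0, 0, 0, 475516, 0, 0, 0, 0, 0, 0⟩ ⟨221, 0, -2048, 8, 58, 413, 707290, 0, 0, 0, 0, 0, 0⟩))
    (.leaf (.box ⟨236, 0, -2048, 11, 119, 373, 294429, 0, 0, 0, 0, 0, 0⟩ ⟨0, 0, 0, 0, 0, 0, 367297, 0, 0, 0, 0, 0, 0⟩ ⟨0, 0, 0, 0, 0, 0, 367297, 0, 0, 0, 0, 0, 0⟩ ⟨0, 0, 0, 0, 0, 0, 488094, 0, 0, 0, 0, 0, 0⟩ ⟨0, 0, 0, 0, 0, 0, 488094, 0, 0, 0, 0, 0, 0⟩ ⟨228, 0, -2414, 6, 60, 463, 727282, 0, 0, 0, 0, 0, 0⟩)))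
    (.s3
    (.leaf (.box ⟨192, -1, -2048, 12, 104, 364, 302587, 0, 0, 0, 0, 0, 0⟩ ⟨0, 0, 0, 0, 0, 0, 377662, 0, 0, 0, 0, 0, 0⟩ ⟨0, 0, 0, 0, 0, 0, 377662, 0, 0, 0, 0, 0, 0⟩ ⟨0, 0, 0, 0, 0, 0, 502283, 0, 0, 0, 0, 0, 0⟩ ⟨0, 0, 0, 0, 0, 0, 502283, 0, 0, 0, 0, 0, 0⟩ ⟨232, -1, -2523, 6, 53, 457, 749652, 0, 0, 0, 0, 0, 0⟩))
    (.leaf (.box ⟨190, -1, -2048, 12, 98, 367, 323474, 0, 0, 0, 0, 0, 0⟩ ⟨0, 0, 0, 0, 0, 0, 401855, 0, 0, 0, 0, 0, 0⟩ ⟨0, 0, 0, 0, 0, 0, 401855, 0, 0, 0, 0, 0, 0⟩ ⟨0, 0, 0, 0, 0, 0, 530367, 0, 0, 0, 0, 0, 0⟩ ⟨0, 0, 0, 0, 0, 0, 530367, 0, 0, 0, 0, 0, 0⟩ ⟨216, -1, -2332, 6, 47, 425, 779719, 0, 0, 0, 0, 0, 0⟩))))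
    (.s2
    (.s2
    (.leaf (.box ⟨230, 1, -2048, 15, 126, 412, 328494, 0, 0, 0, 0, 0, 0⟩ ⟨221, 1, -2048, 12, 102, 415, 409191, 0, 0, 0, 0, 0, 0⟩ ⟨221, 1, -2048, 12, 102, 415, 409191, 0, 0, 0, 0, 0, 0⟩ ⟨230, 1, -2048, 10, 79, 418, 535956, 0, 0, 0, 0, 0, 0⟩ ⟨230, 1, -2048, 10, 79, 418, 535956, 0, 0, 0, 0, 0, 0⟩ ⟨229, 0, -2048, 7, 56, 421, 764080, 0, 0, 0, 0, 0, 0⟩))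
    (.leaf (.box ⟨198, 0, -2048, 11, 109, 391, 337459, 0, 0, 0, 0, 0, 0⟩ ⟨0, 0, 0, 0, 0, 0, 416829, 0, 0, 0, 0, 0, 0⟩ ⟨0, 0, 0, 0, 0, 0, 416829, 0, 0, 0, 0, 0, 0⟩ ⟨0, 0, 0, 0, 0, 0, 545014, 0, 0, 0, 0, 0, 0⟩ ⟨0, 0, 0, 0, 0, 0, 545014, 0, 0, 0, 0, 0, 0⟩ ⟨251, 0, -2599, 6, 61, 506, 787051, 0, 0, 0, 0, 0, 0⟩)))
    (.s2
    (.leaf (.box ⟨220, -1, -2048, 9, 94, 366, 347439, 0, 0, 0, 0, 0, 0⟩ ⟨0, 0, 0, 0, 0, 0, 429338, 0, 0, 0, 0, 0, 0⟩ ⟨0, 0, 0, 0, 0, 0, 429338, 0, 0, 0, 0, 0, 0⟩ ⟨0, 0, 0, 0, 0, 0, 561755, 0, 0, 0, 0, 0, 0⟩ ⟨0, 0, 0, 0, 0, 0, 561755, 0, 0, 0, 0, 0, 0⟩ ⟨243, -1, -2650, 6, 54, 495, 812280, 0, 0, 0, 0, 0, 0⟩))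
    (.leaf (.box ⟨170, -1, -2048, 7, 87, 366, 358458, 0, 0, 0, 0, 0, 0⟩ ⟨0, 0, 0, 0, 0, 0, 443131, 0, 0, 0, 0, 0, 0⟩ ⟨0, 0, 0, 0, 0, 0, 443131, 0, 0, 0, 0, 0, 0⟩ ⟨0, 0, 0, 0, 0, 0, 580177, 0, 0, 0, 0, 0, 0⟩ ⟨0, 0, 0, 0, 0, 0, 580177, 0, 0, 0, 0, 0, 0⟩ ⟨321, -1, -4006, 6, 74, 725, 839943, 0, 0, 0, 0, 0, 0⟩)))))

/-- A piece of the tree. -/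
noncomputable def tree135 : Tree LeafX :=
  .s0
    (.s2
    (.s3
    (.leaf (.box ⟨258, 1, -2048, 14, 96, 357, 354353, 0, 0, 0, 0, 0, 0⟩ ⟨0, 0, 0, 0, 0, 0, 431786, 0, 0, 0, 0, 0, 0⟩ ⟨0, 0, 0, 0, 0, 0, 431786, 0, 0, 0, 0, 0, 0⟩ ⟨0, 0, 0, 0, 0, 0, 552523, 0, 0, 0, 0, 0, 0⟩ ⟨0, 0, 0, 0, 0, 0, 552523, 0, 0, 0, 0, 0, 0⟩ ⟨271, 1, -2048, 7, 45, 364, 766990, 0, 0, 0, 0, 0, 0⟩))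
    (.leaf (.box ⟨270, 1, -2048, 14, 89, 361, 387284, 0, 0, 0, 0, 0, 0⟩ ⟨0, 0, 0, 0, 0, 0, 467994, 0, 0, 0, 0, 0, 0⟩ ⟨0, 0, 0, 0, 0, 0, 467994, 0, 0, 0, 0, 0, 0⟩ ⟨0, 0, 0, 0, 0, 0, 591198, 0, 0, 0, 0, 0, 0⟩ ⟨0, 0, 0, 0, 0, 0, 591198, 0, 0, 0, 0, 0, 0⟩ ⟨282, 1, -2048, 7, 44, 367, 802452, 0, 0, 0, 0, 0, 0⟩)))
    (.leaf (.box ⟨237, -1, -2048, 11, 75, 327, 367977, 0, 0, 0, 0, 0, 0⟩ ⟨0, 0, 0, 0, 0, 0, 448592, 0, 0, 0, 0, 0, 0⟩ ⟨0, 0, 0, 0, 0, 0, 448592, 0, 0, 0, 0, 0, 0⟩ ⟨0, 0, 0, 0, 0, 0, 574436, 0, 0, 0, 0, 0, 0⟩ ⟨0, 0, 0, 0, 0, 0, 574436, 0, 0, 0, 0, 0, 0⟩ ⟨280, 0, -2684, 6, 47, 440, 798417, 0, 0, 0, 0, 0, 0⟩)))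
    (.s1
    (.s3
    (.s2
    (.s2
    (.leaf (.box ⟨142, 2, -2048, 9, 100, 364, 384121, 0, 0, 0, 0, 0, 0⟩ ⟨0, 0, 0, 0, 0, 0, 467904, 0, 0, 0, 0, 0, 0⟩ ⟨0, 0, 0, 0, 0, 0, 467904, 0, 0, 0, 0, 0, 0⟩ ⟨0, 0, 0, 0, 0, 0, 598429, 0, 0, 0, 0, 0, 0⟩ ⟨0, 0, 0, 0, 0, 0, 598429, 0, 0, 0, 0, 0, 0⟩ ⟨207, 1, -3034, 6, 70, 546, 829951, 0, 0, 0, 0, 0, 0⟩))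
    (.leaf (.box ⟨140, 1, -2048, 8, 88, 350, 393600, 0, 0, 0, 0, 0, 0⟩ ⟨0, 0, 0, 0, 0, 0, 479576, 0, 0, 0, 0, 0, 0⟩ ⟨0, 0, 0, 0, 0, 0, 479576, 0, 0, 0, 0, 0, 0⟩ ⟨0, 0, 0, 0, 0, 0, 613608, 0, 0, 0, 0, 0, 0⟩ ⟨0, 0, 0, 0, 0, 0, 613608, 0, 0, 0, 0, 0, 0⟩ ⟨225, 1, -3401, 6, 68, 587, 851618, 0, 0, 0, 0, 0, 0⟩)))
    (.leaf (.box ⟨142, 0, -2048, 9, 75, 335, 403984, 0, 0, 0, 0, 0, 0⟩ ⟨0, 0, 0, 0, 0, 0, 492327, 0, 0, 0, 0, 0, 0⟩ ⟨0, 0, 0, 0, 0, 0, 492327, 0, 0, 0, 0, 0, 0⟩ ⟨0, 0, 0, 0, 0, 0, 630120, 0, 0, 0, 0, 0, 0⟩ ⟨0, 0, 0, 0, 0, 0, 630120, 0, 0, 0, 0, 0, 0⟩ ⟨200, 0, -2953, 6, 51, 487, 875021, 0, 0, 0, 0, 0, 0⟩)))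
    (.s2
    (.s2
    (.leaf (.box ⟨142, 2, -2048, 8, 93, 367, 419480, 0, 0, 0, 0, 0, 0⟩ ⟨0, 0, 0, 0, 0, 0, 506744, 0, 0, 0, 0, 0, 0⟩ ⟨0, 0, 0, 0, 0, 0, 506744, 0, 0, 0, 0, 0, 0⟩ ⟨0, 0, 0, 0, 0, 0, 639849, 0, 0, 0, 0, 0, 0⟩ ⟨0, 0, 0, 0, 0, 0, 639849, 0, 0, 0, 0, 0, 0⟩ ⟨203, 1, -2970, 6, 66, 538, 867791, 0, 0, 0, 0, 0, 0⟩))
    (.leaf (.box ⟨132, 1, -2048, 7, 82, 352, 430128, 0, 0, 0, 0, 0, 0⟩ ⟨0, 0, 0, 0, 0, 0, 519723, 0, 0, 0, 0, 0, 0⟩ ⟨0, 0, 0, 0, 0, 0, 519723, 0, 0, 0, 0, 0, 0⟩ ⟨0, 0, 0, 0, 0, 0, 656461, 0, 0, 0, 0, 0, 0⟩ ⟨0, 0, 0, 0, 0, 0, 656461, 0, 0, 0, 0, 0, 0⟩ ⟨234, 1, -3556, 6, 69, 617, 890839, 0, 0, 0, 0, 0, 0⟩)))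
    (.leaf (.box ⟨145, 0, -2048, 8, 70, 337, 441681, 0, 0, 0, 0, 0, 0⟩ ⟨0, 0, 0, 0, 0, 0, 533791, 0, 0, 0, 0, 0, 0⟩ ⟨0, 0, 0, 0, 0, 0, 533791, 0, 0, 0, 0, 0, 0⟩ ⟨0, 0, 0, 0, 0, 0, 674441, 0, 0, 0, 0, 0, 0⟩ ⟨0, 0, 0, 0, 0, 0, 674441, 0, 0, 0, 0, 0, 0⟩ ⟨218, 0, -3157, 6, 52, 523, 915727, 0, 0, 0, 0, 0, 0⟩))))
    (.s2
    (.s2
    (.leaf (.box ⟨209, 2, -2048, 10, 102, 376, 383207, 0, 0, 0, 0, 0, 0⟩ ⟨0, 0, 0, 0, 0, 0, 466866, 0, 0, 0, 0, 0, 0⟩ ⟨0, 0, 0, 0, 0, 0, 466866, 0, 0, 0, 0, 0, 0⟩ ⟨0, 0, 0, 0, 0, 0, 597253, 0, 0, 0, 0, 0, 0⟩ ⟨0, 0, 0, 0, 0, 0, 597253, 0, 0, 0, 0, 0, 0⟩ ⟨181, 1, -2434, 6, 59, 466, 828691, 0, 0, 0, 0, 0, 0⟩))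
    (.leaf (.box ⟨172, 1, -2048, 8, 90, 362, 393300, 0, 0, 0, 0, 0, 0⟩ ⟨0, 0, 0, 0, 0, 0, 479321, 0, 0, 0, 0, 0, 0⟩ ⟨0, 0, 0, 0, 0, 0, 479321, 0, 0, 0, 0, 0, 0⟩ ⟨0, 0, 0, 0, 0, 0, 613503, 0, 0, 0, 0, 0, 0⟩ ⟨0, 0, 0, 0, 0, 0, 613503, 0, 0, 0, 0, 0, 0⟩ ⟨211, 0, -3104, 6, 65, 566, 852019, 0, 0, 0, 0, 0, 0⟩)))
    (.s2
    (.leaf (.box ⟨133, 0, -2048, 7, 81, 356, 404792, 0, 0, 0, 0, 0, 0⟩ ⟨0, 0, 0, 0, 0, 0, 493473, 0, 0, 0, 0, 0, 0⟩ ⟨0, 0, 0, 0, 0, 0, 493473, 0, 0, 0, 0, 0, 0⟩ ⟨0, 0, 0, 0, 0, 0, 631909, 0, 0, 0, 0, 0, 0⟩ ⟨0, 0, 0, 0, 0, 0, 631909, 0, 0, 0, 0, 0, 0⟩ ⟨248, 0, -3960, 6, 73, 696, 878303, 0, 0, 0, 0, 0, 0⟩))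
    (.leaf (.box ⟨135, 0, -2280, 6, 81, 386, 417412, 0, 0, 0, 0, 0, 0⟩ ⟨0, 0, 0, 0, 0, 0, 509005, 0, 0, 0, 0, 0, 0⟩ ⟨0, 0, 0, 0, 0, 0, 509005, 0, 0, 0, 0, 0, 0⟩ ⟨0, 0, 0, 0, 0, 0, 652094, 0, 0, 0, 0, 0, 0⟩ ⟨0, 0, 0, 0, 0, 0, 652094, 0, 0, 0, 0, 0, 0⟩ ⟨288, 0, -4917, 6, 81, 841, 907091, 0, 0, 0, 0, 0, 0⟩)))))

/-- A piece of the tree. -/
noncomputable def tree136 : Tree LeafX :=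
  .s2
    (.s0
    (.s2
    (.leaf (.box ⟨255, 1, -2048, 11, 88, 378, 426405, 0, 0, 0, 0, 0, 0⟩ ⟨0, 0, 0, 0, 0, 0, 510168, 0, 0, 0, 0, 0, 0⟩ ⟨0, 0, 0, 0, 0, 0, 510168, 0, 0, 0, 0, 0, 0⟩ ⟨0, 0, 0, 0, 0, 0, 634885, 0, 0, 0, 0, 0, 0⟩ ⟨0, 0, 0, 0, 0, 0, 634885, 0, 0, 0, 0, 0, 0⟩ ⟨286, 1, -2261, 6, 50, 423, 840308, 0, 0, 0, 0, 0, 0⟩))
    (.leaf (.box ⟨226, 0, -2048, 10, 76, 358, 434979, 0, 0, 0, 0, 0, 0⟩ ⟨0, 0, 0, 0, 0, 0, 520501, 0, 0, 0, 0, 0, 0⟩ ⟨0, 0, 0, 0, 0, 0, 520501, 0, 0, 0, 0, 0, 0⟩ ⟨0, 0, 0, 0, 0, 0, 647883, 0, 0, 0, 0, 0, 0⟩ ⟨0, 0, 0, 0, 0, 0, 647883, 0, 0, 0, 0, 0, 0⟩ ⟨285, 0, -2661, 6, 51, 470, 857813, 0, 0, 0, 0, 0, 0⟩)))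
    (.s3
    (.s2
    (.leaf (.box ⟨208, 2, -2048, 10, 88, 381, 461954, 0, 0, 0, 0, 0, 0⟩ ⟨0, 0, 0, 0, 0, 0, 552525, 0, 0, 0, 0, 0, 0⟩ ⟨0, 0, 0, 0, 0, 0, 552525, 0, 0, 0, 0, 0, 0⟩ ⟨0, 0, 0, 0, 0, 0, 687271, 0, 0, 0, 0, 0, 0⟩ ⟨0, 0, 0, 0, 0, 0, 687271, 0, 0, 0, 0, 0, 0⟩ ⟨265, 1, -2616, 6, 58, 492, 908935, 0, 0, 0, 0, 0, 0⟩))
    (.leaf (.box ⟨191, 1, -2048, 8, 76, 364, 474110, 0, 0, 0, 0, 0, 0⟩ ⟨0, 0, 0, 0, 0, 0, 567185, 0, 0, 0, 0, 0, 0⟩ ⟨0, 0, 0, 0, 0, 0, 567185, 0, 0, 0, 0, 0, 0⟩ ⟨0, 0, 0, 0, 0, 0, 705730, 0, 0, 0, 0, 0, 0⟩ ⟨0, 0, 0, 0, 0, 0, 705730, 0, 0, 0, 0, 0, 0⟩ ⟨297, 1, -3079, 6, 59, 552, 933836, 0, 0, 0, 0, 0, 0⟩)))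
    (.s2
    (.leaf (.box ⟨218, 2, -2048, 9, 80, 385, 514323, 0, 0, 0, 0, 0, 0⟩ ⟨0, 0, 0, 0, 0, 0, 607683, 0, 0, 0, 0, 0, 0⟩ ⟨0, 0, 0, 0, 0, 0, 607683, 0, 0, 0, 0, 0, 0⟩ ⟨0, 0, 0, 0, 0, 0, 742453, 0, 0, 0, 0, 0, 0⟩ ⟨0, 0, 0, 0, 0, 0, 742453, 0, 0, 0, 0, 0, 0⟩ ⟨271, 1, -2660, 6, 57, 504, 954036, 0, 0, 0, 0, 0, 0⟩))
    (.leaf (.box ⟨194, 1, -2048, 7, 69, 367, 528460, 0, 0, 0, 0, 0, 0⟩ ⟨211, 1, -2120, 6, 61, 381, 624258, 0, 0, 0, 0, 0, 0⟩ ⟨211, 1, -2120, 6, 61, 381, 624258, 0, 0, 0, 0, 0, 0⟩ ⟨245, 1, -2560, 6, 60, 461, 767157, 0, 0, 0, 0, 0, 0⟩ ⟨245, 1, -2560, 6, 60, 461, 767157, 0, 0, 0, 0, 0, 0⟩ ⟨312, 1, -3283, 6, 60, 593, 981412, 0, 0, 0, 0, 0, 0⟩)))))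
    (.s0
    (.leaf (.box ⟨231, 0, -2048, 9, 65, 337, 444501, 0, 0, 0, 0, 0, 0⟩ ⟨0, 0, 0, 0, 0, 0, 531990, 0, 0, 0, 0, 0, 0⟩ ⟨0, 0, 0, 0, 0, 0, 531990, 0, 0, 0, 0, 0, 0⟩ ⟨0, 0, 0, 0, 0, 0, 662357, 0, 0, 0, 0, 0, 0⟩ ⟨0, 0, 0, 0, 0, 0, 662357, 0, 0, 0, 0, 0, 0⟩ ⟨288, 0, -2613, 6, 42, 434, 877358, 0, 0, 0, 0, 0, 0⟩))
    (.s3
    (.leaf (.box ⟨192, 0, -2048, 8, 65, 346, 487239, 0, 0, 0, 0, 0, 0⟩ ⟨0, 0, 0, 0, 0, 0, 582988, 0, 0, 0, 0, 0, 0⟩ ⟨0, 0, 0, 0, 0, 0, 582988, 0, 0, 0, 0, 0, 0⟩ ⟨0, 0, 0, 0, 0, 0, 725573, 0, 0, 0, 0, 0, 0⟩ ⟨0, 0, 0, 0, 0, 0, 725573, 0, 0, 0, 0, 0, 0⟩ ⟨274, 0, -2893, 6, 47, 493, 960482, 0, 0, 0, 0, 0, 0⟩))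
    (.leaf (.box ⟨200, 0, -2048, 8, 59, 349, 543250, 0, 0, 0, 0, 0, 0⟩ ⟨0, 0, 0, 0, 0, 0, 642081, 0, 0, 0, 0, 0, 0⟩ ⟨0, 0, 0, 0, 0, 0, 642081, 0, 0, 0, 0, 0, 0⟩ ⟨0, 0, 0, 0, 0, 0, 784867, 0, 0, 0, 0, 0, 0⟩ ⟨0, 0, 0, 0, 0, 0, 784867, 0, 0, 0, 0, 0, 0⟩ ⟨308, 0, -3195, 6, 50, 547, 1009320, 0, 0, 0, 0, 0, 0⟩))))

/-- A piece of the tree. -/
noncomputable def tree137 : Tree LeafX :=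
  .s0
    (.s2
    (.s2
    (.leaf (.box ⟨337, 0, -2048, 15, 114, 427, 355004, 0, 0, 0, 0, 0, 0⟩ ⟨0, 0, 0, 0, 0, 0, 432762, 0, 0, 0, 0, 0, 0⟩ ⟨0, 0, 0, 0, 0, 0, 432762, 0, 0, 0, 0, 0, 0⟩ ⟨0, 0, 0, 0, 0, 0, 554136, 0, 0, 0, 0, 0, 0⟩ ⟨0, 0, 0, 0, 0, 0, 554136, 0, 0, 0, 0, 0, 0⟩ ⟨337, 0, -2048, 7, 54, 437, 770130, 0, 0, 0, 0, 0, 0⟩))
    (.leaf (.box ⟨263, -1, -2048, 11, 98, 399, 363614, 0, 0, 0, 0, 0, 0⟩ ⟨0, 0, 0, 0, 0, 0, 443369, 0, 0, 0, 0, 0, 0⟩ ⟨0, 0, 0, 0, 0, 0, 443369, 0, 0, 0, 0, 0, 0⟩ ⟨0, 0, 0, 0, 0, 0, 567941, 0, 0, 0, 0, 0, 0⟩ ⟨0, 0, 0, 0, 0, 0, 567941, 0, 0, 0, 0, 0, 0⟩ ⟨274, -1, -2048, 6, 46, 406, 789865, 0, 0, 0, 0, 0, 0⟩)))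
    (.leaf (.box ⟨248, -2, -2048, 11, 82, 370, 372391, 0, 0, 0, 0, 0, 0⟩ ⟨0, 0, 0, 0, 0, 0, 454235, 0, 0, 0, 0, 0, 0⟩ ⟨0, 0, 0, 0, 0, 0, 454235, 0, 0, 0, 0, 0, 0⟩ ⟨0, 0, 0, 0, 0, 0, 582186, 0, 0, 0, 0, 0, 0⟩ ⟨0, 0, 0, 0, 0, 0, 582186, 0, 0, 0, 0, 0, 0⟩ ⟨276, -1, -2288, 6, 43, 420, 810490, 0, 0, 0, 0, 0, 0⟩)))
    (.s3
    (.s2
    (.s2
    (.leaf (.box ⟨233, 1, -2048, 12, 112, 422, 384084, 0, 0, 0, 0, 0, 0⟩ ⟨0, 0, 0, 0, 0, 0, 468041, 0, 0, 0, 0, 0, 0⟩ ⟨0, 0, 0, 0, 0, 0, 468041, 0, 0, 0, 0, 0, 0⟩ ⟨0, 0, 0, 0, 0, 0, 598968, 0, 0, 0, 0, 0, 0⟩ ⟨0, 0, 0, 0, 0, 0, 598968, 0, 0, 0, 0, 0, 0⟩ ⟨243, 0, -2048, 6, 53, 430, 831592, 0, 0, 0, 0, 0, 0⟩))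
    (.leaf (.box ⟨204, 0, -2048, 10, 96, 399, 395361, 0, 0, 0, 0, 0, 0⟩ ⟨0, 0, 0, 0, 0, 0, 481954, 0, 0, 0, 0, 0, 0⟩ ⟨0, 0, 0, 0, 0, 0, 481954, 0, 0, 0, 0, 0, 0⟩ ⟨0, 0, 0, 0, 0, 0, 617116, 0, 0, 0, 0, 0, 0⟩ ⟨0, 0, 0, 0, 0, 0, 617116, 0, 0, 0, 0, 0, 0⟩ ⟨253, 0, -2558, 6, 56, 506, 857636, 0, 0, 0, 0, 0, 0⟩)))
    (.leaf (.box ⟨239, -1, -2048, 9, 80, 369, 407794, 0, 0, 0, 0, 0, 0⟩ ⟨0, 0, 0, 0, 0, 0, 497282, 0, 0, 0, 0, 0, 0⟩ ⟨0, 0, 0, 0, 0, 0, 497282, 0, 0, 0, 0, 0, 0⟩ ⟨0, 0, 0, 0, 0, 0, 637087, 0, 0, 0, 0, 0, 0⟩ ⟨0, 0, 0, 0, 0, 0, 637087, 0, 0, 0, 0, 0, 0⟩ ⟨256, -1, -2550, 6, 47, 474, 886242, 0, 0, 0, 0, 0, 0⟩)))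
    (.s2
    (.s2
    (.leaf (.box ⟨255, 1, -2048, 11, 96, 433, 462843, 0, 0, 0, 0, 0, 0⟩ ⟨0, 0, 0, 0, 0, 0, 553786, 0, 0, 0, 0, 0, 0⟩ ⟨0, 0, 0, 0, 0, 0, 553786, 0, 0, 0, 0, 0, 0⟩ ⟨0, 0, 0, 0, 0, 0, 689205, 0, 0, 0, 0, 0, 0⟩ ⟨0, 0, 0, 0, 0, 0, 689205, 0, 0, 0, 0, 0, 0⟩ ⟨259, 0, -2048, 7, 49, 439, 912290, 0, 0, 0, 0, 0, 0⟩))
    (.leaf (.box ⟨210, 0, -2048, 9, 82, 407, 477455, 0, 0, 0, 0, 0, 0⟩ ⟨0, 0, 0, 0, 0, 0, 571413, 0, 0, 0, 0, 0, 0⟩ ⟨0, 0, 0, 0, 0, 0, 571413, 0, 0, 0, 0, 0, 0⟩ ⟨0, 0, 0, 0, 0, 0, 711409, 0, 0, 0, 0, 0, 0⟩ ⟨0, 0, 0, 0, 0, 0, 711409, 0, 0, 0, 0, 0, 0⟩ ⟨286, 0, -2818, 6, 58, 567, 942263, 0, 0, 0, 0, 0, 0⟩)))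
    (.leaf (.box ⟨210, -1, -2048, 8, 69, 382, 493366, 0, 0, 0, 0, 0, 0⟩ ⟨0, 0, 0, 0, 0, 0, 590608, 0, 0, 0, 0, 0, 0⟩ ⟨0, 0, 0, 0, 0, 0, 590608, 0, 0, 0, 0, 0, 0⟩ ⟨0, 0, 0, 0, 0, 0, 735593, 0, 0, 0, 0, 0, 0⟩ ⟨0, 0, 0, 0, 0, 0, 735593, 0, 0, 0, 0, 0, 0⟩ ⟨300, -1, -2898, 6, 50, 545, 974918, 0, 0, 0, 0, 0, 0⟩))))

/-- A piece of the tree. -/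
noncomputable def tree138 : Tree LeafX :=
  .s0
    (.s1
    (.s3
    (.s2
    (.leaf (.box ⟨200, 3, -2048, 16, 123, 367, 314804, 0, 0, 0, 0, 0, 0⟩ ⟨0, 0, 0, 0, 0, 0, 392215, 0, 0, 0, 0, 0, 0⟩ ⟨0, 0, 0, 0, 0, 0, 392215, 0, 0, 0, 0, 0, 0⟩ ⟨0, 0, 0, 0, 0, 0, 520110, 0, 0, 0, 0, 0, 0⟩ ⟨0, 0, 0, 0, 0, 0, 520110, 0, 0, 0, 0, 0, 0⟩ ⟨202, 1, -2048, 7, 51, 371, 771774, 0, 0, 0, 0, 0, 0⟩))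
    (.leaf (.box ⟨164, 1, -2048, 11, 97, 349, 333578, 0, 0, 0, 0, 0, 0⟩ ⟨0, 0, 0, 0, 0, 0, 415911, 0, 0, 0, 0, 0, 0⟩ ⟨0, 0, 0, 0, 0, 0, 415911, 0, 0, 0, 0, 0, 0⟩ ⟨0, 0, 0, 0, 0, 0, 552203, 0, 0, 0, 0, 0, 0⟩ ⟨0, 0, 0, 0, 0, 0, 552203, 0, 0, 0, 0, 0, 0⟩ ⟨209, 0, -2460, 6, 48, 424, 821359, 0, 0, 0, 0, 0, 0⟩)))
    (.s2
    (.leaf (.box ⟨201, 3, -2048, 16, 116, 369, 335545, 0, 0, 0, 0, 0, 0⟩ ⟨0, 0, 0, 0, 0, 0, 416145, 0, 0, 0, 0, 0, 0⟩ ⟨0, 0, 0, 0, 0, 0, 416145, 0, 0, 0, 0, 0, 0⟩ ⟨0, 0, 0, 0, 0, 0, 547706, 0, 0, 0, 0, 0, 0⟩ ⟨0, 0, 0, 0, 0, 0, 547706, 0, 0, 0, 0, 0, 0⟩ ⟨211, 1, -2048, 8, 49, 373, 800906, 0, 0, 0, 0, 0, 0⟩))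
    (.leaf (.box ⟨169, 1, -2048, 11, 92, 351, 355972, 0, 0, 0, 0, 0, 0⟩ ⟨0, 0, 0, 0, 0, 0, 441782, 0, 0, 0, 0, 0, 0⟩ ⟨0, 0, 0, 0, 0, 0, 441782, 0, 0, 0, 0, 0, 0⟩ ⟨0, 0, 0, 0, 0, 0, 582100, 0, 0, 0, 0, 0, 0⟩ ⟨0, 0, 0, 0, 0, 0, 582100, 0, 0, 0, 0, 0, 0⟩ ⟨195, 0, -2298, 6, 43, 397, 853043, 0, 0, 0, 0, 0, 0⟩))))
    (.s2
    (.s2
    (.leaf (.box ⟨198, 2, -2048, 15, 139, 411, 313959, 0, 0, 0, 0, 0, 0⟩ ⟨0, 0, 0, 0, 0, 0, 391262, 0, 0, 0, 0, 0, 0⟩ ⟨0, 0, 0, 0, 0, 0, 391262, 0, 0, 0, 0, 0, 0⟩ ⟨0, 0, 0, 0, 0, 0, 519065, 0, 0, 0, 0, 0, 0⟩ ⟨0, 0, 0, 0, 0, 0, 519065, 0, 0, 0, 0, 0, 0⟩ ⟨202, 1, -2048, 6, 58, 418, 770863, 0, 0, 0, 0, 0, 0⟩))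
    (.leaf (.box ⟨182, 0, -2048, 12, 121, 395, 323509, 0, 0, 0, 0, 0, 0⟩ ⟨0, 0, 0, 0, 0, 0, 403398, 0, 0, 0, 0, 0, 0⟩ ⟨0, 0, 0, 0, 0, 0, 403398, 0, 0, 0, 0, 0, 0⟩ ⟨0, 0, 0, 0, 0, 0, 535680, 0, 0, 0, 0, 0, 0⟩ ⟨0, 0, 0, 0, 0, 0, 535680, 0, 0, 0, 0, 0, 0⟩ ⟨211, 0, -2310, 6, 56, 452, 797048, 0, 0, 0, 0, 0, 0⟩)))
    (.s0
    (.leaf (.box ⟨167, -1, -2048, 10, 101, 375, 334475, 0, 0, 0, 0, 0, 0⟩ ⟨0, 0, 0, 0, 0, 0, 417286, 0, 0, 0, 0, 0, 0⟩ ⟨0, 0, 0, 0, 0, 0, 417286, 0, 0, 0, 0, 0, 0⟩ ⟨0, 0, 0, 0, 0, 0, 554596, 0, 0, 0, 0, 0, 0⟩ ⟨0, 0, 0, 0, 0, 0, 554596, 0, 0, 0, 0, 0, 0⟩ ⟨235, 0, -2785, 6, 56, 517, 826587, 0, 0, 0, 0, 0, 0⟩))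
    (.leaf (.box ⟨190, -1, -2048, 12, 101, 389, 352381, 0, 0, 0, 0, 0, 0⟩ ⟨0, 0, 0, 0, 0, 0, 439533, 0, 0, 0, 0, 0, 0⟩ ⟨0, 0, 0, 0, 0, 0, 439533, 0, 0, 0, 0, 0, 0⟩ ⟨0, 0, 0, 0, 0, 0, 583957, 0, 0, 0, 0, 0, 0⟩ ⟨0, 0, 0, 0, 0, 0, 583957, 0, 0, 0, 0, 0, 0⟩ ⟨256, 0, -3195, 6, 64, 603, 869744, 0, 0, 0, 0, 0, 0⟩)))))
    (.s1
    (.leaf (.box ⟨225, 4, -2048, 24, 111, 373, 345901, 0, 0, 0, 0, 0, 0⟩ ⟨0, 0, 0, 0, 0, 0, 430817, 0, 0, 0, 0, 0, 0⟩ ⟨0, 0, 0, 0, 0, 0, 430817, 0, 0, 0, 0, 0, 0⟩ ⟨0, 0, 0, 0, 0, 0, 570988, 0, 0, 0, 0, 0, 0⟩ ⟨0, 0, 0, 0, 0, 0, 570988, 0, 0, 0, 0, 0, 0⟩ ⟨225, 2, -2048, 10, 46, 375, 846363, 0, 0, 0, 0, 0, 0⟩))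
    (.s2
    (.leaf (.box ⟨202, 2, -2048, 19, 128, 414, 345539, 0, 0, 0, 0, 0, 0⟩ ⟨0, 0, 0, 0, 0, 0, 430442, 0, 0, 0, 0, 0, 0⟩ ⟨0, 0, 0, 0, 0, 0, 430442, 0, 0, 0, 0, 0, 0⟩ ⟨0, 0, 0, 0, 0, 0, 570660, 0, 0, 0, 0, 0, 0⟩ ⟨0, 0, 0, 0, 0, 0, 570660, 0, 0, 0, 0, 0, 0⟩ ⟨203, 1, -2048, 8, 53, 418, 846366, 0, 0, 0, 0, 0, 0⟩))
    (.leaf (.box ⟨161, 0, -2048, 11, 99, 393, 371783, 0, 0, 0, 0, 0, 0⟩ ⟨0, 0, 0, 0, 0, 0, 463629, 0, 0, 0, 0, 0, 0⟩ ⟨0, 0, 0, 0, 0, 0, 463629, 0, 0, 0, 0, 0, 0⟩ ⟨0, 0, 0, 0, 0, 0, 615743, 0, 0, 0, 0, 0, 0⟩ ⟨0, 0, 0, 0, 0, 0, 615743, 0, 0, 0, 0, 0, 0⟩ ⟨218, 0, -2649, 6, 53, 513, 916410, 0, 0, 0, 0, 0, 0⟩))))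

/-- A piece of the tree. -/
noncomputable def tree139 : Tree LeafX :=
  .s0
    (.s3
    (.s1
    (.s2
    (.leaf (.box ⟨203, 3, -2048, 15, 110, 371, 359275, 0, 0, 0, 0, 0, 0⟩ ⟨0, 0, 0, 0, 0, 0, 443260, 0, 0, 0, 0, 0, 0⟩ ⟨0, 0, 0, 0, 0, 0, 443260, 0, 0, 0, 0, 0, 0⟩ ⟨0, 0, 0, 0, 0, 0, 578487, 0, 0, 0, 0, 0, 0⟩ ⟨0, 0, 0, 0, 0, 0, 578487, 0, 0, 0, 0, 0, 0⟩ ⟨206, 1, -2048, 7, 48, 375, 832444, 0, 0, 0, 0, 0, 0⟩))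
    (.leaf (.box ⟨173, 1, -2048, 11, 86, 353, 381666, 0, 0, 0, 0, 0, 0⟩ ⟨0, 0, 0, 0, 0, 0, 471171, 0, 0, 0, 0, 0, 0⟩ ⟨0, 0, 0, 0, 0, 0, 471171, 0, 0, 0, 0, 0, 0⟩ ⟨0, 0, 0, 0, 0, 0, 615514, 0, 0, 0, 0, 0, 0⟩ ⟨0, 0, 0, 0, 0, 0, 615514, 0, 0, 0, 0, 0, 0⟩ ⟨207, 0, -2504, 6, 46, 434, 887356, 0, 0, 0, 0, 0, 0⟩)))
    (.s2
    (.s2
    (.leaf (.box ⟨194, 1, -2048, 13, 124, 416, 359343, 0, 0, 0, 0, 0, 0⟩ ⟨0, 0, 0, 0, 0, 0, 443412, 0, 0, 0, 0, 0, 0⟩ ⟨0, 0, 0, 0, 0, 0, 443412, 0, 0, 0, 0, 0, 0⟩ ⟨0, 0, 0, 0, 0, 0, 578830, 0, 0, 0, 0, 0, 0⟩ ⟨0, 0, 0, 0, 0, 0, 578830, 0, 0, 0, 0, 0, 0⟩ ⟨196, 1, -2130, 6, 57, 440, 833328, 0, 0, 0, 0, 0, 0⟩))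
    (.leaf (.box ⟨180, 0, -2048, 11, 107, 399, 370664, 0, 0, 0, 0, 0, 0⟩ ⟨0, 0, 0, 0, 0, 0, 457642, 0, 0, 0, 0, 0, 0⟩ ⟨0, 0, 0, 0, 0, 0, 457642, 0, 0, 0, 0, 0, 0⟩ ⟨0, 0, 0, 0, 0, 0, 597954, 0, 0, 0, 0, 0, 0⟩ ⟨0, 0, 0, 0, 0, 0, 597954, 0, 0, 0, 0, 0, 0⟩ ⟨243, 0, -2734, 6, 63, 541, 862348, 0, 0, 0, 0, 0, 0⟩)))
    (.leaf (.box ⟨218, -1, -2048, 11, 93, 389, 383617, 0, 0, 0, 0, 0, 0⟩ ⟨0, 0, 0, 0, 0, 0, 473865, 0, 0, 0, 0, 0, 0⟩ ⟨0, 0, 0, 0, 0, 0, 473865, 0, 0, 0, 0, 0, 0⟩ ⟨0, 0, 0, 0, 0, 0, 619636, 0, 0, 0, 0, 0, 0⟩ ⟨0, 0, 0, 0, 0, 0, 619636, 0, 0, 0, 0, 0, 0⟩ ⟨218, 0, -2541, 6, 49, 479, 894939, 0, 0, 0, 0, 0, 0⟩))))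
    (.s1
    (.s2
    (.leaf (.box ⟨210, 3, -2048, 14, 103, 374, 386731, 0, 0, 0, 0, 0, 0⟩ ⟨0, 0, 0, 0, 0, 0, 474265, 0, 0, 0, 0, 0, 0⟩ ⟨0, 0, 0, 0, 0, 0, 474265, 0, 0, 0, 0, 0, 0⟩ ⟨0, 0, 0, 0, 0, 0, 613016, 0, 0, 0, 0, 0, 0⟩ ⟨0, 0, 0, 0, 0, 0, 613016, 0, 0, 0, 0, 0, 0⟩ ⟨209, 1, -2048, 6, 47, 377, 866528, 0, 0, 0, 0, 0, 0⟩))
    (.leaf (.box ⟨173, 0, -2048, 10, 81, 354, 411430, 0, 0, 0, 0, 0, 0⟩ ⟨0, 0, 0, 0, 0, 0, 504830, 0, 0, 0, 0, 0, 0⟩ ⟨0, 0, 0, 0, 0, 0, 504830, 0, 0, 0, 0, 0, 0⟩ ⟨0, 0, 0, 0, 0, 0, 653090, 0, 0, 0, 0, 0, 0⟩ ⟨0, 0, 0, 0, 0, 0, 653090, 0, 0, 0, 0, 0, 0⟩ ⟨212, 0, -2523, 6, 45, 439, 924640, 0, 0, 0, 0, 0, 0⟩)))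
    (.s2
    (.leaf (.box ⟨225, 1, -2048, 16, 110, 411, 386926, 0, 0, 0, 0, 0, 0⟩ ⟨0, 0, 0, 0, 0, 0, 474591, 0, 0, 0, 0, 0, 0⟩ ⟨0, 0, 0, 0, 0, 0, 474591, 0, 0, 0, 0, 0, 0⟩ ⟨0, 0, 0, 0, 0, 0, 613616, 0, 0, 0, 0, 0, 0⟩ ⟨0, 0, 0, 0, 0, 0, 613616, 0, 0, 0, 0, 0, 0⟩ ⟨228, 1, -2048, 7, 50, 417, 867837, 0, 0, 0, 0, 0, 0⟩))
    (.leaf (.box ⟨177, -1, -2048, 10, 85, 384, 413975, 0, 0, 0, 0, 0, 0⟩ ⟨0, 0, 0, 0, 0, 0, 508258, 0, 0, 0, 0, 0, 0⟩ ⟨0, 0, 0, 0, 0, 0, 508258, 0, 0, 0, 0, 0, 0⟩ ⟨0, 0, 0, 0, 0, 0, 658151, 0, 0, 0, 0, 0, 0⟩ ⟨0, 0, 0, 0, 0, 0, 658151, 0, 0, 0, 0, 0, 0⟩ ⟨252, 0, -2890, 6, 54, 547, 933434, 0, 0, 0, 0, 0, 0⟩)))))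
    (.s1
    (.s3
    (.leaf (.box ⟨233, 4, -2048, 23, 98, 375, 395417, 0, 0, 0, 0, 0, 0⟩ ⟨0, 0, 0, 0, 0, 0, 487645, 0, 0, 0, 0, 0, 0⟩ ⟨0, 0, 0, 0, 0, 0, 487645, 0, 0, 0, 0, 0, 0⟩ ⟨0, 0, 0, 0, 0, 0, 635981, 0, 0, 0, 0, 0, 0⟩ ⟨0, 0, 0, 0, 0, 0, 635981, 0, 0, 0, 0, 0, 0⟩ ⟨227, 2, -2048, 9, 43, 377, 914013, 0, 0, 0, 0, 0, 0⟩))
    (.leaf (.box ⟨229, 3, -2048, 21, 92, 377, 425299, 0, 0, 0, 0, 0, 0⟩ ⟨0, 0, 0, 0, 0, 0, 521357, 0, 0, 0, 0, 0, 0⟩ ⟨0, 0, 0, 0, 0, 0, 521357, 0, 0, 0, 0, 0, 0⟩ ⟨0, 0, 0, 0, 0, 0, 673465, 0, 0, 0, 0, 0, 0⟩ ⟨0, 0, 0, 0, 0, 0, 673465, 0, 0, 0, 0, 0, 0⟩ ⟨230, 2, -2048, 9, 41, 378, 950890, 0, 0, 0, 0, 0, 0⟩)))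
    (.s2
    (.leaf (.box ⟨217, 2, -2048, 17, 115, 419, 393828, 0, 0, 0, 0, 0, 0⟩ ⟨0, 0, 0, 0, 0, 0, 485832, 0, 0, 0, 0, 0, 0⟩ ⟨0, 0, 0, 0, 0, 0, 485832, 0, 0, 0, 0, 0, 0⟩ ⟨0, 0, 0, 0, 0, 0, 633927, 0, 0, 0, 0, 0, 0⟩ ⟨0, 0, 0, 0, 0, 0, 633927, 0, 0, 0, 0, 0, 0⟩ ⟨209, 1, -2048, 8, 50, 423, 911896, 0, 0, 0, 0, 0, 0⟩))
    (.leaf (.box ⟨207, 0, -2048, 11, 90, 404, 425517, 0, 0, 0, 0, 0, 0⟩ ⟨0, 0, 0, 0, 0, 0, 525440, 0, 0, 0, 0, 0, 0⟩ ⟨0, 0, 0, 0, 0, 0, 525440, 0, 0, 0, 0, 0, 0⟩ ⟨0, 0, 0, 0, 0, 0, 686695, 0, 0, 0, 0, 0, 0⟩ ⟨0, 0, 0, 0, 0, 0, 686695, 0, 0, 0, 0, 0, 0⟩ ⟨223, 0, -2745, 6, 51, 535, 990750, 0, 0, 0, 0, 0, 0⟩))))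

theorem parts8 :
    (runPathS conQ supQ (fun n Qs i d x => leafR conQ seg n Qs i d x) [.d0 true, .d1 false, .d2 false, .d0 false, .d1 true, .d0 false, .d0 true, .d1 true, .d3 true, .d2 false, .d2 false, .d3 true] tree123 0 0 0
      (joinS (lay.B * lay.size) rootQ) = true) ∧
    (runPathS conQ supQ (fun n Qs i d x => leafR conQ seg n Qs i d x) [.d0 true, .d1 false, .d2 false, .d0 false, .d1 true, .d0 false, .d0 true, .d1 true, .d3 true, .d2 false, .d2 true] tree124 0 0 0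
      (joinS (lay.B * lay.size) rootQ) = true) ∧
    (runPathS conQ supQ (fun n Qs i d x => leafR conQ seg n Qs i d x) [.d0 true, .d1 false, .d2 false, .d0 false, .d1 true, .d0 false, .d0 true, .d1 true, .d3 true, .d2 true] tree125 0 0 0
      (joinS (lay.B * lay.size) rootQ) = true) ∧
    (runPathS conQ supQ (fun n Qs i d x => leafR conQ seg n Qs i d x) [.d0 true, .d1 false, .d2 false, .d0 false, .d1 true, .d0 true] tree126 0 0 0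
      (joinS (lay.B * lay.size) rootQ) = true) ∧
    (runPathS conQ supQ (fun n Qs i d x => leafR conQ seg n Qs i d x) [.d0 true, .d1 false, .d2 false, .d0 true] tree127 0 0 0
      (joinS (lay.B * lay.size) rootQ) = true) ∧
    (runPathS conQ supQ (fun n Qs i d x => leafR conQ seg n Qs i d x) [.d0 true, .d1 false, .d2 true, .d0 false, .d1 false] tree128 0 0 0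
      (joinS (lay.B * lay.size) rootQ) = true) ∧
    (runPathS conQ supQ (fun n Qs i d x => leafR conQ seg n Qs i d x) [.d0 true, .d1 false, .d2 true, .d0 false, .d1 true, .d2 false] tree129 0 0 0
      (joinS (lay.B * lay.size) rootQ) = true) ∧
    (runPathS conQ supQ (fun n Qs i d x => leafR conQ seg n Qs i d x) [.d0 true, .d1 false, .d2 true, .d0 false, .d1 true, .d2 true] tree130 0 0 0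
      (joinS (lay.B * lay.size) rootQ) = true) ∧
    (runPathS conQ supQ (fun n Qs i d x => leafR conQ seg n Qs i d x) [.d0 true, .d1 false, .d2 true, .d0 true] tree131 0 0 0
      (joinS (lay.B * lay.size) rootQ) = true) ∧
    (runPathS conQ supQ (fun n Qs i d x => leafR conQ seg n Qs i d x) [.d0 true, .d1 true, .d2 false, .d0 false, .d1 false, .d0 false, .d2 false, .d1 false, .d0 false, .d3 false, .d1 false, .d0 false] tree132 0 0 0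
      (joinS (lay.B * lay.size) rootQ) = true) ∧
    (runPathS conQ supQ (fun n Qs i d x => leafR conQ seg n Qs i d x) [.d0 true, .d1 true, .d2 false, .d0 false, .d1 false, .d0 false, .d2 false, .d1 false, .d0 false, .d3 false, .d1 false, .d0 true] tree133 0 0 0
      (joinS (lay.B * lay.size) rootQ) = true) ∧
    (runPathS conQ supQ (fun n Qs i d x => leafR conQ seg n Qs i d x) [.d0 true, .d1 true, .d2 false, .d0 false, .d1 false, .d0 false, .d2 false, .d1 false, .d0 false, .d3 false, .d1 true] tree134 0 0 0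
      (joinS (lay.B * lay.size) rootQ) = true) ∧
    (runPathS conQ supQ (fun n Qs i d x => leafR conQ seg n Qs i d x) [.d0 true, .d1 true, .d2 false, .d0 false, .d1 false, .d0 false, .d2 false, .d1 false, .d0 false, .d3 true, .d1 false, .d3 false] tree135 0 0 0
      (joinS (lay.B * lay.size) rootQ) = true) ∧
    (runPathS conQ supQ (fun n Qs i d x => leafR conQ seg n Qs i d x) [.d0 true, .d1 true, .d2 false, .d0 false, .d1 false, .d0 false, .d2 false, .d1 false, .d0 false, .d3 true, .d1 false, .d3 true] tree136 0 0 0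
      (joinS (lay.B * lay.size) rootQ) = true) ∧
    (runPathS conQ supQ (fun n Qs i d x => leafR conQ seg n Qs i d x) [.d0 true, .d1 true, .d2 false, .d0 false, .d1 false, .d0 false, .d2 false, .d1 false, .d0 false, .d3 true, .d1 true] tree137 0 0 0
      (joinS (lay.B * lay.size) rootQ) = true) ∧
    (runPathS conQ supQ (fun n Qs i d x => leafR conQ seg n Qs i d x) [.d0 true, .d1 true, .d2 false, .d0 false, .d1 false, .d0 false, .d2 false, .d1 false, .d0 true, .d3 false, .d3 false] tree138 0 0 0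
      (joinS (lay.B * lay.size) rootQ) = true) ∧
    (runPathS conQ supQ (fun n Qs i d x => leafR conQ seg n Qs i d x) [.d0 true, .d1 true, .d2 false, .d0 false, .d1 false, .d0 false, .d2 false, .d1 false, .d0 true, .d3 false, .d3 true] tree139 0 0 0
      (joinS (lay.B * lay.size) rootQ) = true) :=
  ⟨by decide +kernel,
  by decide +kernel,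
  by decide +kernel,
  by decide +kernel,
  by decide +kernel,
  by decide +kernel,
  by decide +kernel,
  by decide +kernel,
  by decide +kernel,
  by decide +kernel,
  by decide +kernel,
  by decide +kernel,
  by decide +kernel,
  by decide +kernel,
  by decide +kernel,
  by decide +kernel,
  by decide +kernel⟩

end Vale.Agent.P098.Six.S21
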