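import Vale.Agent.P098.Six.S21.Part0
import Vale.Agent.P098.Six.S21.Part1
import Vale.Agent.P098.Six.S21.Part2
import Vale.Agent.P098.Six.S21.Part3
import Vale.Agent.P098.Six.S21.Part4
import Vale.Agent.P098.Six.S21.Part5
import Vale.Agent.P098.Six.S21.Part6
import Vale.Agent.P098.Six.S21.Part7
import Vale.Agent.P098.Six.S21.Part8
import Vale.Agent.P098.Six.S21.Part9
import Vale.Agent.P098.Six.S21.Part10

/-!
# P098, six dimensions: the checked tree
-/

namespace Vale.Agent.P098.Six.S21

theorem ok0 (hp : Packed lay 2205433454 root) :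
    runPath (lay.con 2205433454 1) (chkL seg) [.d0 false, .d1 false, .d2 false, .d0 false] tree0 0 0 0 root = true :=
  runPath_of_fastR supQ_good conQ_good rfl hp parts0.1

theorem ok1 (hp : Packed lay 2205433454 root) :
    runPath (lay.con 2205433454 1) (chkL seg) [.d0 false, .d1 false, .d2 false, .d0 true, .d1 false, .d2 false, .d0 false, .d1 false, .d0 false] tree1 0 0 0 root = true :=
  runPath_of_fastR supQ_good conQ_good rfl hp parts0.2.1

theorem ok2 (hp : Packed lay 2205433454 root) :
    runPath (lay.con 2205433454 1) (chkL seg) [.d0 false, .d1 false, .d2 false, .d0 true, .d1 false, .d2 false, .d0 false, .d1 false, .d0 true, .d1 false] tree2 0 0 0 root = true :=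
  runPath_of_fastR supQ_good conQ_good rfl hp parts0.2.2.1

theorem ok3 (hp : Packed lay 2205433454 root) :
    runPath (lay.con 2205433454 1) (chkL seg) [.d0 false, .d1 false, .d2 false, .d0 true, .d1 false, .d2 false, .d0 false, .d1 false, .d0 true, .d1 true, .d0 false] tree3 0 0 0 root = true :=
  runPath_of_fastR supQ_good conQ_good rfl hp parts0.2.2.2.1

theorem ok4 (hp : Packed lay 2205433454 root) :
    runPath (lay.con 2205433454 1) (chkL seg) [.d0 false, .d1 false, .d2 false, .d0 true, .d1 false, .d2 false, .d0 false, .d1 false, .d0 true, .d1 true, .d0 true, .d2 false] tree4 0 0 0 root = true :=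
  runPath_of_fastR supQ_good conQ_good rfl hp parts0.2.2.2.2.1

theorem ok5 (hp : Packed lay 2205433454 root) :
    runPath (lay.con 2205433454 1) (chkL seg) [.d0 false, .d1 false, .d2 false, .d0 true, .d1 false, .d2 false, .d0 false, .d1 false, .d0 true, .d1 true, .d0 true, .d2 true] tree5 0 0 0 root = true :=
  runPath_of_fastR supQ_good conQ_good rfl hp parts0.2.2.2.2.2.1

theorem ok6 (hp : Packed lay 2205433454 root) :
    runPath (lay.con 2205433454 1) (chkL seg) [.d0 false, .d1 false, .d2 false, .d0 true, .d1 false, .d2 false, .d0 false, .d1 true] tree6 0 0 0 root = true :=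
  runPath_of_fastR supQ_good conQ_good rfl hp parts0.2.2.2.2.2.2.1

theorem ok7 (hp : Packed lay 2205433454 root) :
    runPath (lay.con 2205433454 1) (chkL seg) [.d0 false, .d1 false, .d2 false, .d0 true, .d1 false, .d2 false, .d0 true, .d1 false, .d1 false] tree7 0 0 0 root = true :=
  runPath_of_fastR supQ_good conQ_good rfl hp parts0.2.2.2.2.2.2.2.1

theorem ok8 (hp : Packed lay 2205433454 root) :
    runPath (lay.con 2205433454 1) (chkL seg) [.d0 false, .d1 false, .d2 false, .d0 true, .d1 false, .d2 false, .d0 true, .d1 false, .d1 true, .d0 false, .d0 false, .d2 false, .d3 false] tree8 0 0 0 root = true :=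
  runPath_of_fastR supQ_good conQ_good rfl hp parts0.2.2.2.2.2.2.2.2.1

theorem ok9 (hp : Packed lay 2205433454 root) :
    runPath (lay.con 2205433454 1) (chkL seg) [.d0 false, .d1 false, .d2 false, .d0 true, .d1 false, .d2 false, .d0 true, .d1 false, .d1 true, .d0 false, .d0 false, .d2 false, .d3 true] tree9 0 0 0 root = true :=
  runPath_of_fastR supQ_good conQ_good rfl hp parts0.2.2.2.2.2.2.2.2.2.1

theorem ok10 (hp : Packed lay 2205433454 root) :
    runPath (lay.con 2205433454 1) (chkL seg) [.d0 false, .d1 false, .d2 false, .d0 true, .d1 false, .d2 false, .d0 true, .d1 false, .d1 true, .d0 false, .d0 false, .d2 true] tree10 0 0 0 root = true :=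
  runPath_of_fastR supQ_good conQ_good rfl hp parts0.2.2.2.2.2.2.2.2.2.2.1

theorem ok11 (hp : Packed lay 2205433454 root) :
    runPath (lay.con 2205433454 1) (chkL seg) [.d0 false, .d1 false, .d2 false, .d0 true, .d1 false, .d2 false, .d0 true, .d1 false, .d1 true, .d0 false, .d0 true] tree11 0 0 0 root = true :=
  runPath_of_fastR supQ_good conQ_good rfl hp parts0.2.2.2.2.2.2.2.2.2.2.2.1

theorem ok12 (hp : Packed lay 2205433454 root) :
    runPath (lay.con 2205433454 1) (chkL seg) [.d0 false, .d1 false, .d2 false, .d0 true, .d1 false, .d2 false, .d0 true, .d1 false, .d1 true, .d0 true] tree12 0 0 0 root = true :=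
  runPath_of_fastR supQ_good conQ_good rfl hp parts0.2.2.2.2.2.2.2.2.2.2.2.2.1

theorem ok13 (hp : Packed lay 2205433454 root) :
    runPath (lay.con 2205433454 1) (chkL seg) [.d0 false, .d1 false, .d2 false, .d0 true, .d1 false, .d2 false, .d0 true, .d1 true, .d0 false, .d0 false, .d3 false] tree13 0 0 0 root = true :=
  runPath_of_fastR supQ_good conQ_good rfl hp parts0.2.2.2.2.2.2.2.2.2.2.2.2.2.1

theorem ok14 (hp : Packed lay 2205433454 root) :
    runPath (lay.con 2205433454 1) (chkL seg) [.d0 false, .d1 false, .d2 false, .d0 true, .d1 false, .d2 false, .d0 true, .d1 true, .d0 false, .d0 false, .d3 true] tree14 0 0 0 root = true :=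
  runPath_of_fastR supQ_good conQ_good rfl hp parts0.2.2.2.2.2.2.2.2.2.2.2.2.2.2.1

theorem ok15 (hp : Packed lay 2205433454 root) :
    runPath (lay.con 2205433454 1) (chkL seg) [.d0 false, .d1 false, .d2 false, .d0 true, .d1 false, .d2 false, .d0 true, .d1 true, .d0 false, .d0 true, .d1 false] tree15 0 0 0 root = true :=
  runPath_of_fastR supQ_good conQ_good rfl hp parts0.2.2.2.2.2.2.2.2.2.2.2.2.2.2.2.1

theorem ok16 (hp : Packed lay 2205433454 root) :
    runPath (lay.con 2205433454 1) (chkL seg) [.d0 false, .d1 false, .d2 false, .d0 true, .d1 false, .d2 false, .d0 true, .d1 true, .d0 false, .d0 true, .d1 true] tree16 0 0 0 root = true :=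
  runPath_of_fastR supQ_good conQ_good rfl hp parts0.2.2.2.2.2.2.2.2.2.2.2.2.2.2.2.2

theorem ok17 (hp : Packed lay 2205433454 root) :
    runPath (lay.con 2205433454 1) (chkL seg) [.d0 false, .d1 false, .d2 false, .d0 true, .d1 false, .d2 false, .d0 true, .d1 true, .d0 true, .d0 false, .d3 false] tree17 0 0 0 root = true :=
  runPath_of_fastR supQ_good conQ_good rfl hp parts1.1

theorem ok18 (hp : Packed lay 2205433454 root) :
    runPath (lay.con 2205433454 1) (chkL seg) [.d0 false, .d1 false, .d2 false, .d0 true, .d1 false, .d2 false, .d0 true, .d1 true, .d0 true, .d0 false, .d3 true] tree18 0 0 0 root = true :=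
  runPath_of_fastR supQ_good conQ_good rfl hp parts1.2.1

theorem ok19 (hp : Packed lay 2205433454 root) :
    runPath (lay.con 2205433454 1) (chkL seg) [.d0 false, .d1 false, .d2 false, .d0 true, .d1 false, .d2 false, .d0 true, .d1 true, .d0 true, .d0 true] tree19 0 0 0 root = true :=
  runPath_of_fastR supQ_good conQ_good rfl hp parts1.2.2.1

theorem ok20 (hp : Packed lay 2205433454 root) :
    runPath (lay.con 2205433454 1) (chkL seg) [.d0 false, .d1 false, .d2 false, .d0 true, .d1 false, .d2 true, .d0 false] tree20 0 0 0 root = true :=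
  runPath_of_fastR supQ_good conQ_good rfl hp parts1.2.2.2.1

theorem ok21 (hp : Packed lay 2205433454 root) :
    runPath (lay.con 2205433454 1) (chkL seg) [.d0 false, .d1 false, .d2 false, .d0 true, .d1 false, .d2 true, .d0 true, .d1 false] tree21 0 0 0 root = true :=
  runPath_of_fastR supQ_good conQ_good rfl hp parts1.2.2.2.2.1

theorem ok22 (hp : Packed lay 2205433454 root) :
    runPath (lay.con 2205433454 1) (chkL seg) [.d0 false, .d1 false, .d2 false, .d0 true, .d1 false, .d2 true, .d0 true, .d1 true, .d0 false] tree22 0 0 0 root = true :=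
  runPath_of_fastR supQ_good conQ_good rfl hp parts1.2.2.2.2.2.1

theorem ok23 (hp : Packed lay 2205433454 root) :
    runPath (lay.con 2205433454 1) (chkL seg) [.d0 false, .d1 false, .d2 false, .d0 true, .d1 false, .d2 true, .d0 true, .d1 true, .d0 true] tree23 0 0 0 root = true :=
  runPath_of_fastR supQ_good conQ_good rfl hp parts1.2.2.2.2.2.2.1

theorem ok24 (hp : Packed lay 2205433454 root) :
    runPath (lay.con 2205433454 1) (chkL seg) [.d0 false, .d1 false, .d2 false, .d0 true, .d1 true, .d2 false, .d0 false] tree24 0 0 0 root = true :=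
  runPath_of_fastR supQ_good conQ_good rfl hp parts1.2.2.2.2.2.2.2.1

theorem ok25 (hp : Packed lay 2205433454 root) :
    runPath (lay.con 2205433454 1) (chkL seg) [.d0 false, .d1 false, .d2 false, .d0 true, .d1 true, .d2 false, .d0 true, .d1 false, .d0 false, .d0 false] tree25 0 0 0 root = true :=
  runPath_of_fastR supQ_good conQ_good rfl hp parts1.2.2.2.2.2.2.2.2.1

theorem ok26 (hp : Packed lay 2205433454 root) :
    runPath (lay.con 2205433454 1) (chkL seg) [.d0 false, .d1 false, .d2 false, .d0 true, .d1 true, .d2 false, .d0 true, .d1 false, .d0 false, .d0 true, .d3 false, .d3 false] tree26 0 0 0 root = true :=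
  runPath_of_fastR supQ_good conQ_good rfl hp parts1.2.2.2.2.2.2.2.2.2.1

theorem ok27 (hp : Packed lay 2205433454 root) :
    runPath (lay.con 2205433454 1) (chkL seg) [.d0 false, .d1 false, .d2 false, .d0 true, .d1 true, .d2 false, .d0 true, .d1 false, .d0 false, .d0 true, .d3 false, .d3 true] tree27 0 0 0 root = true :=
  runPath_of_fastR supQ_good conQ_good rfl hp parts1.2.2.2.2.2.2.2.2.2.2.1

theorem ok28 (hp : Packed lay 2205433454 root) :
    runPath (lay.con 2205433454 1) (chkL seg) [.d0 false, .d1 false, .d2 false, .d0 true, .d1 true, .d2 false, .d0 true, .d1 false, .d0 false, .d0 true, .d3 true, .d1 false] tree28 0 0 0 root = true :=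
  runPath_of_fastR supQ_good conQ_good rfl hp parts1.2.2.2.2.2.2.2.2.2.2.2.1

theorem ok29 (hp : Packed lay 2205433454 root) :
    runPath (lay.con 2205433454 1) (chkL seg) [.d0 false, .d1 false, .d2 false, .d0 true, .d1 true, .d2 false, .d0 true, .d1 false, .d0 false, .d0 true, .d3 true, .d1 true] tree29 0 0 0 root = true :=
  runPath_of_fastR supQ_good conQ_good rfl hp parts1.2.2.2.2.2.2.2.2.2.2.2.2.1

theorem ok30 (hp : Packed lay 2205433454 root) :
    runPath (lay.con 2205433454 1) (chkL seg) [.d0 false, .d1 false, .d2 false, .d0 true, .d1 true, .d2 false, .d0 true, .d1 false, .d0 true, .d1 false, .d3 false, .d0 false] tree30 0 0 0 root = true :=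
  runPath_of_fastR supQ_good conQ_good rfl hp parts1.2.2.2.2.2.2.2.2.2.2.2.2.2.1

theorem ok31 (hp : Packed lay 2205433454 root) :
    runPath (lay.con 2205433454 1) (chkL seg) [.d0 false, .d1 false, .d2 false, .d0 true, .d1 true, .d2 false, .d0 true, .d1 false, .d0 true, .d1 false, .d3 false, .d0 true] tree31 0 0 0 root = true :=
  runPath_of_fastR supQ_good conQ_good rfl hp parts1.2.2.2.2.2.2.2.2.2.2.2.2.2.2

theorem ok32 (hp : Packed lay 2205433454 root) :
    runPath (lay.con 2205433454 1) (chkL seg) [.d0 false, .d1 false, .d2 false, .d0 true, .d1 true, .d2 false, .d0 true, .d1 false, .d0 true, .d1 false, .d3 true, .d3 false] tree32 0 0 0 root = true :=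
  runPath_of_fastR supQ_good conQ_good rfl hp parts2.1

theorem ok33 (hp : Packed lay 2205433454 root) :
    runPath (lay.con 2205433454 1) (chkL seg) [.d0 false, .d1 false, .d2 false, .d0 true, .d1 true, .d2 false, .d0 true, .d1 false, .d0 true, .d1 false, .d3 true, .d3 true, .d0 false] tree33 0 0 0 root = true :=
  runPath_of_fastR supQ_good conQ_good rfl hp parts2.2.1

theorem ok34 (hp : Packed lay 2205433454 root) :
    runPath (lay.con 2205433454 1) (chkL seg) [.d0 false, .d1 false, .d2 false, .d0 true, .d1 true, .d2 false, .d0 true, .d1 false, .d0 true, .d1 false, .d3 true, .d3 true, .d0 true] tree34 0 0 0 root = true :=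
  runPath_of_fastR supQ_good conQ_good rfl hp parts2.2.2.1

theorem ok35 (hp : Packed lay 2205433454 root) :
    runPath (lay.con 2205433454 1) (chkL seg) [.d0 false, .d1 false, .d2 false, .d0 true, .d1 true, .d2 false, .d0 true, .d1 false, .d0 true, .d1 true, .d3 false, .d0 false, .d3 false] tree35 0 0 0 root = true :=
  runPath_of_fastR supQ_good conQ_good rfl hp parts2.2.2.2.1

theorem ok36 (hp : Packed lay 2205433454 root) :
    runPath (lay.con 2205433454 1) (chkL seg) [.d0 false, .d1 false, .d2 false, .d0 true, .d1 true, .d2 false, .d0 true, .d1 false, .d0 true, .d1 true, .d3 false, .d0 false, .d3 true] tree36 0 0 0 root = true :=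
  runPath_of_fastR supQ_good conQ_good rfl hp parts2.2.2.2.2.1

theorem ok37 (hp : Packed lay 2205433454 root) :
    runPath (lay.con 2205433454 1) (chkL seg) [.d0 false, .d1 false, .d2 false, .d0 true, .d1 true, .d2 false, .d0 true, .d1 false, .d0 true, .d1 true, .d3 false, .d0 true, .d3 false, .d2 false] tree37 0 0 0 root = true :=
  runPath_of_fastR supQ_good conQ_good rfl hp parts2.2.2.2.2.2.1

theorem ok38 (hp : Packed lay 2205433454 root) :
    runPath (lay.con 2205433454 1) (chkL seg) [.d0 false, .d1 false, .d2 false, .d0 true, .d1 true, .d2 false, .d0 true, .d1 false, .d0 true, .d1 true, .d3 false, .d0 true, .d3 false, .d2 true] tree38 0 0 0 root = true :=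
  runPath_of_fastR supQ_good conQ_good rfl hp parts2.2.2.2.2.2.2.1

theorem ok39 (hp : Packed lay 2205433454 root) :
    runPath (lay.con 2205433454 1) (chkL seg) [.d0 false, .d1 false, .d2 false, .d0 true, .d1 true, .d2 false, .d0 true, .d1 false, .d0 true, .d1 true, .d3 false, .d0 true, .d3 true, .d2 false] tree39 0 0 0 root = true :=
  runPath_of_fastR supQ_good conQ_good rfl hp parts2.2.2.2.2.2.2.2.1

theorem ok40 (hp : Packed lay 2205433454 root) :
    runPath (lay.con 2205433454 1) (chkL seg) [.d0 false, .d1 false, .d2 false, .d0 true, .d1 true, .d2 false, .d0 true, .d1 false, .d0 true, .d1 true, .d3 false, .d0 true, .d3 true, .d2 true] tree40 0 0 0 root = true :=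
  runPath_of_fastR supQ_good conQ_good rfl hp parts2.2.2.2.2.2.2.2.2.1

theorem ok41 (hp : Packed lay 2205433454 root) :
    runPath (lay.con 2205433454 1) (chkL seg) [.d0 false, .d1 false, .d2 false, .d0 true, .d1 true, .d2 false, .d0 true, .d1 false, .d0 true, .d1 true, .d3 true, .d0 false, .d2 false] tree41 0 0 0 root = true :=
  runPath_of_fastR supQ_good conQ_good rfl hp parts2.2.2.2.2.2.2.2.2.2.1

theorem ok42 (hp : Packed lay 2205433454 root) :
    runPath (lay.con 2205433454 1) (chkL seg) [.d0 false, .d1 false, .d2 false, .d0 true, .d1 true, .d2 false, .d0 true, .d1 false, .d0 true, .d1 true, .d3 true, .d0 false, .d2 true] tree42 0 0 0 root = true :=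
  runPath_of_fastR supQ_good conQ_good rfl hp parts2.2.2.2.2.2.2.2.2.2.2.1

theorem ok43 (hp : Packed lay 2205433454 root) :
    runPath (lay.con 2205433454 1) (chkL seg) [.d0 false, .d1 false, .d2 false, .d0 true, .d1 true, .d2 false, .d0 true, .d1 false, .d0 true, .d1 true, .d3 true, .d0 true, .d3 false, .d2 false] tree43 0 0 0 root = true :=
  runPath_of_fastR supQ_good conQ_good rfl hp parts2.2.2.2.2.2.2.2.2.2.2.2.1

theorem ok44 (hp : Packed lay 2205433454 root) :
    runPath (lay.con 2205433454 1) (chkL seg) [.d0 false, .d1 false, .d2 false, .d0 true, .d1 true, .d2 false, .d0 true, .d1 false, .d0 true, .d1 true, .d3 true, .d0 true, .d3 false, .d2 true] tree44 0 0 0 root = true :=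
  runPath_of_fastR supQ_good conQ_good rfl hp parts2.2.2.2.2.2.2.2.2.2.2.2.2.1

theorem ok45 (hp : Packed lay 2205433454 root) :
    runPath (lay.con 2205433454 1) (chkL seg) [.d0 false, .d1 false, .d2 false, .d0 true, .d1 true, .d2 false, .d0 true, .d1 false, .d0 true, .d1 true, .d3 true, .d0 true, .d3 true, .d2 false] tree45 0 0 0 root = true :=
  runPath_of_fastR supQ_good conQ_good rfl hp parts2.2.2.2.2.2.2.2.2.2.2.2.2.2

theorem ok46 (hp : Packed lay 2205433454 root) :
    runPath (lay.con 2205433454 1) (chkL seg) [.d0 false, .d1 false, .d2 false, .d0 true, .d1 true, .d2 false, .d0 true, .d1 false, .d0 true, .d1 true, .d3 true, .d0 true, .d3 true, .d2 true] tree46 0 0 0 root = true :=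
  runPath_of_fastR supQ_good conQ_good rfl hp parts3.1

theorem ok47 (hp : Packed lay 2205433454 root) :
    runPath (lay.con 2205433454 1) (chkL seg) [.d0 false, .d1 false, .d2 false, .d0 true, .d1 true, .d2 false, .d0 true, .d1 true, .d0 false] tree47 0 0 0 root = true :=
  runPath_of_fastR supQ_good conQ_good rfl hp parts3.2.1

theorem ok48 (hp : Packed lay 2205433454 root) :
    runPath (lay.con 2205433454 1) (chkL seg) [.d0 false, .d1 false, .d2 false, .d0 true, .d1 true, .d2 false, .d0 true, .d1 true, .d0 true, .d3 false, .d0 false, .d1 false] tree48 0 0 0 root = true :=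
  runPath_of_fastR supQ_good conQ_good rfl hp parts3.2.2.1

theorem ok49 (hp : Packed lay 2205433454 root) :
    runPath (lay.con 2205433454 1) (chkL seg) [.d0 false, .d1 false, .d2 false, .d0 true, .d1 true, .d2 false, .d0 true, .d1 true, .d0 true, .d3 false, .d0 false, .d1 true] tree49 0 0 0 root = true :=
  runPath_of_fastR supQ_good conQ_good rfl hp parts3.2.2.2.1

theorem ok50 (hp : Packed lay 2205433454 root) :
    runPath (lay.con 2205433454 1) (chkL seg) [.d0 false, .d1 false, .d2 false, .d0 true, .d1 true, .d2 false, .d0 true, .d1 true, .d0 true, .d3 false, .d0 true, .d3 false, .d1 false, .d2 false] tree50 0 0 0 root = true :=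
  runPath_of_fastR supQ_good conQ_good rfl hp parts3.2.2.2.2.1

theorem ok51 (hp : Packed lay 2205433454 root) :
    runPath (lay.con 2205433454 1) (chkL seg) [.d0 false, .d1 false, .d2 false, .d0 true, .d1 true, .d2 false, .d0 true, .d1 true, .d0 true, .d3 false, .d0 true, .d3 false, .d1 false, .d2 true] tree51 0 0 0 root = true :=
  runPath_of_fastR supQ_good conQ_good rfl hp parts3.2.2.2.2.2.1

theorem ok52 (hp : Packed lay 2205433454 root) :
    runPath (lay.con 2205433454 1) (chkL seg) [.d0 false, .d1 false, .d2 false, .d0 true, .d1 true, .d2 false, .d0 true, .d1 true, .d0 true, .d3 false, .d0 true, .d3 false, .d1 true] tree52 0 0 0 root = true :=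
  runPath_of_fastR supQ_good conQ_good rfl hp parts3.2.2.2.2.2.2.1

theorem ok53 (hp : Packed lay 2205433454 root) :
    runPath (lay.con 2205433454 1) (chkL seg) [.d0 false, .d1 false, .d2 false, .d0 true, .d1 true, .d2 false, .d0 true, .d1 true, .d0 true, .d3 false, .d0 true, .d3 true, .d1 false] tree53 0 0 0 root = true :=
  runPath_of_fastR supQ_good conQ_good rfl hp parts3.2.2.2.2.2.2.2.1

theorem ok54 (hp : Packed lay 2205433454 root) :
    runPath (lay.con 2205433454 1) (chkL seg) [.d0 false, .d1 false, .d2 false, .d0 true, .d1 true, .d2 false, .d0 true, .d1 true, .d0 true, .d3 false, .d0 true, .d3 true, .d1 true] tree54 0 0 0 root = true :=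
  runPath_of_fastR supQ_good conQ_good rfl hp parts3.2.2.2.2.2.2.2.2.1

theorem ok55 (hp : Packed lay 2205433454 root) :
    runPath (lay.con 2205433454 1) (chkL seg) [.d0 false, .d1 false, .d2 false, .d0 true, .d1 true, .d2 false, .d0 true, .d1 true, .d0 true, .d3 true, .d3 false, .d1 false] tree55 0 0 0 root = true :=
  runPath_of_fastR supQ_good conQ_good rfl hp parts3.2.2.2.2.2.2.2.2.2.1

theorem ok56 (hp : Packed lay 2205433454 root) :
    runPath (lay.con 2205433454 1) (chkL seg) [.d0 false, .d1 false, .d2 false, .d0 true, .d1 true, .d2 false, .d0 true, .d1 true, .d0 true, .d3 true, .d3 false, .d1 true] tree56 0 0 0 root = true :=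
  runPath_of_fastR supQ_good conQ_good rfl hp parts3.2.2.2.2.2.2.2.2.2.2.1

theorem ok57 (hp : Packed lay 2205433454 root) :
    runPath (lay.con 2205433454 1) (chkL seg) [.d0 false, .d1 false, .d2 false, .d0 true, .d1 true, .d2 false, .d0 true, .d1 true, .d0 true, .d3 true, .d3 true, .d1 false] tree57 0 0 0 root = true :=
  runPath_of_fastR supQ_good conQ_good rfl hp parts3.2.2.2.2.2.2.2.2.2.2.2.1

theorem ok58 (hp : Packed lay 2205433454 root) :
    runPath (lay.con 2205433454 1) (chkL seg) [.d0 false, .d1 false, .d2 false, .d0 true, .d1 true, .d2 false, .d0 true, .d1 true, .d0 true, .d3 true, .d3 true, .d1 true] tree58 0 0 0 root = true :=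
  runPath_of_fastR supQ_good conQ_good rfl hp parts3.2.2.2.2.2.2.2.2.2.2.2.2.1

theorem ok59 (hp : Packed lay 2205433454 root) :
    runPath (lay.con 2205433454 1) (chkL seg) [.d0 false, .d1 false, .d2 false, .d0 true, .d1 true, .d2 true, .d0 false] tree59 0 0 0 root = true :=
  runPath_of_fastR supQ_good conQ_good rfl hp parts3.2.2.2.2.2.2.2.2.2.2.2.2.2.1

theorem ok60 (hp : Packed lay 2205433454 root) :
    runPath (lay.con 2205433454 1) (chkL seg) [.d0 false, .d1 false, .d2 false, .d0 true, .d1 true, .d2 true, .d0 true, .d1 false, .d0 false, .d0 false] tree60 0 0 0 root = true :=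
  runPath_of_fastR supQ_good conQ_good rfl hp parts3.2.2.2.2.2.2.2.2.2.2.2.2.2.2.1

theorem ok61 (hp : Packed lay 2205433454 root) :
    runPath (lay.con 2205433454 1) (chkL seg) [.d0 false, .d1 false, .d2 false, .d0 true, .d1 true, .d2 true, .d0 true, .d1 false, .d0 false, .d0 true, .d3 false] tree61 0 0 0 root = true :=
  runPath_of_fastR supQ_good conQ_good rfl hp parts3.2.2.2.2.2.2.2.2.2.2.2.2.2.2.2

theorem ok62 (hp : Packed lay 2205433454 root) :
    runPath (lay.con 2205433454 1) (chkL seg) [.d0 false, .d1 false, .d2 false, .d0 true, .d1 true, .d2 true, .d0 true, .d1 false, .d0 false, .d0 true, .d3 true] tree62 0 0 0 root = true :=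
  runPath_of_fastR supQ_good conQ_good rfl hp parts4.1

theorem ok63 (hp : Packed lay 2205433454 root) :
    runPath (lay.con 2205433454 1) (chkL seg) [.d0 false, .d1 false, .d2 false, .d0 true, .d1 true, .d2 true, .d0 true, .d1 false, .d0 true, .d3 false] tree63 0 0 0 root = true :=
  runPath_of_fastR supQ_good conQ_good rfl hp parts4.2.1

theorem ok64 (hp : Packed lay 2205433454 root) :
    runPath (lay.con 2205433454 1) (chkL seg) [.d0 false, .d1 false, .d2 false, .d0 true, .d1 true, .d2 true, .d0 true, .d1 false, .d0 true, .d3 true] tree64 0 0 0 root = true :=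
  runPath_of_fastR supQ_good conQ_good rfl hp parts4.2.2.1

theorem ok65 (hp : Packed lay 2205433454 root) :
    runPath (lay.con 2205433454 1) (chkL seg) [.d0 false, .d1 false, .d2 false, .d0 true, .d1 true, .d2 true, .d0 true, .d1 true, .d0 false] tree65 0 0 0 root = true :=
  runPath_of_fastR supQ_good conQ_good rfl hp parts4.2.2.2.1

theorem ok66 (hp : Packed lay 2205433454 root) :
    runPath (lay.con 2205433454 1) (chkL seg) [.d0 false, .d1 false, .d2 false, .d0 true, .d1 true, .d2 true, .d0 true, .d1 true, .d0 true] tree66 0 0 0 root = true :=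
  runPath_of_fastR supQ_good conQ_good rfl hp parts4.2.2.2.2.1

theorem ok67 (hp : Packed lay 2205433454 root) :
    runPath (lay.con 2205433454 1) (chkL seg) [.d0 false, .d1 false, .d2 true, .d0 false, .d1 false, .d2 false] tree67 0 0 0 root = true :=
  runPath_of_fastR supQ_good conQ_good rfl hp parts4.2.2.2.2.2.1

theorem ok68 (hp : Packed lay 2205433454 root) :
    runPath (lay.con 2205433454 1) (chkL seg) [.d0 false, .d1 false, .d2 true, .d0 false, .d1 false, .d2 true, .d1 false, .d0 false, .d0 false] tree68 0 0 0 root = true :=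
  runPath_of_fastR supQ_good conQ_good rfl hp parts4.2.2.2.2.2.2.1

theorem ok69 (hp : Packed lay 2205433454 root) :
    runPath (lay.con 2205433454 1) (chkL seg) [.d0 false, .d1 false, .d2 true, .d0 false, .d1 false, .d2 true, .d1 false, .d0 false, .d0 true, .d1 false, .d2 false] tree69 0 0 0 root = true :=
  runPath_of_fastR supQ_good conQ_good rfl hp parts4.2.2.2.2.2.2.2.1

theorem ok70 (hp : Packed lay 2205433454 root) :
    runPath (lay.con 2205433454 1) (chkL seg) [.d0 false, .d1 false, .d2 true, .d0 false, .d1 false, .d2 true, .d1 false, .d0 false, .d0 true, .d1 false, .d2 true, .d0 false] tree70 0 0 0 root = true :=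
  runPath_of_fastR supQ_good conQ_good rfl hp parts4.2.2.2.2.2.2.2.2.1

theorem ok71 (hp : Packed lay 2205433454 root) :
    runPath (lay.con 2205433454 1) (chkL seg) [.d0 false, .d1 false, .d2 true, .d0 false, .d1 false, .d2 true, .d1 false, .d0 false, .d0 true, .d1 false, .d2 true, .d0 true] tree71 0 0 0 root = true :=
  runPath_of_fastR supQ_good conQ_good rfl hp parts4.2.2.2.2.2.2.2.2.2.1

theorem ok72 (hp : Packed lay 2205433454 root) :
    runPath (lay.con 2205433454 1) (chkL seg) [.d0 false, .d1 false, .d2 true, .d0 false, .d1 false, .d2 true, .d1 false, .d0 false, .d0 true, .d1 true] tree72 0 0 0 root = true :=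
  runPath_of_fastR supQ_good conQ_good rfl hp parts4.2.2.2.2.2.2.2.2.2.2.1

theorem ok73 (hp : Packed lay 2205433454 root) :
    runPath (lay.con 2205433454 1) (chkL seg) [.d0 false, .d1 false, .d2 true, .d0 false, .d1 false, .d2 true, .d1 false, .d0 true] tree73 0 0 0 root = true :=
  runPath_of_fastR supQ_good conQ_good rfl hp parts4.2.2.2.2.2.2.2.2.2.2.2.1

theorem ok74 (hp : Packed lay 2205433454 root) :
    runPath (lay.con 2205433454 1) (chkL seg) [.d0 false, .d1 false, .d2 true, .d0 false, .d1 false, .d2 true, .d1 true] tree74 0 0 0 root = true :=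
  runPath_of_fastR supQ_good conQ_good rfl hp parts4.2.2.2.2.2.2.2.2.2.2.2.2.1

theorem ok75 (hp : Packed lay 2205433454 root) :
    runPath (lay.con 2205433454 1) (chkL seg) [.d0 false, .d1 false, .d2 true, .d0 false, .d1 true] tree75 0 0 0 root = true :=
  runPath_of_fastR supQ_good conQ_good rfl hp parts4.2.2.2.2.2.2.2.2.2.2.2.2.2.1

theorem ok76 (hp : Packed lay 2205433454 root) :
    runPath (lay.con 2205433454 1) (chkL seg) [.d0 false, .d1 false, .d2 true, .d0 true, .d1 false, .d2 false] tree76 0 0 0 root = true :=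
  runPath_of_fastR supQ_good conQ_good rfl hp parts4.2.2.2.2.2.2.2.2.2.2.2.2.2.2.1

theorem ok77 (hp : Packed lay 2205433454 root) :
    runPath (lay.con 2205433454 1) (chkL seg) [.d0 false, .d1 false, .d2 true, .d0 true, .d1 false, .d2 true] tree77 0 0 0 root = true :=
  runPath_of_fastR supQ_good conQ_good rfl hp parts4.2.2.2.2.2.2.2.2.2.2.2.2.2.2.2

theorem ok78 (hp : Packed lay 2205433454 root) :
    runPath (lay.con 2205433454 1) (chkL seg) [.d0 false, .d1 false, .d2 true, .d0 true, .d1 true, .d1 false, .d0 false] tree78 0 0 0 root = true :=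
  runPath_of_fastR supQ_good conQ_good rfl hp parts5.1

theorem ok79 (hp : Packed lay 2205433454 root) :
    runPath (lay.con 2205433454 1) (chkL seg) [.d0 false, .d1 false, .d2 true, .d0 true, .d1 true, .d1 false, .d0 true] tree79 0 0 0 root = true :=
  runPath_of_fastR supQ_good conQ_good rfl hp parts5.2.1

theorem ok80 (hp : Packed lay 2205433454 root) :
    runPath (lay.con 2205433454 1) (chkL seg) [.d0 false, .d1 false, .d2 true, .d0 true, .d1 true, .d1 true] tree80 0 0 0 root = true :=
  runPath_of_fastR supQ_good conQ_good rfl hp parts5.2.2.1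

theorem ok81 (hp : Packed lay 2205433454 root) :
    runPath (lay.con 2205433454 1) (chkL seg) [.d0 false, .d1 true, .d2 false, .d0 false] tree81 0 0 0 root = true :=
  runPath_of_fastR supQ_good conQ_good rfl hp parts5.2.2.2.1

theorem ok82 (hp : Packed lay 2205433454 root) :
    runPath (lay.con 2205433454 1) (chkL seg) [.d0 false, .d1 true, .d2 false, .d0 true, .d1 false, .d0 false] tree82 0 0 0 root = true :=
  runPath_of_fastR supQ_good conQ_good rfl hp parts5.2.2.2.2.1

theorem ok83 (hp : Packed lay 2205433454 root) :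
    runPath (lay.con 2205433454 1) (chkL seg) [.d0 false, .d1 true, .d2 false, .d0 true, .d1 false, .d0 true] tree83 0 0 0 root = true :=
  runPath_of_fastR supQ_good conQ_good rfl hp parts5.2.2.2.2.2.1

theorem ok84 (hp : Packed lay 2205433454 root) :
    runPath (lay.con 2205433454 1) (chkL seg) [.d0 false, .d1 true, .d2 false, .d0 true, .d1 true] tree84 0 0 0 root = true :=
  runPath_of_fastR supQ_good conQ_good rfl hp parts5.2.2.2.2.2.2.1

theorem ok85 (hp : Packed lay 2205433454 root) :
    runPath (lay.con 2205433454 1) (chkL seg) [.d0 false, .d1 true, .d2 true, .d0 false] tree85 0 0 0 root = true :=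
  runPath_of_fastR supQ_good conQ_good rfl hp parts5.2.2.2.2.2.2.2.1

theorem ok86 (hp : Packed lay 2205433454 root) :
    runPath (lay.con 2205433454 1) (chkL seg) [.d0 false, .d1 true, .d2 true, .d0 true] tree86 0 0 0 root = true :=
  runPath_of_fastR supQ_good conQ_good rfl hp parts5.2.2.2.2.2.2.2.2.1

theorem ok87 (hp : Packed lay 2205433454 root) :
    runPath (lay.con 2205433454 1) (chkL seg) [.d0 true, .d1 false, .d2 false, .d0 false, .d1 false] tree87 0 0 0 root = true :=
  runPath_of_fastR supQ_good conQ_good rfl hp parts5.2.2.2.2.2.2.2.2.2.1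

theorem ok88 (hp : Packed lay 2205433454 root) :
    runPath (lay.con 2205433454 1) (chkL seg) [.d0 true, .d1 false, .d2 false, .d0 false, .d1 true, .d0 false, .d0 false, .d1 false, .d2 false, .d2 false, .d3 false, .d3 false] tree88 0 0 0 root = true :=
  runPath_of_fastR supQ_good conQ_good rfl hp parts5.2.2.2.2.2.2.2.2.2.2.1

theorem ok89 (hp : Packed lay 2205433454 root) :
    runPath (lay.con 2205433454 1) (chkL seg) [.d0 true, .d1 false, .d2 false, .d0 false, .d1 true, .d0 false, .d0 false, .d1 false, .d2 false, .d2 false, .d3 false, .d3 true] tree89 0 0 0 root = true :=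
  runPath_of_fastR supQ_good conQ_good rfl hp parts5.2.2.2.2.2.2.2.2.2.2.2.1

theorem ok90 (hp : Packed lay 2205433454 root) :
    runPath (lay.con 2205433454 1) (chkL seg) [.d0 true, .d1 false, .d2 false, .d0 false, .d1 true, .d0 false, .d0 false, .d1 false, .d2 false, .d2 false, .d3 true, .d1 false] tree90 0 0 0 root = true :=
  runPath_of_fastR supQ_good conQ_good rfl hp parts5.2.2.2.2.2.2.2.2.2.2.2.2.1

theorem ok91 (hp : Packed lay 2205433454 root) :
    runPath (lay.con 2205433454 1) (chkL seg) [.d0 true, .d1 false, .d2 false, .d0 false, .d1 true, .d0 false, .d0 false, .d1 false, .d2 false, .d2 false, .d3 true, .d1 true, .d3 false] tree91 0 0 0 root = true :=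
  runPath_of_fastR supQ_good conQ_good rfl hp parts5.2.2.2.2.2.2.2.2.2.2.2.2.2.1

theorem ok92 (hp : Packed lay 2205433454 root) :
    runPath (lay.con 2205433454 1) (chkL seg) [.d0 true, .d1 false, .d2 false, .d0 false, .d1 true, .d0 false, .d0 false, .d1 false, .d2 false, .d2 false, .d3 true, .d1 true, .d3 true, .d0 false] tree92 0 0 0 root = true :=
  runPath_of_fastR supQ_good conQ_good rfl hp parts5.2.2.2.2.2.2.2.2.2.2.2.2.2.2

theorem ok93 (hp : Packed lay 2205433454 root) :
    runPath (lay.con 2205433454 1) (chkL seg) [.d0 true, .d1 false, .d2 false, .d0 false, .d1 true, .d0 false, .d0 false, .d1 false, .d2 false, .d2 false, .d3 true, .d1 true, .d3 true, .d0 true] tree93 0 0 0 root = true :=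
  runPath_of_fastR supQ_good conQ_good rfl hp parts6.1

theorem ok94 (hp : Packed lay 2205433454 root) :
    runPath (lay.con 2205433454 1) (chkL seg) [.d0 true, .d1 false, .d2 false, .d0 false, .d1 true, .d0 false, .d0 false, .d1 false, .d2 false, .d2 true] tree94 0 0 0 root = true :=
  runPath_of_fastR supQ_good conQ_good rfl hp parts6.2.1

theorem ok95 (hp : Packed lay 2205433454 root) :
    runPath (lay.con 2205433454 1) (chkL seg) [.d0 true, .d1 false, .d2 false, .d0 false, .d1 true, .d0 false, .d0 false, .d1 false, .d2 true] tree95 0 0 0 root = true :=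
  runPath_of_fastR supQ_good conQ_good rfl hp parts6.2.2.1

theorem ok96 (hp : Packed lay 2205433454 root) :
    runPath (lay.con 2205433454 1) (chkL seg) [.d0 true, .d1 false, .d2 false, .d0 false, .d1 true, .d0 false, .d0 false, .d1 true, .d2 false, .d2 false, .d3 false, .d0 false, .d3 false, .d1 false, .d3 false] tree96 0 0 0 root = true :=
  runPath_of_fastR supQ_good conQ_good rfl hp parts6.2.2.2.1

theorem ok97 (hp : Packed lay 2205433454 root) :
    runPath (lay.con 2205433454 1) (chkL seg) [.d0 true, .d1 false, .d2 false, .d0 false, .d1 true, .d0 false, .d0 false, .d1 true, .d2 false, .d2 false, .d3 false, .d0 false, .d3 false, .d1 false, .d3 true] tree97 0 0 0 root = true :=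
  runPath_of_fastR supQ_good conQ_good rfl hp parts6.2.2.2.2.1

theorem ok98 (hp : Packed lay 2205433454 root) :
    runPath (lay.con 2205433454 1) (chkL seg) [.d0 true, .d1 false, .d2 false, .d0 false, .d1 true, .d0 false, .d0 false, .d1 true, .d2 false, .d2 false, .d3 false, .d0 false, .d3 false, .d1 true] tree98 0 0 0 root = true :=
  runPath_of_fastR supQ_good conQ_good rfl hp parts6.2.2.2.2.2.1

theorem ok99 (hp : Packed lay 2205433454 root) :
    runPath (lay.con 2205433454 1) (chkL seg) [.d0 true, .d1 false, .d2 false, .d0 false, .d1 true, .d0 false, .d0 false, .d1 true, .d2 false, .d2 false, .d3 false, .d0 false, .d3 true, .d1 false, .d3 false] tree99 0 0 0 root = true :=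
  runPath_of_fastR supQ_good conQ_good rfl hp parts6.2.2.2.2.2.2.1

theorem ok100 (hp : Packed lay 2205433454 root) :
    runPath (lay.con 2205433454 1) (chkL seg) [.d0 true, .d1 false, .d2 false, .d0 false, .d1 true, .d0 false, .d0 false, .d1 true, .d2 false, .d2 false, .d3 false, .d0 false, .d3 true, .d1 false, .d3 true] tree100 0 0 0 root = true :=
  runPath_of_fastR supQ_good conQ_good rfl hp parts6.2.2.2.2.2.2.2.1

theorem ok101 (hp : Packed lay 2205433454 root) :
    runPath (lay.con 2205433454 1) (chkL seg) [.d0 true, .d1 false, .d2 false, .d0 false, .d1 true, .d0 false, .d0 false, .d1 true, .d2 false, .d2 false, .d3 false, .d0 false, .d3 true, .d1 true] tree101 0 0 0 root = true :=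
  runPath_of_fastR supQ_good conQ_good rfl hp parts6.2.2.2.2.2.2.2.2.1

theorem ok102 (hp : Packed lay 2205433454 root) :
    runPath (lay.con 2205433454 1) (chkL seg) [.d0 true, .d1 false, .d2 false, .d0 false, .d1 true, .d0 false, .d0 false, .d1 true, .d2 false, .d2 false, .d3 false, .d0 true, .d3 false] tree102 0 0 0 root = true :=
  runPath_of_fastR supQ_good conQ_good rfl hp parts6.2.2.2.2.2.2.2.2.2.1

theorem ok103 (hp : Packed lay 2205433454 root) :
    runPath (lay.con 2205433454 1) (chkL seg) [.d0 true, .d1 false, .d2 false, .d0 false, .d1 true, .d0 false, .d0 false, .d1 true, .d2 false, .d2 false, .d3 false, .d0 true, .d3 true, .d1 false] tree103 0 0 0 root = true :=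
  runPath_of_fastR supQ_good conQ_good rfl hp parts6.2.2.2.2.2.2.2.2.2.2.1

theorem ok104 (hp : Packed lay 2205433454 root) :
    runPath (lay.con 2205433454 1) (chkL seg) [.d0 true, .d1 false, .d2 false, .d0 false, .d1 true, .d0 false, .d0 false, .d1 true, .d2 false, .d2 false, .d3 false, .d0 true, .d3 true, .d1 true] tree104 0 0 0 root = true :=
  runPath_of_fastR supQ_good conQ_good rfl hp parts6.2.2.2.2.2.2.2.2.2.2.2.1

theorem ok105 (hp : Packed lay 2205433454 root) :
    runPath (lay.con 2205433454 1) (chkL seg) [.d0 true, .d1 false, .d2 false, .d0 false, .d1 true, .d0 false, .d0 false, .d1 true, .d2 false, .d2 false, .d3 true, .d3 false, .d0 false, .d1 false, .d3 false] tree105 0 0 0 root = true :=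
  runPath_of_fastR supQ_good conQ_good rfl hp parts6.2.2.2.2.2.2.2.2.2.2.2.2.1

theorem ok106 (hp : Packed lay 2205433454 root) :
    runPath (lay.con 2205433454 1) (chkL seg) [.d0 true, .d1 false, .d2 false, .d0 false, .d1 true, .d0 false, .d0 false, .d1 true, .d2 false, .d2 false, .d3 true, .d3 false, .d0 false, .d1 false, .d3 true] tree106 0 0 0 root = true :=
  runPath_of_fastR supQ_good conQ_good rfl hp parts6.2.2.2.2.2.2.2.2.2.2.2.2.2.1

theorem ok107 (hp : Packed lay 2205433454 root) :
    runPath (lay.con 2205433454 1) (chkL seg) [.d0 true, .d1 false, .d2 false, .d0 false, .d1 true, .d0 false, .d0 false, .d1 true, .d2 false, .d2 false, .d3 true, .d3 false, .d0 false, .d1 true] tree107 0 0 0 root = true :=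
  runPath_of_fastR supQ_good conQ_good rfl hp parts6.2.2.2.2.2.2.2.2.2.2.2.2.2.2

theorem ok108 (hp : Packed lay 2205433454 root) :
    runPath (lay.con 2205433454 1) (chkL seg) [.d0 true, .d1 false, .d2 false, .d0 false, .d1 true, .d0 false, .d0 false, .d1 true, .d2 false, .d2 false, .d3 true, .d3 false, .d0 true, .d1 false] tree108 0 0 0 root = true :=
  runPath_of_fastR supQ_good conQ_good rfl hp parts7.1

theorem ok109 (hp : Packed lay 2205433454 root) :
    runPath (lay.con 2205433454 1) (chkL seg) [.d0 true, .d1 false, .d2 false, .d0 false, .d1 true, .d0 false, .d0 false, .d1 true, .d2 false, .d2 false, .d3 true, .d3 false, .d0 true, .d1 true] tree109 0 0 0 root = true :=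
  runPath_of_fastR supQ_good conQ_good rfl hp parts7.2.1

theorem ok110 (hp : Packed lay 2205433454 root) :
    runPath (lay.con 2205433454 1) (chkL seg) [.d0 true, .d1 false, .d2 false, .d0 false, .d1 true, .d0 false, .d0 false, .d1 true, .d2 false, .d2 false, .d3 true, .d3 true, .d0 false, .d1 false] tree110 0 0 0 root = true :=
  runPath_of_fastR supQ_good conQ_good rfl hp parts7.2.2.1

theorem ok111 (hp : Packed lay 2205433454 root) :
    runPath (lay.con 2205433454 1) (chkL seg) [.d0 true, .d1 false, .d2 false, .d0 false, .d1 true, .d0 false, .d0 false, .d1 true, .d2 false, .d2 false, .d3 true, .d3 true, .d0 false, .d1 true] tree111 0 0 0 root = true :=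
  runPath_of_fastR supQ_good conQ_good rfl hp parts7.2.2.2.1

theorem ok112 (hp : Packed lay 2205433454 root) :
    runPath (lay.con 2205433454 1) (chkL seg) [.d0 true, .d1 false, .d2 false, .d0 false, .d1 true, .d0 false, .d0 false, .d1 true, .d2 false, .d2 false, .d3 true, .d3 true, .d0 true, .d1 false] tree112 0 0 0 root = true :=
  runPath_of_fastR supQ_good conQ_good rfl hp parts7.2.2.2.2.1

theorem ok113 (hp : Packed lay 2205433454 root) :
    runPath (lay.con 2205433454 1) (chkL seg) [.d0 true, .d1 false, .d2 false, .d0 false, .d1 true, .d0 false, .d0 false, .d1 true, .d2 false, .d2 false, .d3 true, .d3 true, .d0 true, .d1 true] tree113 0 0 0 root = true :=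
  runPath_of_fastR supQ_good conQ_good rfl hp parts7.2.2.2.2.2.1

theorem ok114 (hp : Packed lay 2205433454 root) :
    runPath (lay.con 2205433454 1) (chkL seg) [.d0 true, .d1 false, .d2 false, .d0 false, .d1 true, .d0 false, .d0 false, .d1 true, .d2 false, .d2 true, .d3 false, .d0 false] tree114 0 0 0 root = true :=
  runPath_of_fastR supQ_good conQ_good rfl hp parts7.2.2.2.2.2.2.1

theorem ok115 (hp : Packed lay 2205433454 root) :
    runPath (lay.con 2205433454 1) (chkL seg) [.d0 true, .d1 false, .d2 false, .d0 false, .d1 true, .d0 false, .d0 false, .d1 true, .d2 false, .d2 true, .d3 false, .d0 true] tree115 0 0 0 root = true :=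
  runPath_of_fastR supQ_good conQ_good rfl hp parts7.2.2.2.2.2.2.2.1

theorem ok116 (hp : Packed lay 2205433454 root) :
    runPath (lay.con 2205433454 1) (chkL seg) [.d0 true, .d1 false, .d2 false, .d0 false, .d1 true, .d0 false, .d0 false, .d1 true, .d2 false, .d2 true, .d3 true, .d3 false] tree116 0 0 0 root = true :=
  runPath_of_fastR supQ_good conQ_good rfl hp parts7.2.2.2.2.2.2.2.2.1

theorem ok117 (hp : Packed lay 2205433454 root) :
    runPath (lay.con 2205433454 1) (chkL seg) [.d0 true, .d1 false, .d2 false, .d0 false, .d1 true, .d0 false, .d0 false, .d1 true, .d2 false, .d2 true, .d3 true, .d3 true] tree117 0 0 0 root = true :=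
  runPath_of_fastR supQ_good conQ_good rfl hp parts7.2.2.2.2.2.2.2.2.2.1

theorem ok118 (hp : Packed lay 2205433454 root) :
    runPath (lay.con 2205433454 1) (chkL seg) [.d0 true, .d1 false, .d2 false, .d0 false, .d1 true, .d0 false, .d0 false, .d1 true, .d2 true] tree118 0 0 0 root = true :=
  runPath_of_fastR supQ_good conQ_good rfl hp parts7.2.2.2.2.2.2.2.2.2.2.1

theorem ok119 (hp : Packed lay 2205433454 root) :
    runPath (lay.con 2205433454 1) (chkL seg) [.d0 true, .d1 false, .d2 false, .d0 false, .d1 true, .d0 false, .d0 true, .d1 false] tree119 0 0 0 root = true :=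
  runPath_of_fastR supQ_good conQ_good rfl hp parts7.2.2.2.2.2.2.2.2.2.2.2.1

theorem ok120 (hp : Packed lay 2205433454 root) :
    runPath (lay.con 2205433454 1) (chkL seg) [.d0 true, .d1 false, .d2 false, .d0 false, .d1 true, .d0 false, .d0 true, .d1 true, .d3 false, .d2 false] tree120 0 0 0 root = true :=
  runPath_of_fastR supQ_good conQ_good rfl hp parts7.2.2.2.2.2.2.2.2.2.2.2.2.1

theorem ok121 (hp : Packed lay 2205433454 root) :
    runPath (lay.con 2205433454 1) (chkL seg) [.d0 true, .d1 false, .d2 false, .d0 false, .d1 true, .d0 false, .d0 true, .d1 true, .d3 false, .d2 true] tree121 0 0 0 root = true :=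
  runPath_of_fastR supQ_good conQ_good rfl hp parts7.2.2.2.2.2.2.2.2.2.2.2.2.2.1

theorem ok122 (hp : Packed lay 2205433454 root) :
    runPath (lay.con 2205433454 1) (chkL seg) [.d0 true, .d1 false, .d2 false, .d0 false, .d1 true, .d0 false, .d0 true, .d1 true, .d3 true, .d2 false, .d2 false, .d3 false] tree122 0 0 0 root = true :=
  runPath_of_fastR supQ_good conQ_good rfl hp parts7.2.2.2.2.2.2.2.2.2.2.2.2.2.2

theorem ok123 (hp : Packed lay 2205433454 root) :
    runPath (lay.con 2205433454 1) (chkL seg) [.d0 true, .d1 false, .d2 false, .d0 false, .d1 true, .d0 false, .d0 true, .d1 true, .d3 true, .d2 false, .d2 false, .d3 true] tree123 0 0 0 root = true :=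
  runPath_of_fastR supQ_good conQ_good rfl hp parts8.1

theorem ok124 (hp : Packed lay 2205433454 root) :
    runPath (lay.con 2205433454 1) (chkL seg) [.d0 true, .d1 false, .d2 false, .d0 false, .d1 true, .d0 false, .d0 true, .d1 true, .d3 true, .d2 false, .d2 true] tree124 0 0 0 root = true :=
  runPath_of_fastR supQ_good conQ_good rfl hp parts8.2.1

theorem ok125 (hp : Packed lay 2205433454 root) :
    runPath (lay.con 2205433454 1) (chkL seg) [.d0 true, .d1 false, .d2 false, .d0 false, .d1 true, .d0 false, .d0 true, .d1 true, .d3 true, .d2 true] tree125 0 0 0 root = true :=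
  runPath_of_fastR supQ_good conQ_good rfl hp parts8.2.2.1

theorem ok126 (hp : Packed lay 2205433454 root) :
    runPath (lay.con 2205433454 1) (chkL seg) [.d0 true, .d1 false, .d2 false, .d0 false, .d1 true, .d0 true] tree126 0 0 0 root = true :=
  runPath_of_fastR supQ_good conQ_good rfl hp parts8.2.2.2.1

theorem ok127 (hp : Packed lay 2205433454 root) :
    runPath (lay.con 2205433454 1) (chkL seg) [.d0 true, .d1 false, .d2 false, .d0 true] tree127 0 0 0 root = true :=
  runPath_of_fastR supQ_good conQ_good rfl hp parts8.2.2.2.2.1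

theorem ok128 (hp : Packed lay 2205433454 root) :
    runPath (lay.con 2205433454 1) (chkL seg) [.d0 true, .d1 false, .d2 true, .d0 false, .d1 false] tree128 0 0 0 root = true :=
  runPath_of_fastR supQ_good conQ_good rfl hp parts8.2.2.2.2.2.1

theorem ok129 (hp : Packed lay 2205433454 root) :
    runPath (lay.con 2205433454 1) (chkL seg) [.d0 true, .d1 false, .d2 true, .d0 false, .d1 true, .d2 false] tree129 0 0 0 root = true :=
  runPath_of_fastR supQ_good conQ_good rfl hp parts8.2.2.2.2.2.2.1

theorem ok130 (hp : Packed lay 2205433454 root) :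
    runPath (lay.con 2205433454 1) (chkL seg) [.d0 true, .d1 false, .d2 true, .d0 false, .d1 true, .d2 true] tree130 0 0 0 root = true :=
  runPath_of_fastR supQ_good conQ_good rfl hp parts8.2.2.2.2.2.2.2.1

theorem ok131 (hp : Packed lay 2205433454 root) :
    runPath (lay.con 2205433454 1) (chkL seg) [.d0 true, .d1 false, .d2 true, .d0 true] tree131 0 0 0 root = true :=
  runPath_of_fastR supQ_good conQ_good rfl hp parts8.2.2.2.2.2.2.2.2.1

theorem ok132 (hp : Packed lay 2205433454 root) :
    runPath (lay.con 2205433454 1) (chkL seg) [.d0 true, .d1 true, .d2 false, .d0 false, .d1 false, .d0 false, .d2 false, .d1 false, .d0 false, .d3 false, .d1 false, .d0 false] tree132 0 0 0 root = true :=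
  runPath_of_fastR supQ_good conQ_good rfl hp parts8.2.2.2.2.2.2.2.2.2.1

theorem ok133 (hp : Packed lay 2205433454 root) :
    runPath (lay.con 2205433454 1) (chkL seg) [.d0 true, .d1 true, .d2 false, .d0 false, .d1 false, .d0 false, .d2 false, .d1 false, .d0 false, .d3 false, .d1 false, .d0 true] tree133 0 0 0 root = true :=
  runPath_of_fastR supQ_good conQ_good rfl hp parts8.2.2.2.2.2.2.2.2.2.2.1

theorem ok134 (hp : Packed lay 2205433454 root) :
    runPath (lay.con 2205433454 1) (chkL seg) [.d0 true, .d1 true, .d2 false, .d0 false, .d1 false, .d0 false, .d2 false, .d1 false, .d0 false, .d3 false, .d1 true] tree134 0 0 0 root = true :=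
  runPath_of_fastR supQ_good conQ_good rfl hp parts8.2.2.2.2.2.2.2.2.2.2.2.1

theorem ok135 (hp : Packed lay 2205433454 root) :
    runPath (lay.con 2205433454 1) (chkL seg) [.d0 true, .d1 true, .d2 false, .d0 false, .d1 false, .d0 false, .d2 false, .d1 false, .d0 false, .d3 true, .d1 false, .d3 false] tree135 0 0 0 root = true :=
  runPath_of_fastR supQ_good conQ_good rfl hp parts8.2.2.2.2.2.2.2.2.2.2.2.2.1

theorem ok136 (hp : Packed lay 2205433454 root) :
    runPath (lay.con 2205433454 1) (chkL seg) [.d0 true, .d1 true, .d2 false, .d0 false, .d1 false, .d0 false, .d2 false, .d1 false, .d0 false, .d3 true, .d1 false, .d3 true] tree136 0 0 0 root = true :=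
  runPath_of_fastR supQ_good conQ_good rfl hp parts8.2.2.2.2.2.2.2.2.2.2.2.2.2.1

theorem ok137 (hp : Packed lay 2205433454 root) :
    runPath (lay.con 2205433454 1) (chkL seg) [.d0 true, .d1 true, .d2 false, .d0 false, .d1 false, .d0 false, .d2 false, .d1 false, .d0 false, .d3 true, .d1 true] tree137 0 0 0 root = true :=
  runPath_of_fastR supQ_good conQ_good rfl hp parts8.2.2.2.2.2.2.2.2.2.2.2.2.2.2.1

theorem ok138 (hp : Packed lay 2205433454 root) :
    runPath (lay.con 2205433454 1) (chkL seg) [.d0 true, .d1 true, .d2 false, .d0 false, .d1 false, .d0 false, .d2 false, .d1 false, .d0 true, .d3 false, .d3 false] tree138 0 0 0 root = true :=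
  runPath_of_fastR supQ_good conQ_good rfl hp parts8.2.2.2.2.2.2.2.2.2.2.2.2.2.2.2.1

theorem ok139 (hp : Packed lay 2205433454 root) :
    runPath (lay.con 2205433454 1) (chkL seg) [.d0 true, .d1 true, .d2 false, .d0 false, .d1 false, .d0 false, .d2 false, .d1 false, .d0 true, .d3 false, .d3 true] tree139 0 0 0 root = true :=
  runPath_of_fastR supQ_good conQ_good rfl hp parts8.2.2.2.2.2.2.2.2.2.2.2.2.2.2.2.2

theorem ok140 (hp : Packed lay 2205433454 root) :
    runPath (lay.con 2205433454 1) (chkL seg) [.d0 true, .d1 true, .d2 false, .d0 false, .d1 false, .d0 false, .d2 false, .d1 false, .d0 true, .d3 true, .d3 false] tree140 0 0 0 root = true :=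
  runPath_of_fastR supQ_good conQ_good rfl hp parts9.1

theorem ok141 (hp : Packed lay 2205433454 root) :
    runPath (lay.con 2205433454 1) (chkL seg) [.d0 true, .d1 true, .d2 false, .d0 false, .d1 false, .d0 false, .d2 false, .d1 false, .d0 true, .d3 true, .d3 true] tree141 0 0 0 root = true :=
  runPath_of_fastR supQ_good conQ_good rfl hp parts9.2.1

theorem ok142 (hp : Packed lay 2205433454 root) :
    runPath (lay.con 2205433454 1) (chkL seg) [.d0 true, .d1 true, .d2 false, .d0 false, .d1 false, .d0 false, .d2 false, .d1 true, .d3 false, .d0 false] tree142 0 0 0 root = true :=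
  runPath_of_fastR supQ_good conQ_good rfl hp parts9.2.2.1

theorem ok143 (hp : Packed lay 2205433454 root) :
    runPath (lay.con 2205433454 1) (chkL seg) [.d0 true, .d1 true, .d2 false, .d0 false, .d1 false, .d0 false, .d2 false, .d1 true, .d3 false, .d0 true] tree143 0 0 0 root = true :=
  runPath_of_fastR supQ_good conQ_good rfl hp parts9.2.2.2.1

theorem ok144 (hp : Packed lay 2205433454 root) :
    runPath (lay.con 2205433454 1) (chkL seg) [.d0 true, .d1 true, .d2 false, .d0 false, .d1 false, .d0 false, .d2 false, .d1 true, .d3 true, .d0 false] tree144 0 0 0 root = true :=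
  runPath_of_fastR supQ_good conQ_good rfl hp parts9.2.2.2.2.1

theorem ok145 (hp : Packed lay 2205433454 root) :
    runPath (lay.con 2205433454 1) (chkL seg) [.d0 true, .d1 true, .d2 false, .d0 false, .d1 false, .d0 false, .d2 false, .d1 true, .d3 true, .d0 true, .d2 false] tree145 0 0 0 root = true :=
  runPath_of_fastR supQ_good conQ_good rfl hp parts9.2.2.2.2.2.1

theorem ok146 (hp : Packed lay 2205433454 root) :
    runPath (lay.con 2205433454 1) (chkL seg) [.d0 true, .d1 true, .d2 false, .d0 false, .d1 false, .d0 false, .d2 false, .d1 true, .d3 true, .d0 true, .d2 true] tree146 0 0 0 root = true :=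
  runPath_of_fastR supQ_good conQ_good rfl hp parts9.2.2.2.2.2.2.1

theorem ok147 (hp : Packed lay 2205433454 root) :
    runPath (lay.con 2205433454 1) (chkL seg) [.d0 true, .d1 true, .d2 false, .d0 false, .d1 false, .d0 false, .d2 true, .d0 false, .d1 false] tree147 0 0 0 root = true :=
  runPath_of_fastR supQ_good conQ_good rfl hp parts9.2.2.2.2.2.2.2.1

theorem ok148 (hp : Packed lay 2205433454 root) :
    runPath (lay.con 2205433454 1) (chkL seg) [.d0 true, .d1 true, .d2 false, .d0 false, .d1 false, .d0 false, .d2 true, .d0 false, .d1 true] tree148 0 0 0 root = true :=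
  runPath_of_fastR supQ_good conQ_good rfl hp parts9.2.2.2.2.2.2.2.2.1

theorem ok149 (hp : Packed lay 2205433454 root) :
    runPath (lay.con 2205433454 1) (chkL seg) [.d0 true, .d1 true, .d2 false, .d0 false, .d1 false, .d0 false, .d2 true, .d0 true, .d1 false] tree149 0 0 0 root = true :=
  runPath_of_fastR supQ_good conQ_good rfl hp parts9.2.2.2.2.2.2.2.2.2.1

theorem ok150 (hp : Packed lay 2205433454 root) :
    runPath (lay.con 2205433454 1) (chkL seg) [.d0 true, .d1 true, .d2 false, .d0 false, .d1 false, .d0 false, .d2 true, .d0 true, .d1 true, .d3 false] tree150 0 0 0 root = true :=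
  runPath_of_fastR supQ_good conQ_good rfl hp parts9.2.2.2.2.2.2.2.2.2.2.1

theorem ok151 (hp : Packed lay 2205433454 root) :
    runPath (lay.con 2205433454 1) (chkL seg) [.d0 true, .d1 true, .d2 false, .d0 false, .d1 false, .d0 false, .d2 true, .d0 true, .d1 true, .d3 true] tree151 0 0 0 root = true :=
  runPath_of_fastR supQ_good conQ_good rfl hp parts9.2.2.2.2.2.2.2.2.2.2.2.1

theorem ok152 (hp : Packed lay 2205433454 root) :
    runPath (lay.con 2205433454 1) (chkL seg) [.d0 true, .d1 true, .d2 false, .d0 false, .d1 false, .d0 true, .d1 false] tree152 0 0 0 root = true :=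
  runPath_of_fastR supQ_good conQ_good rfl hp parts9.2.2.2.2.2.2.2.2.2.2.2.2

theorem ok153 (hp : Packed lay 2205433454 root) :
    runPath (lay.con 2205433454 1) (chkL seg) [.d0 true, .d1 true, .d2 false, .d0 false, .d1 false, .d0 true, .d1 true, .d3 false] tree153 0 0 0 root = true :=
  runPath_of_fastR supQ_good conQ_good rfl hp parts10.1

theorem ok154 (hp : Packed lay 2205433454 root) :
    runPath (lay.con 2205433454 1) (chkL seg) [.d0 true, .d1 true, .d2 false, .d0 false, .d1 false, .d0 true, .d1 true, .d3 true] tree154 0 0 0 root = true :=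
  runPath_of_fastR supQ_good conQ_good rfl hp parts10.2.1

theorem ok155 (hp : Packed lay 2205433454 root) :
    runPath (lay.con 2205433454 1) (chkL seg) [.d0 true, .d1 true, .d2 false, .d0 false, .d1 true, .d1 false, .d0 false, .d2 false] tree155 0 0 0 root = true :=
  runPath_of_fastR supQ_good conQ_good rfl hp parts10.2.2.1

theorem ok156 (hp : Packed lay 2205433454 root) :
    runPath (lay.con 2205433454 1) (chkL seg) [.d0 true, .d1 true, .d2 false, .d0 false, .d1 true, .d1 false, .d0 false, .d2 true, .d0 false] tree156 0 0 0 root = true :=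
  runPath_of_fastR supQ_good conQ_good rfl hp parts10.2.2.2.1

theorem ok157 (hp : Packed lay 2205433454 root) :
    runPath (lay.con 2205433454 1) (chkL seg) [.d0 true, .d1 true, .d2 false, .d0 false, .d1 true, .d1 false, .d0 false, .d2 true, .d0 true] tree157 0 0 0 root = true :=
  runPath_of_fastR supQ_good conQ_good rfl hp parts10.2.2.2.2.1

theorem ok158 (hp : Packed lay 2205433454 root) :
    runPath (lay.con 2205433454 1) (chkL seg) [.d0 true, .d1 true, .d2 false, .d0 false, .d1 true, .d1 false, .d0 true] tree158 0 0 0 root = true :=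
  runPath_of_fastR supQ_good conQ_good rfl hp parts10.2.2.2.2.2.1

theorem ok159 (hp : Packed lay 2205433454 root) :
    runPath (lay.con 2205433454 1) (chkL seg) [.d0 true, .d1 true, .d2 false, .d0 false, .d1 true, .d1 true] tree159 0 0 0 root = true :=
  runPath_of_fastR supQ_good conQ_good rfl hp parts10.2.2.2.2.2.2.1

theorem ok160 (hp : Packed lay 2205433454 root) :
    runPath (lay.con 2205433454 1) (chkL seg) [.d0 true, .d1 true, .d2 false, .d0 true] tree160 0 0 0 root = true :=
  runPath_of_fastR supQ_good conQ_good rfl hp parts10.2.2.2.2.2.2.2.1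

theorem ok161 (hp : Packed lay 2205433454 root) :
    runPath (lay.con 2205433454 1) (chkL seg) [.d0 true, .d1 true, .d2 true, .d0 false, .d1 false, .d0 false] tree161 0 0 0 root = true :=
  runPath_of_fastR supQ_good conQ_good rfl hp parts10.2.2.2.2.2.2.2.2.1

theorem ok162 (hp : Packed lay 2205433454 root) :
    runPath (lay.con 2205433454 1) (chkL seg) [.d0 true, .d1 true, .d2 true, .d0 false, .d1 false, .d0 true] tree162 0 0 0 root = true :=
  runPath_of_fastR supQ_good conQ_good rfl hp parts10.2.2.2.2.2.2.2.2.2.1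

theorem ok163 (hp : Packed lay 2205433454 root) :
    runPath (lay.con 2205433454 1) (chkL seg) [.d0 true, .d1 true, .d2 true, .d0 false, .d1 true] tree163 0 0 0 root = true :=
  runPath_of_fastR supQ_good conQ_good rfl hp parts10.2.2.2.2.2.2.2.2.2.2.1

theorem ok164 (hp : Packed lay 2205433454 root) :
    runPath (lay.con 2205433454 1) (chkL seg) [.d0 true, .d1 true, .d2 true, .d0 true] tree164 0 0 0 root = true :=
  runPath_of_fastR supQ_good conQ_good rfl hp parts10.2.2.2.2.2.2.2.2.2.2.2

theorem tree_ok (hp : Packed lay 2205433454 root) :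
    ∃ T, run (lay.con 2205433454 1) (chkL seg) T 0 0 0 root = true :=
  ⟨_, run_of_runPath (runPath_node (.d0 false) [] _ _ _ _ _ _
    (runPath_node (.d1 false) [.d0 false] _ _ _ _ _ _
    (runPath_node (.d2 false) [.d0 false, .d1 false] _ _ _ _ _ _
    (runPath_node (.d0 false) [.d0 false, .d1 false, .d2 false] _ _ _ _ _ _
    (ok0 hp)
    (runPath_node (.d1 false) [.d0 false, .d1 false, .d2 false, .d0 true] _ _ _ _ _ _
    (runPath_node (.d2 false) [.d0 false, .d1 false, .d2 false, .d0 true, .d1 false] _ _ _ _ _ _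
    (runPath_node (.d0 false) [.d0 false, .d1 false, .d2 false, .d0 true, .d1 false, .d2 false] _ _ _ _ _ _
    (runPath_node (.d1 false) [.d0 false, .d1 false, .d2 false, .d0 true, .d1 false, .d2 false, .d0 false] _ _ _ _ _ _
    (runPath_node (.d0 false) [.d0 false, .d1 false, .d2 false, .d0 true, .d1 false, .d2 false, .d0 false, .d1 false] _ _ _ _ _ _
    (ok1 hp)
    (runPath_node (.d1 false) [.d0 false, .d1 false, .d2 false, .d0 true, .d1 false, .d2 false, .d0 false, .d1 false, .d0 true] _ _ _ _ _ _
    (ok2 hp)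
    (runPath_node (.d0 false) [.d0 false, .d1 false, .d2 false, .d0 true, .d1 false, .d2 false, .d0 false, .d1 false, .d0 true, .d1 true] _ _ _ _ _ _
    (ok3 hp)
    (runPath_node (.d2 false) [.d0 false, .d1 false, .d2 false, .d0 true, .d1 false, .d2 false, .d0 false, .d1 false, .d0 true, .d1 true, .d0 true] _ _ _ _ _ _
    (ok4 hp)
    (ok5 hp)))))
    (ok6 hp))
    (runPath_node (.d1 false) [.d0 false, .d1 false, .d2 false, .d0 true, .d1 false, .d2 false, .d0 true] _ _ _ _ _ _
    (runPath_node (.d1 false) [.d0 false, .d1 false, .d2 false, .d0 true, .d1 false, .d2 false, .d0 true, .d1 false] _ _ _ _ _ _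
    (ok7 hp)
    (runPath_node (.d0 false) [.d0 false, .d1 false, .d2 false, .d0 true, .d1 false, .d2 false, .d0 true, .d1 false, .d1 true] _ _ _ _ _ _
    (runPath_node (.d0 false) [.d0 false, .d1 false, .d2 false, .d0 true, .d1 false, .d2 false, .d0 true, .d1 false, .d1 true, .d0 false] _ _ _ _ _ _
    (runPath_node (.d2 false) [.d0 false, .d1 false, .d2 false, .d0 true, .d1 false, .d2 false, .d0 true, .d1 false, .d1 true, .d0 false, .d0 false] _ _ _ _ _ _
    (runPath_node (.d3 false) [.d0 false, .d1 false, .d2 false, .d0 true, .d1 false, .d2 false, .d0 true, .d1 false, .d1 true, .d0 false, .d0 false, .d2 false] _ _ _ _ _ _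
    (ok8 hp)
    (ok9 hp))
    (ok10 hp))
    (ok11 hp))
    (ok12 hp)))
    (runPath_node (.d0 false) [.d0 false, .d1 false, .d2 false, .d0 true, .d1 false, .d2 false, .d0 true, .d1 true] _ _ _ _ _ _
    (runPath_node (.d0 false) [.d0 false, .d1 false, .d2 false, .d0 true, .d1 false, .d2 false, .d0 true, .d1 true, .d0 false] _ _ _ _ _ _
    (runPath_node (.d3 false) [.d0 false, .d1 false, .d2 false, .d0 true, .d1 false, .d2 false, .d0 true, .d1 true, .d0 false, .d0 false] _ _ _ _ _ _
    (ok13 hp)
    (ok14 hp))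
    (runPath_node (.d1 false) [.d0 false, .d1 false, .d2 false, .d0 true, .d1 false, .d2 false, .d0 true, .d1 true, .d0 false, .d0 true] _ _ _ _ _ _
    (ok15 hp)
    (ok16 hp)))
    (runPath_node (.d0 false) [.d0 false, .d1 false, .d2 false, .d0 true, .d1 false, .d2 false, .d0 true, .d1 true, .d0 true] _ _ _ _ _ _
    (runPath_node (.d3 false) [.d0 false, .d1 false, .d2 false, .d0 true, .d1 false, .d2 false, .d0 true, .d1 true, .d0 true, .d0 false] _ _ _ _ _ _
    (ok17 hp)
    (ok18 hp))
    (ok19 hp)))))
    (runPath_node (.d0 false) [.d0 false, .d1 false, .d2 false, .d0 true, .d1 false, .d2 true] _ _ _ _ _ _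
    (ok20 hp)
    (runPath_node (.d1 false) [.d0 false, .d1 false, .d2 false, .d0 true, .d1 false, .d2 true, .d0 true] _ _ _ _ _ _
    (ok21 hp)
    (runPath_node (.d0 false) [.d0 false, .d1 false, .d2 false, .d0 true, .d1 false, .d2 true, .d0 true, .d1 true] _ _ _ _ _ _
    (ok22 hp)
    (ok23 hp)))))
    (runPath_node (.d2 false) [.d0 false, .d1 false, .d2 false, .d0 true, .d1 true] _ _ _ _ _ _
    (runPath_node (.d0 false) [.d0 false, .d1 false, .d2 false, .d0 true, .d1 true, .d2 false] _ _ _ _ _ _
    (ok24 hp)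
    (runPath_node (.d1 false) [.d0 false, .d1 false, .d2 false, .d0 true, .d1 true, .d2 false, .d0 true] _ _ _ _ _ _
    (runPath_node (.d0 false) [.d0 false, .d1 false, .d2 false, .d0 true, .d1 true, .d2 false, .d0 true, .d1 false] _ _ _ _ _ _
    (runPath_node (.d0 false) [.d0 false, .d1 false, .d2 false, .d0 true, .d1 true, .d2 false, .d0 true, .d1 false, .d0 false] _ _ _ _ _ _
    (ok25 hp)
    (runPath_node (.d3 false) [.d0 false, .d1 false, .d2 false, .d0 true, .d1 true, .d2 false, .d0 true, .d1 false, .d0 false, .d0 true] _ _ _ _ _ _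
    (runPath_node (.d3 false) [.d0 false, .d1 false, .d2 false, .d0 true, .d1 true, .d2 false, .d0 true, .d1 false, .d0 false, .d0 true, .d3 false] _ _ _ _ _ _
    (ok26 hp)
    (ok27 hp))
    (runPath_node (.d1 false) [.d0 false, .d1 false, .d2 false, .d0 true, .d1 true, .d2 false, .d0 true, .d1 false, .d0 false, .d0 true, .d3 true] _ _ _ _ _ _
    (ok28 hp)
    (ok29 hp))))
    (runPath_node (.d1 false) [.d0 false, .d1 false, .d2 false, .d0 true, .d1 true, .d2 false, .d0 true, .d1 false, .d0 true] _ _ _ _ _ _
    (runPath_node (.d3 false) [.d0 false, .d1 false, .d2 false, .d0 true, .d1 true, .d2 false, .d0 true, .d1 false, .d0 true, .d1 false] _ _ _ _ _ _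
    (runPath_node (.d0 false) [.d0 false, .d1 false, .d2 false, .d0 true, .d1 true, .d2 false, .d0 true, .d1 false, .d0 true, .d1 false, .d3 false] _ _ _ _ _ _
    (ok30 hp)
    (ok31 hp))
    (runPath_node (.d3 false) [.d0 false, .d1 false, .d2 false, .d0 true, .d1 true, .d2 false, .d0 true, .d1 false, .d0 true, .d1 false, .d3 true] _ _ _ _ _ _
    (ok32 hp)
    (runPath_node (.d0 false) [.d0 false, .d1 false, .d2 false, .d0 true, .d1 true, .d2 false, .d0 true, .d1 false, .d0 true, .d1 false, .d3 true, .d3 true] _ _ _ _ _ _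
    (ok33 hp)
    (ok34 hp))))
    (runPath_node (.d3 false) [.d0 false, .d1 false, .d2 false, .d0 true, .d1 true, .d2 false, .d0 true, .d1 false, .d0 true, .d1 true] _ _ _ _ _ _
    (runPath_node (.d0 false) [.d0 false, .d1 false, .d2 false, .d0 true, .d1 true, .d2 false, .d0 true, .d1 false, .d0 true, .d1 true, .d3 false] _ _ _ _ _ _
    (runPath_node (.d3 false) [.d0 false, .d1 false, .d2 false, .d0 true, .d1 true, .d2 false, .d0 true, .d1 false, .d0 true, .d1 true, .d3 false, .d0 false] _ _ _ _ _ _
    (ok35 hp)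
    (ok36 hp))
    (runPath_node (.d3 false) [.d0 false, .d1 false, .d2 false, .d0 true, .d1 true, .d2 false, .d0 true, .d1 false, .d0 true, .d1 true, .d3 false, .d0 true] _ _ _ _ _ _
    (runPath_node (.d2 false) [.d0 false, .d1 false, .d2 false, .d0 true, .d1 true, .d2 false, .d0 true, .d1 false, .d0 true, .d1 true, .d3 false, .d0 true, .d3 false] _ _ _ _ _ _
    (ok37 hp)
    (ok38 hp))
    (runPath_node (.d2 false) [.d0 false, .d1 false, .d2 false, .d0 true, .d1 true, .d2 false, .d0 true, .d1 false, .d0 true, .d1 true, .d3 false, .d0 true, .d3 true] _ _ _ _ _ _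
    (ok39 hp)
    (ok40 hp))))
    (runPath_node (.d0 false) [.d0 false, .d1 false, .d2 false, .d0 true, .d1 true, .d2 false, .d0 true, .d1 false, .d0 true, .d1 true, .d3 true] _ _ _ _ _ _
    (runPath_node (.d2 false) [.d0 false, .d1 false, .d2 false, .d0 true, .d1 true, .d2 false, .d0 true, .d1 false, .d0 true, .d1 true, .d3 true, .d0 false] _ _ _ _ _ _
    (ok41 hp)
    (ok42 hp))
    (runPath_node (.d3 false) [.d0 false, .d1 false, .d2 false, .d0 true, .d1 true, .d2 false, .d0 true, .d1 false, .d0 true, .d1 true, .d3 true, .d0 true] _ _ _ _ _ _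
    (runPath_node (.d2 false) [.d0 false, .d1 false, .d2 false, .d0 true, .d1 true, .d2 false, .d0 true, .d1 false, .d0 true, .d1 true, .d3 true, .d0 true, .d3 false] _ _ _ _ _ _
    (ok43 hp)
    (ok44 hp))
    (runPath_node (.d2 false) [.d0 false, .d1 false, .d2 false, .d0 true, .d1 true, .d2 false, .d0 true, .d1 false, .d0 true, .d1 true, .d3 true, .d0 true, .d3 true] _ _ _ _ _ _
    (ok45 hp)
    (ok46 hp)))))))
    (runPath_node (.d0 false) [.d0 false, .d1 false, .d2 false, .d0 true, .d1 true, .d2 false, .d0 true, .d1 true] _ _ _ _ _ _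
    (ok47 hp)
    (runPath_node (.d3 false) [.d0 false, .d1 false, .d2 false, .d0 true, .d1 true, .d2 false, .d0 true, .d1 true, .d0 true] _ _ _ _ _ _
    (runPath_node (.d0 false) [.d0 false, .d1 false, .d2 false, .d0 true, .d1 true, .d2 false, .d0 true, .d1 true, .d0 true, .d3 false] _ _ _ _ _ _
    (runPath_node (.d1 false) [.d0 false, .d1 false, .d2 false, .d0 true, .d1 true, .d2 false, .d0 true, .d1 true, .d0 true, .d3 false, .d0 false] _ _ _ _ _ _
    (ok48 hp)
    (ok49 hp))
    (runPath_node (.d3 false) [.d0 false, .d1 false, .d2 false, .d0 true, .d1 true, .d2 false, .d0 true, .d1 true, .d0 true, .d3 false, .d0 true] _ _ _ _ _ _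
    (runPath_node (.d1 false) [.d0 false, .d1 false, .d2 false, .d0 true, .d1 true, .d2 false, .d0 true, .d1 true, .d0 true, .d3 false, .d0 true, .d3 false] _ _ _ _ _ _
    (runPath_node (.d2 false) [.d0 false, .d1 false, .d2 false, .d0 true, .d1 true, .d2 false, .d0 true, .d1 true, .d0 true, .d3 false, .d0 true, .d3 false, .d1 false] _ _ _ _ _ _
    (ok50 hp)
    (ok51 hp))
    (ok52 hp))
    (runPath_node (.d1 false) [.d0 false, .d1 false, .d2 false, .d0 true, .d1 true, .d2 false, .d0 true, .d1 true, .d0 true, .d3 false, .d0 true, .d3 true] _ _ _ _ _ _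
    (ok53 hp)
    (ok54 hp))))
    (runPath_node (.d3 false) [.d0 false, .d1 false, .d2 false, .d0 true, .d1 true, .d2 false, .d0 true, .d1 true, .d0 true, .d3 true] _ _ _ _ _ _
    (runPath_node (.d1 false) [.d0 false, .d1 false, .d2 false, .d0 true, .d1 true, .d2 false, .d0 true, .d1 true, .d0 true, .d3 true, .d3 false] _ _ _ _ _ _
    (ok55 hp)
    (ok56 hp))
    (runPath_node (.d1 false) [.d0 false, .d1 false, .d2 false, .d0 true, .d1 true, .d2 false, .d0 true, .d1 true, .d0 true, .d3 true, .d3 true] _ _ _ _ _ _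
    (ok57 hp)
    (ok58 hp)))))))
    (runPath_node (.d0 false) [.d0 false, .d1 false, .d2 false, .d0 true, .d1 true, .d2 true] _ _ _ _ _ _
    (ok59 hp)
    (runPath_node (.d1 false) [.d0 false, .d1 false, .d2 false, .d0 true, .d1 true, .d2 true, .d0 true] _ _ _ _ _ _
    (runPath_node (.d0 false) [.d0 false, .d1 false, .d2 false, .d0 true, .d1 true, .d2 true, .d0 true, .d1 false] _ _ _ _ _ _
    (runPath_node (.d0 false) [.d0 false, .d1 false, .d2 false, .d0 true, .d1 true, .d2 true, .d0 true, .d1 false, .d0 false] _ _ _ _ _ _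
    (ok60 hp)
    (runPath_node (.d3 false) [.d0 false, .d1 false, .d2 false, .d0 true, .d1 true, .d2 true, .d0 true, .d1 false, .d0 false, .d0 true] _ _ _ _ _ _
    (ok61 hp)
    (ok62 hp)))
    (runPath_node (.d3 false) [.d0 false, .d1 false, .d2 false, .d0 true, .d1 true, .d2 true, .d0 true, .d1 false, .d0 true] _ _ _ _ _ _
    (ok63 hp)
    (ok64 hp)))
    (runPath_node (.d0 false) [.d0 false, .d1 false, .d2 false, .d0 true, .d1 true, .d2 true, .d0 true, .d1 true] _ _ _ _ _ _
    (ok65 hp)
    (ok66 hp)))))))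
    (runPath_node (.d0 false) [.d0 false, .d1 false, .d2 true] _ _ _ _ _ _
    (runPath_node (.d1 false) [.d0 false, .d1 false, .d2 true, .d0 false] _ _ _ _ _ _
    (runPath_node (.d2 false) [.d0 false, .d1 false, .d2 true, .d0 false, .d1 false] _ _ _ _ _ _
    (ok67 hp)
    (runPath_node (.d1 false) [.d0 false, .d1 false, .d2 true, .d0 false, .d1 false, .d2 true] _ _ _ _ _ _
    (runPath_node (.d0 false) [.d0 false, .d1 false, .d2 true, .d0 false, .d1 false, .d2 true, .d1 false] _ _ _ _ _ _
    (runPath_node (.d0 false) [.d0 false, .d1 false, .d2 true, .d0 false, .d1 false, .d2 true, .d1 false, .d0 false] _ _ _ _ _ _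
    (ok68 hp)
    (runPath_node (.d1 false) [.d0 false, .d1 false, .d2 true, .d0 false, .d1 false, .d2 true, .d1 false, .d0 false, .d0 true] _ _ _ _ _ _
    (runPath_node (.d2 false) [.d0 false, .d1 false, .d2 true, .d0 false, .d1 false, .d2 true, .d1 false, .d0 false, .d0 true, .d1 false] _ _ _ _ _ _
    (ok69 hp)
    (runPath_node (.d0 false) [.d0 false, .d1 false, .d2 true, .d0 false, .d1 false, .d2 true, .d1 false, .d0 false, .d0 true, .d1 false, .d2 true] _ _ _ _ _ _
    (ok70 hp)
    (ok71 hp)))
    (ok72 hp)))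
    (ok73 hp))
    (ok74 hp)))
    (ok75 hp))
    (runPath_node (.d1 false) [.d0 false, .d1 false, .d2 true, .d0 true] _ _ _ _ _ _
    (runPath_node (.d2 false) [.d0 false, .d1 false, .d2 true, .d0 true, .d1 false] _ _ _ _ _ _
    (ok76 hp)
    (ok77 hp))
    (runPath_node (.d1 false) [.d0 false, .d1 false, .d2 true, .d0 true, .d1 true] _ _ _ _ _ _
    (runPath_node (.d0 false) [.d0 false, .d1 false, .d2 true, .d0 true, .d1 true, .d1 false] _ _ _ _ _ _
    (ok78 hp)
    (ok79 hp))
    (ok80 hp)))))
    (runPath_node (.d2 false) [.d0 false, .d1 true] _ _ _ _ _ _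
    (runPath_node (.d0 false) [.d0 false, .d1 true, .d2 false] _ _ _ _ _ _
    (ok81 hp)
    (runPath_node (.d1 false) [.d0 false, .d1 true, .d2 false, .d0 true] _ _ _ _ _ _
    (runPath_node (.d0 false) [.d0 false, .d1 true, .d2 false, .d0 true, .d1 false] _ _ _ _ _ _
    (ok82 hp)
    (ok83 hp))
    (ok84 hp)))
    (runPath_node (.d0 false) [.d0 false, .d1 true, .d2 true] _ _ _ _ _ _
    (ok85 hp)
    (ok86 hp))))
    (runPath_node (.d1 false) [.d0 true] _ _ _ _ _ _
    (runPath_node (.d2 false) [.d0 true, .d1 false] _ _ _ _ _ _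
    (runPath_node (.d0 false) [.d0 true, .d1 false, .d2 false] _ _ _ _ _ _
    (runPath_node (.d1 false) [.d0 true, .d1 false, .d2 false, .d0 false] _ _ _ _ _ _
    (ok87 hp)
    (runPath_node (.d0 false) [.d0 true, .d1 false, .d2 false, .d0 false, .d1 true] _ _ _ _ _ _
    (runPath_node (.d0 false) [.d0 true, .d1 false, .d2 false, .d0 false, .d1 true, .d0 false] _ _ _ _ _ _
    (runPath_node (.d1 false) [.d0 true, .d1 false, .d2 false, .d0 false, .d1 true, .d0 false, .d0 false] _ _ _ _ _ _
    (runPath_node (.d2 false) [.d0 true, .d1 false, .d2 false, .d0 false, .d1 true, .d0 false, .d0 false, .d1 false] _ _ _ _ _ _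
    (runPath_node (.d2 false) [.d0 true, .d1 false, .d2 false, .d0 false, .d1 true, .d0 false, .d0 false, .d1 false, .d2 false] _ _ _ _ _ _
    (runPath_node (.d3 false) [.d0 true, .d1 false, .d2 false, .d0 false, .d1 true, .d0 false, .d0 false, .d1 false, .d2 false, .d2 false] _ _ _ _ _ _
    (runPath_node (.d3 false) [.d0 true, .d1 false, .d2 false, .d0 false, .d1 true, .d0 false, .d0 false, .d1 false, .d2 false, .d2 false, .d3 false] _ _ _ _ _ _
    (ok88 hp)
    (ok89 hp))
    (runPath_node (.d1 false) [.d0 true, .d1 false, .d2 false, .d0 false, .d1 true, .d0 false, .d0 false, .d1 false, .d2 false, .d2 false, .d3 true] _ _ _ _ _ _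
    (ok90 hp)
    (runPath_node (.d3 false) [.d0 true, .d1 false, .d2 false, .d0 false, .d1 true, .d0 false, .d0 false, .d1 false, .d2 false, .d2 false, .d3 true, .d1 true] _ _ _ _ _ _
    (ok91 hp)
    (runPath_node (.d0 false) [.d0 true, .d1 false, .d2 false, .d0 false, .d1 true, .d0 false, .d0 false, .d1 false, .d2 false, .d2 false, .d3 true, .d1 true, .d3 true] _ _ _ _ _ _
    (ok92 hp)
    (ok93 hp)))))
    (ok94 hp))
    (ok95 hp))
    (runPath_node (.d2 false) [.d0 true, .d1 false, .d2 false, .d0 false, .d1 true, .d0 false, .d0 false, .d1 true] _ _ _ _ _ _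
    (runPath_node (.d2 false) [.d0 true, .d1 false, .d2 false, .d0 false, .d1 true, .d0 false, .d0 false, .d1 true, .d2 false] _ _ _ _ _ _
    (runPath_node (.d3 false) [.d0 true, .d1 false, .d2 false, .d0 false, .d1 true, .d0 false, .d0 false, .d1 true, .d2 false, .d2 false] _ _ _ _ _ _
    (runPath_node (.d0 false) [.d0 true, .d1 false, .d2 false, .d0 false, .d1 true, .d0 false, .d0 false, .d1 true, .d2 false, .d2 false, .d3 false] _ _ _ _ _ _
    (runPath_node (.d3 false) [.d0 true, .d1 false, .d2 false, .d0 false, .d1 true, .d0 false, .d0 false, .d1 true, .d2 false, .d2 false, .d3 false, .d0 false] _ _ _ _ _ _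
    (runPath_node (.d1 false) [.d0 true, .d1 false, .d2 false, .d0 false, .d1 true, .d0 false, .d0 false, .d1 true, .d2 false, .d2 false, .d3 false, .d0 false, .d3 false] _ _ _ _ _ _
    (runPath_node (.d3 false) [.d0 true, .d1 false, .d2 false, .d0 false, .d1 true, .d0 false, .d0 false, .d1 true, .d2 false, .d2 false, .d3 false, .d0 false, .d3 false, .d1 false] _ _ _ _ _ _
    (ok96 hp)
    (ok97 hp))
    (ok98 hp))
    (runPath_node (.d1 false) [.d0 true, .d1 false, .d2 false, .d0 false, .d1 true, .d0 false, .d0 false, .d1 true, .d2 false, .d2 false, .d3 false, .d0 false, .d3 true] _ _ _ _ _ _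
    (runPath_node (.d3 false) [.d0 true, .d1 false, .d2 false, .d0 false, .d1 true, .d0 false, .d0 false, .d1 true, .d2 false, .d2 false, .d3 false, .d0 false, .d3 true, .d1 false] _ _ _ _ _ _
    (ok99 hp)
    (ok100 hp))
    (ok101 hp)))
    (runPath_node (.d3 false) [.d0 true, .d1 false, .d2 false, .d0 false, .d1 true, .d0 false, .d0 false, .d1 true, .d2 false, .d2 false, .d3 false, .d0 true] _ _ _ _ _ _
    (ok102 hp)
    (runPath_node (.d1 false) [.d0 true, .d1 false, .d2 false, .d0 false, .d1 true, .d0 false, .d0 false, .d1 true, .d2 false, .d2 false, .d3 false, .d0 true, .d3 true] _ _ _ _ _ _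
    (ok103 hp)
    (ok104 hp))))
    (runPath_node (.d3 false) [.d0 true, .d1 false, .d2 false, .d0 false, .d1 true, .d0 false, .d0 false, .d1 true, .d2 false, .d2 false, .d3 true] _ _ _ _ _ _
    (runPath_node (.d0 false) [.d0 true, .d1 false, .d2 false, .d0 false, .d1 true, .d0 false, .d0 false, .d1 true, .d2 false, .d2 false, .d3 true, .d3 false] _ _ _ _ _ _
    (runPath_node (.d1 false) [.d0 true, .d1 false, .d2 false, .d0 false, .d1 true, .d0 false, .d0 false, .d1 true, .d2 false, .d2 false, .d3 true, .d3 false, .d0 false] _ _ _ _ _ _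
    (runPath_node (.d3 false) [.d0 true, .d1 false, .d2 false, .d0 false, .d1 true, .d0 false, .d0 false, .d1 true, .d2 false, .d2 false, .d3 true, .d3 false, .d0 false, .d1 false] _ _ _ _ _ _
    (ok105 hp)
    (ok106 hp))
    (ok107 hp))
    (runPath_node (.d1 false) [.d0 true, .d1 false, .d2 false, .d0 false, .d1 true, .d0 false, .d0 false, .d1 true, .d2 false, .d2 false, .d3 true, .d3 false, .d0 true] _ _ _ _ _ _
    (ok108 hp)
    (ok109 hp)))
    (runPath_node (.d0 false) [.d0 true, .d1 false, .d2 false, .d0 false, .d1 true, .d0 false, .d0 false, .d1 true, .d2 false, .d2 false, .d3 true, .d3 true] _ _ _ _ _ _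
    (runPath_node (.d1 false) [.d0 true, .d1 false, .d2 false, .d0 false, .d1 true, .d0 false, .d0 false, .d1 true, .d2 false, .d2 false, .d3 true, .d3 true, .d0 false] _ _ _ _ _ _
    (ok110 hp)
    (ok111 hp))
    (runPath_node (.d1 false) [.d0 true, .d1 false, .d2 false, .d0 false, .d1 true, .d0 false, .d0 false, .d1 true, .d2 false, .d2 false, .d3 true, .d3 true, .d0 true] _ _ _ _ _ _
    (ok112 hp)
    (ok113 hp)))))
    (runPath_node (.d3 false) [.d0 true, .d1 false, .d2 false, .d0 false, .d1 true, .d0 false, .d0 false, .d1 true, .d2 false, .d2 true] _ _ _ _ _ _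
    (runPath_node (.d0 false) [.d0 true, .d1 false, .d2 false, .d0 false, .d1 true, .d0 false, .d0 false, .d1 true, .d2 false, .d2 true, .d3 false] _ _ _ _ _ _
    (ok114 hp)
    (ok115 hp))
    (runPath_node (.d3 false) [.d0 true, .d1 false, .d2 false, .d0 false, .d1 true, .d0 false, .d0 false, .d1 true, .d2 false, .d2 true, .d3 true] _ _ _ _ _ _
    (ok116 hp)
    (ok117 hp))))
    (ok118 hp)))
    (runPath_node (.d1 false) [.d0 true, .d1 false, .d2 false, .d0 false, .d1 true, .d0 false, .d0 true] _ _ _ _ _ _
    (ok119 hp)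
    (runPath_node (.d3 false) [.d0 true, .d1 false, .d2 false, .d0 false, .d1 true, .d0 false, .d0 true, .d1 true] _ _ _ _ _ _
    (runPath_node (.d2 false) [.d0 true, .d1 false, .d2 false, .d0 false, .d1 true, .d0 false, .d0 true, .d1 true, .d3 false] _ _ _ _ _ _
    (ok120 hp)
    (ok121 hp))
    (runPath_node (.d2 false) [.d0 true, .d1 false, .d2 false, .d0 false, .d1 true, .d0 false, .d0 true, .d1 true, .d3 true] _ _ _ _ _ _
    (runPath_node (.d2 false) [.d0 true, .d1 false, .d2 false, .d0 false, .d1 true, .d0 false, .d0 true, .d1 true, .d3 true, .d2 false] _ _ _ _ _ _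
    (runPath_node (.d3 false) [.d0 true, .d1 false, .d2 false, .d0 false, .d1 true, .d0 false, .d0 true, .d1 true, .d3 true, .d2 false, .d2 false] _ _ _ _ _ _
    (ok122 hp)
    (ok123 hp))
    (ok124 hp))
    (ok125 hp)))))
    (ok126 hp)))
    (ok127 hp))
    (runPath_node (.d0 false) [.d0 true, .d1 false, .d2 true] _ _ _ _ _ _
    (runPath_node (.d1 false) [.d0 true, .d1 false, .d2 true, .d0 false] _ _ _ _ _ _
    (ok128 hp)
    (runPath_node (.d2 false) [.d0 true, .d1 false, .d2 true, .d0 false, .d1 true] _ _ _ _ _ _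
    (ok129 hp)
    (ok130 hp)))
    (ok131 hp)))
    (runPath_node (.d2 false) [.d0 true, .d1 true] _ _ _ _ _ _
    (runPath_node (.d0 false) [.d0 true, .d1 true, .d2 false] _ _ _ _ _ _
    (runPath_node (.d1 false) [.d0 true, .d1 true, .d2 false, .d0 false] _ _ _ _ _ _
    (runPath_node (.d0 false) [.d0 true, .d1 true, .d2 false, .d0 false, .d1 false] _ _ _ _ _ _
    (runPath_node (.d2 false) [.d0 true, .d1 true, .d2 false, .d0 false, .d1 false, .d0 false] _ _ _ _ _ _
    (runPath_node (.d1 false) [.d0 true, .d1 true, .d2 false, .d0 false, .d1 false, .d0 false, .d2 false] _ _ _ _ _ _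
    (runPath_node (.d0 false) [.d0 true, .d1 true, .d2 false, .d0 false, .d1 false, .d0 false, .d2 false, .d1 false] _ _ _ _ _ _
    (runPath_node (.d3 false) [.d0 true, .d1 true, .d2 false, .d0 false, .d1 false, .d0 false, .d2 false, .d1 false, .d0 false] _ _ _ _ _ _
    (runPath_node (.d1 false) [.d0 true, .d1 true, .d2 false, .d0 false, .d1 false, .d0 false, .d2 false, .d1 false, .d0 false, .d3 false] _ _ _ _ _ _
    (runPath_node (.d0 false) [.d0 true, .d1 true, .d2 false, .d0 false, .d1 false, .d0 false, .d2 false, .d1 false, .d0 false, .d3 false, .d1 false] _ _ _ _ _ _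
    (ok132 hp)
    (ok133 hp))
    (ok134 hp))
    (runPath_node (.d1 false) [.d0 true, .d1 true, .d2 false, .d0 false, .d1 false, .d0 false, .d2 false, .d1 false, .d0 false, .d3 true] _ _ _ _ _ _
    (runPath_node (.d3 false) [.d0 true, .d1 true, .d2 false, .d0 false, .d1 false, .d0 false, .d2 false, .d1 false, .d0 false, .d3 true, .d1 false] _ _ _ _ _ _
    (ok135 hp)
    (ok136 hp))
    (ok137 hp)))
    (runPath_node (.d3 false) [.d0 true, .d1 true, .d2 false, .d0 false, .d1 false, .d0 false, .d2 false, .d1 false, .d0 true] _ _ _ _ _ _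
    (runPath_node (.d3 false) [.d0 true, .d1 true, .d2 false, .d0 false, .d1 false, .d0 false, .d2 false, .d1 false, .d0 true, .d3 false] _ _ _ _ _ _
    (ok138 hp)
    (ok139 hp))
    (runPath_node (.d3 false) [.d0 true, .d1 true, .d2 false, .d0 false, .d1 false, .d0 false, .d2 false, .d1 false, .d0 true, .d3 true] _ _ _ _ _ _
    (ok140 hp)
    (ok141 hp))))
    (runPath_node (.d3 false) [.d0 true, .d1 true, .d2 false, .d0 false, .d1 false, .d0 false, .d2 false, .d1 true] _ _ _ _ _ _
    (runPath_node (.d0 false) [.d0 true, .d1 true, .d2 false, .d0 false, .d1 false, .d0 false, .d2 false, .d1 true, .d3 false] _ _ _ _ _ _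
    (ok142 hp)
    (ok143 hp))
    (runPath_node (.d0 false) [.d0 true, .d1 true, .d2 false, .d0 false, .d1 false, .d0 false, .d2 false, .d1 true, .d3 true] _ _ _ _ _ _
    (ok144 hp)
    (runPath_node (.d2 false) [.d0 true, .d1 true, .d2 false, .d0 false, .d1 false, .d0 false, .d2 false, .d1 true, .d3 true, .d0 true] _ _ _ _ _ _
    (ok145 hp)
    (ok146 hp)))))
    (runPath_node (.d0 false) [.d0 true, .d1 true, .d2 false, .d0 false, .d1 false, .d0 false, .d2 true] _ _ _ _ _ _
    (runPath_node (.d1 false) [.d0 true, .d1 true, .d2 false, .d0 false, .d1 false, .d0 false, .d2 true, .d0 false] _ _ _ _ _ _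
    (ok147 hp)
    (ok148 hp))
    (runPath_node (.d1 false) [.d0 true, .d1 true, .d2 false, .d0 false, .d1 false, .d0 false, .d2 true, .d0 true] _ _ _ _ _ _
    (ok149 hp)
    (runPath_node (.d3 false) [.d0 true, .d1 true, .d2 false, .d0 false, .d1 false, .d0 false, .d2 true, .d0 true, .d1 true] _ _ _ _ _ _
    (ok150 hp)
    (ok151 hp)))))
    (runPath_node (.d1 false) [.d0 true, .d1 true, .d2 false, .d0 false, .d1 false, .d0 true] _ _ _ _ _ _
    (ok152 hp)
    (runPath_node (.d3 false) [.d0 true, .d1 true, .d2 false, .d0 false, .d1 false, .d0 true, .d1 true] _ _ _ _ _ _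
    (ok153 hp)
    (ok154 hp))))
    (runPath_node (.d1 false) [.d0 true, .d1 true, .d2 false, .d0 false, .d1 true] _ _ _ _ _ _
    (runPath_node (.d0 false) [.d0 true, .d1 true, .d2 false, .d0 false, .d1 true, .d1 false] _ _ _ _ _ _
    (runPath_node (.d2 false) [.d0 true, .d1 true, .d2 false, .d0 false, .d1 true, .d1 false, .d0 false] _ _ _ _ _ _
    (ok155 hp)
    (runPath_node (.d0 false) [.d0 true, .d1 true, .d2 false, .d0 false, .d1 true, .d1 false, .d0 false, .d2 true] _ _ _ _ _ _
    (ok156 hp)
    (ok157 hp)))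
    (ok158 hp))
    (ok159 hp)))
    (ok160 hp))
    (runPath_node (.d0 false) [.d0 true, .d1 true, .d2 true] _ _ _ _ _ _
    (runPath_node (.d1 false) [.d0 true, .d1 true, .d2 true, .d0 false] _ _ _ _ _ _
    (runPath_node (.d0 false) [.d0 true, .d1 true, .d2 true, .d0 false, .d1 false] _ _ _ _ _ _
    (ok161 hp)
    (ok162 hp))
    (ok163 hp))
    (ok164 hp)))))⟩

end Vale.Agent.P098.Six.S21
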